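import Vale.Agent.P150.Beta1.Stability.Core
import Vale.Agent.P150.Beta1.StabilityStatement
import Vale.Agent.P150.Beta1.Resolvent.Main
import Vale.Agent.P150.Beta1.Rule.Step

/-!
# The mean of a tilt at a field with an edge

The deterministic bound holds on the events of the operator norm, the words and the resolvent
words; at `β = 0` the first step of the rule alone suffices.
-/

namespace Vale.Agent.P150.Beta1.Stability

open MeasureTheory ProbabilityTheory Finset Filter Real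
open scoped Topology
open Vale.Agent.P150.Beta1.Rule

lemma tmean_sum_sites {n : ℕ} {ρ F : (Fin n → Bool) → ℝ}
    (φ : Fin n → (Fin n → Bool) → ℝ) :
    tmean ρ F (fun x => ∑ i, φ i x) = ∑ i, tmean ρ F (φ i) := by
  simp only [tmean, mean, mul_sum, ← sum_div]
  rw [sum_comm]

/-- An event whose complement lies in three rare sets has probability tending to one. -/
lemma tendsto_one_of_bad {P : ∀ n, Measure (Fin n × Fin n → ℝ)} [∀ n, IsProbabilityMeasure (P n)]
    {S A B D : ∀ n, Set (Fin n × Fin n → ℝ)}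
    (h : ∀ᶠ n in atTop, (S n)ᶜ ⊆ A n ∪ B n ∪ D n)
    (hA : ∀ᶠ n in atTop, P n (A n) ≤ ENNReal.ofReal (exp (-(n : ℝ))))
    (hB : ∀ᶠ n in atTop, P n (B n) ≤ ENNReal.ofReal (exp (-(n : ℝ))))
    (hD : ∀ᶠ n in atTop, P n (D n) ≤ ENNReal.ofReal (exp (-(n : ℝ)))) :
    Tendsto (fun n => P n (S n)) atTop (𝓝 1) := by
  have h0 : Tendsto (fun n : ℕ => ENNReal.ofReal (exp (-(n : ℝ)))) atTop (𝓝 0) := by
    simpa using ENNReal.tendsto_ofReal
      ((tendsto_exp_neg_atTop_nhds_zero).comp tendsto_natCast_atTop_atTop)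
  have hlow := ENNReal.Tendsto.sub (tendsto_const_nhds (x := (1 : ENNReal))) ((h0.add h0).add h0)
    (Or.inl ENNReal.one_ne_top)
  simp only [add_zero, tsub_zero] at hlow
  refine tendsto_of_tendsto_of_tendsto_of_le_of_le' hlow tendsto_const_nhds ?_
    (Eventually.of_forall fun n => prob_le_one)
  filter_upwards [h, hA, hB, hD] with n hn a b d
  rw [tsub_le_iff_right, ← measure_univ (μ := P n)]
  refine le_trans (measure_mono fun g _ => ?_) ((measure_union_le (S n) (A n ∪ B n ∪ D n)).trans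
    (add_le_add le_rfl ((measure_union_le _ _).trans
      (add_le_add ((measure_union_le _ _).trans (add_le_add a b)) d))))
  by_cases hg : g ∈ S n
  · exact Or.inl hg
  · exact Or.inr (hn hg)

lemma goodWords_mono {n m : ℕ} {β C C' : ℝ} {J : Fin n → Fin n → ℝ} (h : GoodWords β m C J)
    (hC : C ≤ C') : GoodWords β m C' J :=
  ⟨h.1, h.2.1,
    fun a => (h.2.2.1 a).trans (mul_le_mul_of_nonneg_right hC (sum_nonneg fun _ _ => sq_nonneg _)),
    fun d l hl hd he => ⟨(h.2.2.2 d l hl hd he).1.trans hC, (h.2.2.2 d l hl hd he).2.trans hC⟩⟩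

lemma goodResolvent_mono {n m : ℕ} {β κ C C' : ℝ} {J : Fin n → Fin n → ℝ}
    (h : GoodResolvent β κ m C J) (hC : C ≤ C') : GoodResolvent β κ m C' J :=
  fun c g d l h1 h2 h3 h4 h5 h6 h7 h8 =>
    ⟨(h c g d l h1 h2 h3 h4 h5 h6 h7 h8).1.trans hC, (h c g d l h1 h2 h3 h4 h5 h6 h7 h8).2.trans hC⟩

open scoped Classical in
/-- At `β = 0` the TAP point is the product mean and the first step of the rule is enough. -/
lemma stability_zero (hrule : RuleStatement 0) : ∃ m : ℕ, ∀ C, ∃ C1, 0 ≤ C1 ∧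
    ∀ (n : ℕ) (g : Fin n × Fin n → ℝ) (y γ : Fin n → ℝ) (F : (Fin n → Bool) → ℝ),
      GoodWords 0 m C (skCoupling 0 g) → (∀ x, 0 < F x) →
      (∀ i, γ i + onsager 0 (tanhv γ) * tanh (γ i) = y i + act (skCoupling 0 g) (tanhv γ) i) →
        ∑ i, (tmean (gibbs (skCoupling 0 g) y) F (fun x => spins x i) - tanh (γ i)) ^ 2
          ≤ C1 * (tdir (gibbs (skCoupling 0 g) y) F + 1) := by
  obtain ⟨m, hm⟩ := hrule 0
  refine ⟨m, fun C => ?_⟩
  obtain ⟨A, hA⟩ := hm C
  refine ⟨2 * A ^ 2 + 1, by positivity, fun n g y γ F hG hF hT => ?_⟩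
  set J := skCoupling 0 g
  have hρ : ∀ x, 0 < gibbs J y x := fun x => gibbs_pos x
  have hJ : ∀ a i, act J a i = 0 := fun a i => by simp [J, act, skCoupling]
  have hγ : ∀ i, γ i = y i := fun i => by
    have := hT i
    simpa [onsager, hJ] using this
  set b := fun i => tmean (gibbs J y) F (fun x => spins x i) - tanh (γ i) with hb
  set B := ∑ i, b i ^ 2 with hB
  set D := tdir (gibbs J y) F
  have hD : 0 ≤ D := tdir_nonneg hG.1 hG.2.1 hF
  have hd : ∀ x i, ampD 0 J y (spins x) 0 i = spins x i - tanh (γ i) := fun x i => by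
    simp [ampD, ampA, ampZ, tanhv, hJ, hγ]
  have h := hA n J y F (fun _ => b) hG hF
  have e1 : tmean (gibbs J y) F (fun x => ∑ i, ampD 0 J y (spins x) 0 i * b i) = B := by
    rw [hB, tmean_sum_sites]
    refine sum_congr rfl fun i _ => ?_
    rw [show (fun x => ampD 0 J y (spins x) 0 i * b i)
        = fun x => b i * spins x i - b i * tanh (γ i) from funext fun x => by rw [hd]; ring,
      tmean_sub, tmean_const_mul, tmean_const hρ hF, hb]
    ring
  have e2 : tmean (gibbs J y) F (fun x => tracePair (ampL 0 J y (spins x) 0) (fun _ => b) x)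
      = 0 := by
    simp [tracePair, deriv2, tmean_const hρ hF]
  have e3 : tmean (gibbs J y) F (testSq fun _ => b) = B := by
    rw [show testSq (fun _ : (Fin n → Bool) => b) = fun _ => B from
      funext fun x => by simp [testSq, deriv2, hB], tmean_const hρ hF]
  rw [e1, e2, e3, sub_zero] at h
  have hB0 : 0 ≤ B := sum_nonneg fun _ _ => sq_nonneg _
  have hA2 : 0 ≤ A ^ 2 := sq_nonneg A
  rcases le_total B 1 with h1 | h1
  · show B ≤ _
    have := mul_nonneg hA2 (show 0 ≤ D + 1 by linarith)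
    linarith
  · show B ≤ _
    have h2 : B ^ 2 ≤ A ^ 2 * (D + 1) * (B + 1) := by
      have h3 := pow_le_pow_left₀ (abs_nonneg B) h 2
      rwa [sq_abs, mul_pow, mul_pow, sq_sqrt (by linarith), sq_sqrt (by linarith)] at h3
    have h4 : A ^ 2 * (D + 1) * (B + 1) ≤ A ^ 2 * (D + 1) * (2 * B) :=
      mul_le_mul_of_nonneg_left (by linarith) (mul_nonneg hA2 (by linarith))
    have h5 : B * B ≤ 2 * A ^ 2 * (D + 1) * B := by linarith
    have := le_of_mul_le_mul_right h5 (by linarith)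
    linarith

/-- The module theorem. -/
theorem stabilityStatement {β : ℝ} (hβ : 0 ≤ β) (hβ1 : β < 1) : StabilityStatement β := by
  classical
  set Λ := Words.radSq β
  have hΛ : 0 ≤ Λ := zero_le_one.trans (Words.one_le_radSq β)
  have hE : ∀ᶠ n : ℕ in atTop, Measure.pi (fun _ : Fin n × Fin n => gaussianReal 0 1)
      (Words.Ev β n)ᶜ ≤ ENNReal.ofReal (exp (-(n : ℝ))) :=
    (eventually_gt_atTop 0).mono fun n hn =>
      ((ENNReal.le_ofReal_iff_toReal_le (measure_ne_top _ _) (exp_pos _).le).2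
        (Words.gauss_ev_compl β hn)).trans
        (ENNReal.ofReal_le_ofReal (exp_le_exp.2 (by linarith [Nat.cast_nonneg (α := ℝ) n])))
  rcases hβ.eq_or_lt with h0 | hpos
  · subst h0
    obtain ⟨m, hm⟩ := stability_zero (Rule.ruleStatement 0)
    obtain ⟨C, hC⟩ := wordsStatement 0 m
    obtain ⟨C1, hC10, hC1⟩ := hm C
    refine ⟨4, fun κ _ η _ gmax _ => ⟨1, one_pos, fun ρ _ _ => ⟨0, fun K _ => ⟨C1, ?_⟩⟩⟩⟩
    refine tendsto_one_of_bad (A := fun n => {g | ¬GoodWords 0 m C (skCoupling 0 g)})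
      (B := fun n => (Words.Ev 0 n)ᶜ) (D := fun n => (Words.Ev 0 n)ᶜ)
      (Eventually.of_forall fun n g hg => ?_) hC hE hE
    by_contra hbad
    simp only [Set.mem_union, Set.mem_ofPred_eq, not_or, not_not] at hbad
    refine hg fun y γ F hF hT => ?_
    refine (hC1 n g y γ F hbad.1.1 hF hT.1).trans (le_add_of_nonneg_right ?_)
    exact mul_nonneg (mul_nonneg hC10 (Nat.cast_nonneg _))
      (tmean_nonneg (fun x => gibbs_pos x) hF fun x => by split <;> norm_num)
  · refine ⟨4, fun κ₀ hκ₀ η hη gmax hgmax => ?_⟩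
    have hβ2 : β ^ 2 < 1 := pow_lt_one₀ hβ hβ1 two_ne_zero
    obtain ⟨κ, hκ, ρ₀, hρ₀, hcore⟩ :=
      stability_core hβ2 (Rule.ruleStatement β) (Rule.scalarStatement β) η Λ hη hΛ
    refine ⟨ρ₀, hρ₀, fun ρ hρ hle => ⟨0, fun K _ => ?_⟩⟩
    obtain ⟨m, hm⟩ := hcore ρ hρ hle K
    obtain ⟨Cw, hCw⟩ := wordsStatement β m
    obtain ⟨Cr, hCr⟩ := resolventStatement hpos κ hκ m
    obtain ⟨C1, N, hN⟩ := hm (max Cw Cr)
    refine ⟨C1, tendsto_one_of_bad (A := fun n => {g | ¬GoodWords β m Cw (skCoupling β g)})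
      (B := fun n => {g | ¬GoodResolvent β κ m Cr (skCoupling β g)})
      (D := fun n => (Words.Ev β n)ᶜ) ((eventually_ge_atTop N).mono fun n hn g hg => ?_)
      hCw hCr hE⟩
    by_contra hbad
    simp only [Set.mem_union, Set.mem_ofPred_eq, not_or, not_not, Set.mem_compl_iff] at hbad
    exact hg fun y γ F hF hT => hN n hn _ y γ F κ₀ gmax hκ₀.le hgmax
      (goodWords_mono hbad.1.1 (le_max_left _ _)) (goodResolvent_mono hbad.1.2 (le_max_right _ _))
      hbad.2 hF hT

end Vale.Agent.P150.Beta1.Stability
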