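import Vale.Agent.P150.Beta1.Stability.Relations

/-!
# The bootstrap

In mean square under the tilt and on the cutoff, `e₂`, `c η` and `ξ` are of the size of the rate,
when the radius is below a bound that does not depend on the index.
-/

namespace Vale.Agent.P150.Beta1.Stability

open Finset Function Real Matrix
open Vale.Agent.P150.Beta1.Algebra Vale.Agent.P150.Beta1.Rule

variable {n : ℕ}

/-- Mean square on the cutoff. -/
noncomputable def mass (β : ℝ) (J : Fin n → Fin n → ℝ) (y γ : Fin n → ℝ) (K : ℕ) (r : ℝ)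
    (F e : (Fin n → Bool) → ℝ) : ℝ :=
  tmean (gibbs J y) F fun x => cutoff β J y γ K r x ^ 2 * e x

variable {β r : ℝ} {J : Fin n → Fin n → ℝ} {y γ : Fin n → ℝ} {K : ℕ} {F : (Fin n → Bool) → ℝ}

lemma mass_mono (hF : ∀ x, 0 < F x) {f g : (Fin n → Bool) → ℝ}
    (h : ∀ x, cutoff β J y γ K r x ≠ 0 → f x ≤ g x) :
    mass β J y γ K r F f ≤ mass β J y γ K r F g :=
  tmean_mono (fun x => gibbs_pos x) hF fun x => by
    by_cases hx : cutoff β J y γ K r x = 0
    · simp [hx]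
    · exact mul_le_mul_of_nonneg_left (h x hx) (sq_nonneg _)

lemma mass_add (f g : (Fin n → Bool) → ℝ) :
    mass β J y γ K r F (fun x => f x + g x) = mass β J y γ K r F f + mass β J y γ K r F g := by
  simp only [mass, mul_add, tmean_add]

lemma mass_const_mul (c : ℝ) (f : (Fin n → Bool) → ℝ) :
    mass β J y γ K r F (fun x => c * f x) = c * mass β J y γ K r F f := by
  simp only [mass, mul_left_comm _ c, tmean_const_mul]

lemma mass_const_le (hF : ∀ x, 0 < F x) {c : ℝ} (hc : 0 ≤ c) :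
    mass β J y γ K r F (fun _ => c) ≤ c := by
  refine (tmean_mono (fun x => gibbs_pos x) hF (ψ := fun _ => c) fun x => ?_).trans_eq
    (tmean_const (fun x => gibbs_pos x) hF c)
  exact mul_le_of_le_one_left hc (pow_le_one₀ (cutoff_mem x).1 (cutoff_mem x).2)

lemma mass_nonneg (hF : ∀ x, 0 < F x) {f : (Fin n → Bool) → ℝ} (h : ∀ x, 0 ≤ f x) :
    0 ≤ mass β J y γ K r F f :=
  tmean_nonneg (fun x => gibbs_pos x) hF fun x => mul_nonneg (sq_nonneg _) (h x)

lemma sqrt_cut_le (hF : ∀ x, 0 < F x) (e : (Fin n → Bool) → ℝ) :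
    √(tmean (gibbs J y) F fun x => cut β J y γ K r e x ^ 2)
      ≤ √(mass β J y γ K r F fun x => e x ^ 2) := by
  refine Real.sqrt_le_sqrt (tmean_mono (fun x => gibbs_pos x) hF fun x => ?_)
  rw [cut, show (cutoff β J y γ K r x * cutoff β J y γ K r x * e x) ^ 2
    = cutoff β J y γ K r x ^ 2 * (cutoff β J y γ K r x ^ 2 * e x ^ 2) by ring]
  exact mul_le_of_le_one_left (mul_nonneg (sq_nonneg _) (sq_nonneg _))
    (pow_le_one₀ (cutoff_mem x).1 (cutoff_mem x).2)

/-- A test by the multiplier `χ² e`. -/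
lemma test_le (hF : ∀ x, 0 < F x) {e Φ : (Fin n → Bool) → ℝ} {A ε θ : ℝ} (hA : 0 ≤ A) (hε : 0 ≤ ε)
    (hθ : 0 < θ)
    (h : |tmean (gibbs J y) F (fun x => cut β J y γ K r e x * (e x - Φ x))|
      ≤ A * (ε * (√(tmean (gibbs J y) F fun x => cut β J y γ K r e x ^ 2) + ε))) :
    mass β J y γ K r F (fun x => e x * (e x - Φ x))
      ≤ θ / 4 * mass β J y γ K r F (fun x => e x ^ 2) + (A ^ 2 / θ + A) * ε ^ 2 := by
  set Q := mass β J y γ K r F fun x => e x ^ 2
  have hQ0 : 0 ≤ Q := mass_nonneg hF fun x => sq_nonneg _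
  have e1 : mass β J y γ K r F (fun x => e x * (e x - Φ x))
      = tmean (gibbs J y) F (fun x => cut β J y γ K r e x * (e x - Φ x)) := by
    simp only [mass, cut, sq, mul_assoc]
  rw [e1]
  refine ((le_abs_self _).trans h).trans ?_
  refine (mul_le_mul_of_nonneg_left (mul_le_mul_of_nonneg_left
    (add_le_add (sqrt_cut_le hF e) le_rfl) hε) hA).trans ?_
  have hq : √Q ^ 2 = Q := Real.sq_sqrt hQ0
  have h4 : θ * (θ / 4 * √Q ^ 2 + A ^ 2 / θ * ε ^ 2 - A * ε * √Q)
      = (θ / 2 * √Q - A * ε) ^ 2 := by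
    field_simp
    ring
  have h5 : 0 ≤ θ * (θ / 4 * √Q ^ 2 + A ^ 2 / θ * ε ^ 2 - A * ε * √Q) := h4 ▸ sq_nonneg _
  have h6 := nonneg_of_mul_nonneg_right h5 hθ
  rw [hq] at h6
  linarith

/-- A relation `e ≈ Φ` tested by the multiplier `χ² e`. -/
lemma absorb (hF : ∀ x, 0 < F x) {e Φ : (Fin n → Bool) → ℝ} {A ε : ℝ} (hA : 0 ≤ A) (hε : 0 ≤ ε)
    (h : |tmean (gibbs J y) F (fun x => cut β J y γ K r e x * (e x - Φ x))|
      ≤ A * (ε * (√(tmean (gibbs J y) F fun x => cut β J y γ K r e x ^ 2) + ε))) :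
    mass β J y γ K r F (fun x => e x ^ 2)
      ≤ 2 * mass β J y γ K r F (fun x => Φ x ^ 2) + 4 * (A ^ 2 + A) * ε ^ 2 := by
  have h1 := test_le hF hA hε one_pos h
  have h2 : mass β J y γ K r F (fun x => e x ^ 2)
      ≤ 2 * mass β J y γ K r F (fun x => e x * (e x - Φ x))
        + mass β J y γ K r F (fun x => Φ x ^ 2) := by
    rw [← mass_const_mul, ← mass_add]
    exact mass_mono hF fun x _ => by nlinarith [sq_nonneg (e x - Φ x)]
  linarith

/-- The constant of the main term against the squared radius. -/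
noncomputable def bootA (κ Λ : ℝ) : ℝ :=
  70000 * (36 * mainC κ Λ ^ 2 * (16 * Λ + 132)) + 512

/-- The constant of the coercive test. -/
noncomputable def bootB (κ θ Λ : ℝ) : ℝ := 4 * mainC κ Λ ^ 2 / θ

/-- The largest squared radius. -/
noncomputable def bootR (κ θ Λ : ℝ) : ℝ :=
  min (θ ^ 2 / (2 * bootA κ Λ + 1))
    (θ / (8 * (bootB κ θ Λ * (2 * bootA κ Λ / θ ^ 2 + 4)) + 1))

/-- The two inequalities close. -/
lemma boot_close {P Q a b θ r c : ℝ} (hθ : 0 < θ) (ha : 0 ≤ a) (hb : 0 ≤ b) (hr : 0 ≤ r)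
    (hP0 : 0 ≤ P) (hQ0 : 0 ≤ Q)
    (h1 : θ ^ 2 * P ≤ a * r * (P + Q) + c)
    (h2 : θ / 4 * Q ≤ b * P + 4 * b * r * Q + c)
    (hr1 : r ≤ θ ^ 2 / (2 * a + 1)) (hr2 : r ≤ θ / (8 * (b * (2 * a / θ ^ 2 + 4)) + 1)) :
    P + Q ≤ (2 * a * r / θ ^ 2 + 1) * (8 / θ * (b * (2 * c / θ ^ 2) + c)) + 2 * c / θ ^ 2 := by
  have hθ2 : 0 < θ ^ 2 := by positivity
  have hr1' : a * r ≤ θ ^ 2 / 2 := by
    rw [le_div_iff₀ (by positivity)] at hr1
    linarith
  have hP : P ≤ 2 * a * r / θ ^ 2 * Q + 2 * c / θ ^ 2 := by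
    rw [div_mul_eq_mul_div, ← add_div, le_div_iff₀ hθ2]
    have := mul_le_mul_of_nonneg_right hr1' hP0
    linarith
  have hk : b * (2 * a * r / θ ^ 2) + 4 * b * r ≤ θ / 8 := by
    rw [le_div_iff₀ (by positivity)] at hr2
    have e : b * (2 * a * r / θ ^ 2) + 4 * b * r = r * (b * (2 * a / θ ^ 2 + 4)) := by ring
    rw [e]
    have : 0 ≤ r * 1 := by linarith
    linarith
  have hQ : Q ≤ 8 / θ * (b * (2 * c / θ ^ 2) + c) := by
    rw [div_mul_eq_mul_div, le_div_iff₀ hθ]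
    have := mul_le_mul_of_nonneg_left hP hb
    have := mul_le_mul_of_nonneg_right hk hQ0
    linarith
  have h0 : 0 ≤ 2 * a * r / θ ^ 2 := by positivity
  have := mul_le_mul_of_nonneg_left hQ h0
  linarith

omit r in
lemma free_zero_mul [Nonempty (Fin n)] (L : Expr (Fin n)) :
    avg ((Expr.mul (Expr.const 0) L).free β) = 0 := by
  simp [avg, Expr.free, Expr.op, Expr.const, topMul_cons]

/-- `n ε² ≥ 1` in the form used for the deterministic errors. -/
lemma inv_sqrt_sq_le {D c : ℝ} (hn : 0 < n) (hD : 0 ≤ D) :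
    (c / √n) ^ 2 ≤ c ^ 2 * rate D n ^ 2 := by
  have hn0 : (0 : ℝ) < n := by exact_mod_cast hn
  rw [div_pow, Real.sq_sqrt hn0.le, rate, Real.sq_sqrt (by positivity), mul_div_assoc']
  exact div_le_div_of_nonneg_right (le_mul_of_one_le_right (sq_nonneg c) (by linarith)) hn0.le

/-- The overlap at the last index but one. -/
lemma stabXi_split (x : Fin n → Bool) :
    stabXi β J y γ (spins x) K = sXi β J y γ K x + sR1 β J y γ K x := by
  simp only [stabXi, sXi, sR1, dotObs, fTap, fGap, fInc, avg, ← add_div, ← sum_add_distrib]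
  exact congrArg (· / _) (sum_congr rfl fun i _ => by simp only [gap, ampD, tanhv]; ring)

/-- The main term per site. -/
lemma main_sq_le {C κ θ Λ R : ℝ} {m : ℕ} (H : Setting β C κ θ Λ R r m K J y γ F)
    {x : Fin n → Bool} (hB : Boxed β J y γ (spins x) K κ θ) (v : Fin n → ℝ) {V : ℝ}
    (hv : qav v ≤ V) :
    (mainTerm β J y γ (spins x) K v / n) ^ 2 ≤ mainC κ Λ ^ 2 * V
      * (6 * (stabE β J y γ (spins x) K ^ 2 + stabEta β J y γ (spins x) K ^ 2
        + (sXi β J y γ K x ^ 2 + sR1 β J y γ K x ^ 2))) := by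
  have := H.nonempty
  have hn0 : (0 : ℝ) < n := by exact_mod_cast H.npos
  have hξ := stabXi_split (β := β) (J := J) (y := y) (γ := γ) (K := K) x
  have h := abs_mainTerm_le hB H.hβ H.op H.hΛ (abs_ampA_le β J y x (K + 2)) v
  rw [Fintype.card_fin] at h
  set X := |stabE β J y γ (spins x) K| + |stabEta β J y γ (spins x) K|
    + |stabXi β J y γ (spins x) K|
  have h2 := pow_le_pow_left₀ (abs_nonneg _) h 2
  rw [sq_abs, mul_pow, mul_pow, mul_pow, Real.sq_sqrt hn0.le,
    Real.sq_sqrt (sum_nonneg fun _ _ => sq_nonneg _)] at h2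
  have hs : ∑ i, v i ^ 2 ≤ V * n := by
    simpa using sum_sq_le_of_qav hv
  have hX : X ^ 2 ≤ 6 * (stabE β J y γ (spins x) K ^ 2 + stabEta β J y γ (spins x) K ^ 2
      + (sXi β J y γ K x ^ 2 + sR1 β J y γ K x ^ 2)) := by
    refine (sq_add_three _ _ _).trans ?_
    rw [sq_abs, sq_abs, sq_abs, hξ]
    have := add_sq_le (a := sXi β J y γ K x) (b := sR1 β J y γ K x)
    nlinarith [sq_nonneg (stabE β J y γ (spins x) K), sq_nonneg (stabEta β J y γ (spins x) K)]
  rw [div_pow, div_le_iff₀ (by positivity)]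
  refine h2.trans ?_
  have hV : 0 ≤ V := (qav_nonneg v).trans hv
  calc mainC κ Λ ^ 2 * X ^ 2 * (n * ∑ i, v i ^ 2)
      ≤ mainC κ Λ ^ 2 * (6 * (stabE β J y γ (spins x) K ^ 2 + stabEta β J y γ (spins x) K ^ 2
          + (sXi β J y γ K x ^ 2 + sR1 β J y γ K x ^ 2))) * (n * (V * n)) :=
        mul_le_mul (mul_le_mul_of_nonneg_left hX (sq_nonneg _))
          (mul_le_mul_of_nonneg_left hs hn0.le) (by positivity) (by positivity)
    _ = _ := by ring

/-- Sizes of the test fields on the cutoff. -/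
lemma qav_fields {C κ θ Λ R : ℝ} {m : ℕ} (H : Setting β C κ θ Λ R r m K J y γ F)
    {x : Fin n → Bool} (hc : Close β J y γ (spins x) K (2 * r)) :
    qav (fGap β J y γ K x) ≤ (16 * Λ + 132) * r ∧ qav (fInc β J y K x) ≤ (16 * Λ + 132) * r ∧
      qav (fField β J y γ K x) ≤ (16 * Λ + 132) * r := by
  have := H.nonempty
  have hn0 : (0 : ℝ) < n := by exact_mod_cast H.npos
  have hΛr : 0 ≤ Λ * r := mul_nonneg H.hΛ H.rpos.le
  have h2 := sum_sq_le_of_qav (hc (K + 2) (by omega) le_rfl)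
  have h1 := sum_sq_le_of_qav (hc (K + 1) (by omega) (by omega))
  simp only [Fintype.card_fin] at h1 h2
  have hrn : 0 ≤ r * n := mul_nonneg H.rpos.le hn0.le
  have hΛrn : 0 ≤ Λ * (r * n) := mul_nonneg H.hΛ hrn
  simp only [qav, avg, Fintype.card_fin, div_le_iff₀ hn0]
  refine ⟨h2.trans (by linarith), ?_, ?_⟩
  · have hpt : ∀ i, fInc β J y K x i ^ 2
        ≤ 2 * gap β J y γ (spins x) (K + 1) i ^ 2 + 2 * gap β J y γ (spins x) (K + 2) i ^ 2 :=
      fun i => by
        have := sq_nonneg (gap β J y γ (spins x) (K + 1) i + gap β J y γ (spins x) (K + 2) i)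
        simp only [fInc, ampD, gap] at this ⊢
        linarith
    refine (sum_le_sum fun i _ => hpt i).trans ?_
    rw [sum_add_distrib, ← mul_sum, ← mul_sum]
    linarith
  · have hz := field_sub_sq H.hβ H.op H.hΛ H.tap hc (by linarith [H.rle, H.rpos])
    rw [Fintype.card_fin] at hz
    have hJ := (H.op (fGap β J y γ K x)).trans (mul_le_mul_of_nonneg_left h2 H.hΛ)
    have hpt : ∀ i, fField β J y γ K x i ^ 2
        ≤ 2 * (ampZ β J y (spins x) (K + 1) i - γ i) ^ 2
          + 2 * act J (fGap β J y γ K x) i ^ 2 := fun i => by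
      have := sq_nonneg (ampZ β J y (spins x) (K + 1) i - γ i + act J (fGap β J y γ K x) i)
      simp only [fField, fJGap]
      linarith
    refine (sum_le_sum fun i _ => hpt i).trans ?_
    rw [sum_add_distrib, ← mul_sum, ← mul_sum]
    linarith

/-- The orthogonality relations. -/
lemma exists_rule_rels {β : ℝ} (hrule : RuleStatement β) (hscal : ScalarStatement β) (K : ℕ) :
    ∃ m : ℕ, ∀ C κ θ Λ R r : ℝ, ∃ A, 0 ≤ A ∧ ∀ (m' n : ℕ) (J : Fin n → Fin n → ℝ)
      (y γ : Fin n → ℝ) (F : (Fin n → Bool) → ℝ), m ≤ m' →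
      Setting β C κ θ Λ R r m' K J y γ F →
      ∀ e ∈ [sR1 β J y γ K, sR2 β J y γ K, sR3 β J y γ K, sR4 β J y γ K, sR5 β J y K],
        mass β J y γ K r F (fun x => e x ^ 2) ≤ A * rate (tdir (gibbs J y) F) n ^ 2 := by
  obtain ⟨m1, -, h1⟩ := exists_rule_test hrule K (K + 1) le_rfl
  obtain ⟨m0, -, h0⟩ := exists_rule_test hrule K K (Nat.le_succ K)
  obtain ⟨m5, h5⟩ := hscal (K + 1)
  refine ⟨max (max m1 m0) m5, fun C κ θ Λ R r => ?_⟩
  obtain ⟨W, hW1, hW⟩ := exists_fields C Λ R β K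
  obtain ⟨S, hS0, hS⟩ := exists_slow C Λ R κ β K
  set W' := W + |2 * (S ^ 2 * cutG R r) + 2 * S| with hW'
  have hWW : W ≤ W' := le_add_of_nonneg_right (abs_nonneg _)
  obtain ⟨A1, hA1, t1⟩ := h1 C W' (by linarith [abs_nonneg (2 * (S ^ 2 * cutG R r) + 2 * S)])
  obtain ⟨A0, hA0, t0⟩ := h0 C W' (by linarith [abs_nonneg (2 * (S ^ 2 * cutG R r) + 2 * S)])
  obtain ⟨A5, hA5⟩ := h5 C
  set B := 4 * (A1 ^ 2 + A1) + 4 * (A0 ^ 2 + A0) with hB
  refine ⟨B + 3 * |A5|, by positivity, fun m' n J y γ F hm H => ?_⟩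
  have := H.nonempty
  have hρ : ∀ x, 0 < gibbs J y x := fun x => gibbs_pos x
  set D := tdir (gibbs J y) F
  set ε := rate D n
  have hD : 0 ≤ D := tdir_nonneg H.words.1 H.words.2.1 H.Fpos
  have hε : 0 ≤ ε := Real.sqrt_nonneg _
  have hGm : ∀ {k}, k ≤ max (max m1 m0) m5 → GoodWords β k C J := fun {k} hk =>
    ⟨H.words.1, H.words.2.1, H.words.2.2.1,
      fun d l hl => H.words.2.2.2 d l (hl.trans (hk.trans hm))⟩
  have hg1 : GoodWords β m1 C J := hGm ((le_max_left _ _).trans (le_max_left _ _))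
  have hg0 : GoodWords β m0 C J := hGm ((le_max_right _ _).trans (le_max_left _ _))
  have hcut : ∀ e ∈ [sXi β J y γ K, sR1 β J y γ K, sR2 β J y γ K, sR3 β J y γ K, sR4 β J y γ K,
      sTest β J y γ K (fGap β J y γ K) (xGap β J y K),
      sTest β J y γ K (fInc β J y K) (xInc β J y K),
      sTest β J y γ K (fField β J y γ K) (xField β J y K)],
      ∀ x, scGrad (cut β J y γ K r e) x ≤ W' := fun e he x =>
    (H.scGrad_cut e hS0 (fun z hz => hS θ r m' n J y γ F H z hz e he) x).trans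
      ((le_abs_self _).trans (le_add_of_nonneg_left (by linarith)))
  have hfld : ∀ x, (FieldOK J K W' (fTap γ) xTap x) ∧
      (FieldOK J K W' (fGap β J y γ K) (xGap β J y K) x) ∧
      (FieldOK J K W' (fJGap β J y γ K) (xJGap β J y K) x) := fun x => by
    obtain ⟨a, b, c, -, -⟩ := hW κ θ r m' n J y γ F H x
    have up : ∀ {v X}, FieldOK J K W v X x → FieldOK J K W' v X x := fun h =>
      ⟨h.norm.trans (mul_le_mul_of_nonneg_right hWW (Nat.cast_nonneg _)), h.grad.trans hWW, h.deg,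
        h.size.trans hWW, act_mono h.act hWW, h.mlip.mono hWW⟩
    exact ⟨up a, up b, up c⟩
  have hzero : mass β J y γ K r F (fun _ => (0 : ℝ) ^ 2) = 0 := by
    simp [mass, tmean_const hρ H.Fpos]
  have r5 : mass β J y γ K r F (fun x => sR5 β J y K x ^ 2) ≤ |A5| * ε ^ 2 := by
    have h := hA5 n J y F (hGm (le_max_right _ _)) H.Fpos
    have hn0 : (0 : ℝ) < n := by exact_mod_cast H.npos
    refine (tmean_mono hρ H.Fpos fun x => mul_le_of_le_one_left (sq_nonneg _)
      (pow_le_one₀ (cutoff_mem x).1 (cutoff_mem x).2)).trans ?_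
    simp only [ε, rate]
    rw [Real.sq_sqrt (by positivity), ← mul_div_assoc, le_div_iff₀ hn0, mul_comm _ (n : ℝ)]
    exact h.trans (mul_le_mul_of_nonneg_right (le_abs_self A5) (by linarith))
  have hε2 : 0 ≤ ε ^ 2 := sq_nonneg _
  have hAe : 0 ≤ |A5| * ε ^ 2 := mul_nonneg (abs_nonneg _) hε2
  have hA1e : 0 ≤ (A1 ^ 2 + A1) * ε ^ 2 := mul_nonneg (by positivity) hε2
  have hA0e : 0 ≤ (A0 ^ 2 + A0) * ε ^ 2 := mul_nonneg (by positivity) hε2
  intro e he
  simp only [List.mem_cons, List.not_mem_nil, or_false] at he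
  rcases he with rfl | rfl | rfl | rfl | rfl
  · have h := absorb (e := sR1 β J y γ K) (Φ := fun _ => 0) H.Fpos hA1 hε (by
      have := t1 n J y F (cut β J y γ K r (sR1 β J y γ K)) (fTap γ) xTap H.npos hg1 H.Fpos
        (hcut _ (by simp)) fun x => ⟨(hfld x).1.norm, (hfld x).1.grad, (hfld x).1.deg, (hfld x).1.size⟩
      simp only [xTap, free_zero_mul] at this
      exact this)
    rw [hzero] at h
    rw [hB]
    linarith
  · have h := absorb (e := sR2 β J y γ K) (Φ := fun _ => 0) H.Fpos hA1 hε (by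
      have := t1 n J y F (cut β J y γ K r (sR2 β J y γ K)) (fGap β J y γ K) (xGap β J y K) H.npos hg1
        H.Fpos (hcut _ (by simp))
        fun x => ⟨(hfld x).2.1.norm, (hfld x).2.1.grad, (hfld x).2.1.deg, (hfld x).2.1.size⟩
      have hz : ∀ x, avg ((Expr.mul (xGap β J y K x) ((ampCoef β J y (spins x)).L (K + 1))).free β)
          = 0 := fun x => by
        simp [avg, xGap, free_slope_later β J y (spins x) le_rfl]
      simp only [hz] at this
      exact this)
    rw [hzero] at h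
    rw [hB]
    linarith
  · have h := absorb (e := sR3 β J y γ K) (Φ := fun _ => 0) H.Fpos hA0 hε (by
      have := t0 n J y F (cut β J y γ K r (sR3 β J y γ K)) (fGap β J y γ K) (xGap β J y K) H.npos hg0
        H.Fpos (hcut _ (by simp))
        fun x => ⟨(hfld x).2.1.norm, (hfld x).2.1.grad, (hfld x).2.1.deg, (hfld x).2.1.size⟩
      have hz : ∀ x, avg ((Expr.mul (xGap β J y K x) ((ampCoef β J y (spins x)).L K)).free β)
          = 0 := fun x => by
        simp [avg, xGap, free_slope_later β J y (spins x) (Nat.le_succ K)]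
      simp only [hz] at this
      exact this)
    rw [hzero] at h
    rw [hB]
    linarith
  · have h := absorb (e := sR4 β J y γ K)
      (Φ := fun x => onsager β (ampA β J y (spins x) (K + 2)) * sR5 β J y K x) H.Fpos hA1 hε (by
      have := t1 n J y F (cut β J y γ K r (sR4 β J y γ K)) (fJGap β J y γ K) (xJGap β J y K) H.npos
        hg1 H.Fpos (hcut _ (by simp))
        fun x => ⟨(hfld x).2.2.norm, (hfld x).2.2.grad, (hfld x).2.2.deg, (hfld x).2.2.size⟩
      have hz : ∀ x, avg ((Expr.mul (xJGap β J y K x) ((ampCoef β J y (spins x)).L (K + 1))).free β)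
          = onsager β (ampA β J y (spins x) (K + 2)) * ampT β J y (spins x) (K + 1) := fun x =>
        avg_free_coup_L β J y (spins x) K
      refine le_of_eq_of_le (congrArg abs (congrArg _ (funext fun x => ?_))) this
      simp only [hz, sR4, sR5, dotObs, fInc]
      ring)
    have h2 : mass β J y γ K r F (fun x => (onsager β (ampA β J y (spins x) (K + 2))
        * sR5 β J y K x) ^ 2) ≤ |A5| * ε ^ 2 := by
      refine (mass_mono H.Fpos fun x _ => ?_).trans r5
      rw [mul_pow]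
      exact mul_le_of_le_one_left (sq_nonneg _)
        ((sq_le_one_iff_abs_le_one _).2 ((abs_onsager_le β (abs_ampA_le β J y x _)).trans H.hβ))
    rw [hB]
    linarith
  · rw [hB]
    linarith

/-- The main terms in mean square. -/
lemma main_mass {C κ θ Λ R : ℝ} {m : ℕ} (H : Setting β C κ θ Λ R r m K J y γ F)
    (v : (Fin n → Bool) → Fin n → ℝ) {V : ℝ}
    (hv : ∀ x, cutoff β J y γ K r x ≠ 0 → qav (v x) ≤ V) :
    mass β J y γ K r F (fun x => (mainTerm β J y γ (spins x) K (v x) / n) ^ 2)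
      ≤ mainC κ Λ ^ 2 * V * (6 * (mass β J y γ K r F
            (fun x => stabE β J y γ (spins x) K ^ 2 + stabEta β J y γ (spins x) K ^ 2)
        + (mass β J y γ K r F (fun x => sXi β J y γ K x ^ 2)
          + mass β J y γ K r F (fun x => sR1 β J y γ K x ^ 2)))) := by
  refine (mass_mono H.Fpos fun x hx => main_sq_le H (H.box x fun j h1 h2 =>
    (close_of_cutoff H.rpos hx j h1 h2).trans (by linarith [H.rpos])) (v x) (hv x hx)).trans_eq ?_
  simp only [mass_const_mul, mass_add]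

/-- The coercive test at one configuration. -/
lemma tap_pointwise {C κ θ Λ R : ℝ} {m : ℕ} (H : Setting β C κ θ Λ R r m K J y γ F)
    {x : Fin n → Bool} (hc : Close β J y γ (spins x) K (2 * r)) :
    θ / 2 * sXi β J y γ K x ^ 2 ≤ sXi β J y γ K x
        * (sXi β J y γ K x - mainTerm β J y γ (spins x) K (fTap γ x) / n)
      + bootB κ θ Λ * (stabE β J y γ (spins x) K ^ 2 + stabEta β J y γ (spins x) K ^ 2
        + 2 * sR1 β J y γ K x ^ 2 + 4 * r * sXi β J y γ K x ^ 2) := by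
  have := H.nonempty
  have hr := H.rpos
  have hθ := H.hθ
  have hB : Boxed β J y γ (spins x) K κ θ :=
    H.box x fun j h1 h2 => (hc j h1 h2).trans (by linarith)
  have hl := tap_test_lower hB H.hβ H.op H.hΛ (ρ := √(2 * r)) (ξ := sXi β J y γ K x)
    (Real.sqrt_nonneg _) (by rw [Real.sq_sqrt (by positivity)]; exact hc _ (by omega) le_rfl)
  rw [Fintype.card_fin, stabXi_split x, add_sub_cancel_left] at hl
  set E1 := stabE β J y γ (spins x) K
  set E2 := stabEta β J y γ (spins x) K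
  set ξ := sXi β J y γ K x
  set t := sR1 β J y γ K x
  set X := |E1| + |E2| + |t| + √(2 * r) * |ξ + t|
  set M := mainC κ Λ
  have hX : X ^ 2 ≤ 4 * (E1 ^ 2 + E2 ^ 2 + 2 * t ^ 2 + 4 * r * ξ ^ 2) := by
    have h4 : ∀ p q u v : ℝ, (p + q + u + v) ^ 2 ≤ 4 * (p ^ 2 + q ^ 2 + u ^ 2 + v ^ 2) :=
      fun p q u v => by
        linarith [sq_nonneg (p - q), sq_nonneg (p - u), sq_nonneg (p - v), sq_nonneg (q - u),
          sq_nonneg (q - v), sq_nonneg (u - v)]
    refine (h4 |E1| |E2| |t| _).trans ?_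
    rw [sq_abs, sq_abs, sq_abs, mul_pow, Real.sq_sqrt (by positivity), sq_abs]
    have h5 := mul_le_mul_of_nonneg_left (add_sq_le (a := ξ) (b := t))
      (show 0 ≤ 2 * r by positivity)
    have h6 : 4 * r * t ^ 2 ≤ t ^ 2 := mul_le_of_le_one_left (sq_nonneg _) (by linarith [H.rle])
    linarith
  have h7 : M * |ξ| * X ≤ θ / 2 * ξ ^ 2 + bootB κ θ Λ * (X ^ 2 / 4) := by
    have h8 : θ * (θ / 2 * |ξ| ^ 2 + bootB κ θ Λ * (X ^ 2 / 4) - M * |ξ| * X)
        = (θ * |ξ| - M * X) ^ 2 / 2 + M ^ 2 * X ^ 2 / 2 := by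
      rw [bootB]
      field_simp
      ring
    have h9 : 0 ≤ θ * (θ / 2 * |ξ| ^ 2 + bootB κ θ Λ * (X ^ 2 / 4) - M * |ξ| * X) := by
      rw [h8]; positivity
    rw [← sq_abs ξ]
    linarith [nonneg_of_mul_nonneg_right h9 hθ]
  have h10 := mul_le_mul_of_nonneg_left hX (show 0 ≤ bootB κ θ Λ by rw [bootB]; positivity)
  show θ / 2 * ξ ^ 2 ≤ ξ * (ξ - mainTerm β J y γ (spins x) K (tanhv γ) / n)
    + bootB κ θ Λ * (E1 ^ 2 + E2 ^ 2 + 2 * t ^ 2 + 4 * r * ξ ^ 2)
  linarith

/-- The relations in mean square. -/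
lemma relations_mass {C κ θ Λ R W : ℝ} {m : ℕ} (H : Setting β C κ θ Λ R r m K J y γ F)
    (hW : ∀ x, Inner β J y γ K (4 * r) x →
      ((xGap β J y K x).deg ≤ K + 4 ∧ (xGap β J y K x).size ≤ W) ∧
      ((xInc β J y K x).deg ≤ K + 4 ∧ (xInc β J y K x).size ≤ W) ∧
      ((xField β J y K x).deg ≤ K + 4 ∧ (xField β J y K x).size ≤ W)) :
    θ ^ 2 * mass β J y γ K r F
        (fun x => stabE β J y γ (spins x) K ^ 2 + stabEta β J y γ (spins x) K ^ 2)
      ≤ 70000 * (mass β J y γ K r F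
            (fun x => sTest β J y γ K (fGap β J y γ K) (xGap β J y K) x ^ 2)
          + mass β J y γ K r F (fun x => sTest β J y γ K (fInc β J y K) (xInc β J y K) x ^ 2)
          + mass β J y γ K r F
            (fun x => sTest β J y γ K (fField β J y γ K) (xField β J y K) x ^ 2)
          + mass β J y γ K r F (fun x => sR1 β J y γ K x ^ 2)
          + mass β J y γ K r F (fun x => sR2 β J y γ K x ^ 2)
          + mass β J y γ K r F (fun x => sR3 β J y γ K x ^ 2)
          + mass β J y γ K r F (fun x => sR4 β J y γ K x ^ 2)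
          + mass β J y γ K r F (fun x => sR5 β J y K x ^ 2)
          + mass β J y γ K r F (fun _ => (√(C * (W * stabSize β K) ^ 2) / √n) ^ 2))
        + 512 * r * mass β J y γ K r F (fun x => sXi β J y γ K x ^ 2) := by
  have h := mass_mono (β := β) (γ := γ) (K := K) (r := r) H.Fpos (F := F)
    (f := fun x => θ ^ 2 * (stabE β J y γ (spins x) K ^ 2 + stabEta β J y γ (spins x) K ^ 2))
    fun x hx => by
      obtain ⟨h1, h2, h3⟩ := hW x (Classical.byContradiction fun hni => hx (H.support x hni).1)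
      exact relations H x (close_of_cutoff H.rpos hx) h1 h2 h3
  simpa only [mass_const_mul, mass_add] using h

/-- The first inequality of the bootstrap, in numbers. -/
lemma first_ineq {θ P Q r V M A Ar ν e d t1 t2 t3 u1 u2 u3 u4 u5 z : ℝ} (hP : 0 ≤ P)
    (hr : 0 ≤ r) (hr1 : r ≤ 1) (hMV : 0 ≤ M ^ 2 * V) (hAr : 0 ≤ Ar) (he : 0 ≤ e) (hd : 0 ≤ d)
    (h : θ ^ 2 * P ≤ 70000 * (t1 + t2 + t3 + u1 + u2 + u3 + u4 + u5 + z) + 512 * r * Q)
    (h1 : t1 ≤ 2 * (M ^ 2 * (V * r) * (6 * (P + (Q + u1)))) + 4 * (A ^ 2 + A) * e)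
    (h2 : t2 ≤ 2 * (M ^ 2 * (V * r) * (6 * (P + (Q + u1)))) + 4 * (A ^ 2 + A) * e)
    (h3 : t3 ≤ 2 * (M ^ 2 * (V * r) * (6 * (P + (Q + u1)))) + 4 * (A ^ 2 + A) * e)
    (g1 : u1 ≤ Ar * e) (g2 : u2 ≤ Ar * e) (g3 : u3 ≤ Ar * e) (g4 : u4 ≤ Ar * e) (g5 : u5 ≤ Ar * e)
    (gz : z ≤ ν ^ 2 * e) :
    θ ^ 2 * P ≤ (70000 * (36 * M ^ 2 * V) + 512) * r * (P + Q)
      + (70000 * (36 * M ^ 2 * V * Ar + 12 * (A ^ 2 + A) + 5 * Ar + ν ^ 2) + d) * e := by
  have i1 := mul_le_mul_of_nonneg_left g1 (mul_nonneg hMV hr)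
  have i2 := mul_le_mul_of_nonneg_right hr1 (mul_nonneg hMV (mul_nonneg hAr he))
  have i3 : 0 ≤ r * P := mul_nonneg hr hP
  have i4 : 0 ≤ d * e := mul_nonneg hd he
  linarith

/-- The bootstrap. -/
theorem exists_bootstrap {β : ℝ} (hrule : RuleStatement β) (hscal : ScalarStatement β)
    (hβ : β ^ 2 ≤ 1) (K : ℕ) :
    ∃ m : ℕ, ∀ C κ θ Λ R r : ℝ, 0 < κ → 0 < θ → 0 ≤ Λ → r ≤ bootR κ θ Λ → ∃ A, 0 ≤ A ∧
      ∀ (m' n : ℕ) (J : Fin n → Fin n → ℝ) (y γ : Fin n → ℝ) (F : (Fin n → Bool) → ℝ), m ≤ m' →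
      Setting β C κ θ Λ R r m' K J y γ F →
        mass β J y γ K r F (fun x => stabE β J y γ (spins x) K ^ 2
            + stabEta β J y γ (spins x) K ^ 2 + sXi β J y γ K x ^ 2 + sR1 β J y γ K x ^ 2)
          ≤ A * rate (tdir (gibbs J y) F) n ^ 2 := by
  obtain ⟨mr, hmr⟩ := exists_rule_rels hrule hscal K
  obtain ⟨mt, -, hmt⟩ := exists_resolvent_test hrule hβ K
  refine ⟨max mr mt, fun C κ θ Λ R r hκ hθ hΛ hr => ?_⟩
  obtain ⟨Ar, hAr, hrel⟩ := hmr C κ θ Λ R r
  obtain ⟨W, hW1, hW⟩ := exists_fields C Λ R β K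
  obtain ⟨S, hS0, hS⟩ := exists_slow C Λ R κ β K
  set W' := W + |2 * (S ^ 2 * cutG R r) + 2 * S| with hW'
  have hWW : W ≤ W' := le_add_of_nonneg_right (abs_nonneg _)
  obtain ⟨A, hA, ht⟩ := hmt C κ hκ W' (by linarith)
  have hM0 : 0 ≤ mainC κ Λ := mainC_nonneg hκ
  set b := bootB κ θ Λ with hb
  have hb0 : 0 ≤ b := by rw [hb, bootB]; positivity
  set a := bootA κ Λ with ha
  have ha0 : 0 ≤ a := by rw [ha, bootA]; positivity
  set ν := √(C * (W * stabSize β K) ^ 2) with hν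
  set c := 70000 * (36 * mainC κ Λ ^ 2 * (16 * Λ + 132) * Ar + 12 * (A ^ 2 + A) + 5 * Ar + ν ^ 2)
    + (2 * b * Ar + (A ^ 2 / θ + A)) with hc
  have hd : 0 ≤ 2 * b * Ar + (A ^ 2 / θ + A) := by positivity
  have hc0 : 0 ≤ c := by rw [hc]; positivity
  refine ⟨|(2 * a * r / θ ^ 2 + 1) * (8 / θ * (b * (2 * c / θ ^ 2) + c)) + 2 * c / θ ^ 2| + Ar,
    by positivity, fun m' n J y γ F hm H => ?_⟩
  have hn0 : (0 : ℝ) < n := by exact_mod_cast H.npos
  set D := tdir (gibbs J y) F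
  set ε := rate D n
  have hD : 0 ≤ D := tdir_nonneg H.words.1 H.words.2.1 H.Fpos
  have hε : 0 ≤ ε := Real.sqrt_nonneg _
  have hε2 : 0 ≤ ε ^ 2 := sq_nonneg _
  have hGt : GoodWords β mt C J := ⟨H.words.1, H.words.2.1, H.words.2.2.1,
    fun d l hl => H.words.2.2.2 d l (hl.trans ((le_max_right _ _).trans hm))⟩
  have hRt : GoodResolvent β κ mt C J := fun c g d l h1 h2 h3 h4 h5 hl =>
    H.resolvent c g d l h1 h2 h3 h4 h5 (hl.trans ((le_max_right _ _).trans hm))
  have Rel := hrel m' n J y γ F ((le_max_left _ _).trans hm) H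
  have hcut : ∀ e ∈ [sXi β J y γ K, sR1 β J y γ K, sR2 β J y γ K, sR3 β J y γ K, sR4 β J y γ K,
      sTest β J y γ K (fGap β J y γ K) (xGap β J y K),
      sTest β J y γ K (fInc β J y K) (xInc β J y K),
      sTest β J y γ K (fField β J y γ K) (xField β J y K)],
      ∀ x, scGrad (cut β J y γ K r e) x ≤ W' := fun e he x =>
    (H.scGrad_cut e hS0 (fun z hz => hS θ r m' n J y γ F H z hz e he) x).trans
      ((le_abs_self _).trans (le_add_of_nonneg_left (by linarith)))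
  have htest : ∀ (v : (Fin n → Bool) → Fin n → ℝ) (X : (Fin n → Bool) → Expr (Fin n))
      (e : (Fin n → Bool) → ℝ), (∀ x, scGrad (cut β J y γ K r e) x ≤ W') →
      (∀ x, Inner β J y γ K (4 * r) x → FieldOK J K W v X x) →
      |tmean (gibbs J y) F (fun x => cut β J y γ K r e x
        * (sTest β J y γ K v X x - mainTerm β J y γ (spins x) K (v x) / n))|
      ≤ A * (ε * (√(tmean (gibbs J y) F fun x => cut β J y γ K r e x ^ 2) + ε)) :=
    fun v X e he hok => ht n J y γ F θ (4 * r) (cut β J y γ K r e) v X H.npos hGt hRt H.Fpos H.tap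
      H.box (H.cut_support e) he fun x hx =>
        ⟨(hok x hx).norm.trans (mul_le_mul_of_nonneg_right hWW hn0.le),
          (hok x hx).grad.trans hWW, (hok x hx).deg, (hok x hx).size.trans hWW⟩
  have hqf := fun x (hx : cutoff β J y γ K r x ≠ 0) => qav_fields H (close_of_cutoff H.rpos hx)
  have step : ∀ (v : (Fin n → Bool) → Fin n → ℝ) (X : (Fin n → Bool) → Expr (Fin n)),
      (∀ x, scGrad (cut β J y γ K r (sTest β J y γ K v X)) x ≤ W') →
      (∀ x, Inner β J y γ K (4 * r) x → FieldOK J K W v X x) →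
      (∀ x, cutoff β J y γ K r x ≠ 0 → qav (v x) ≤ (16 * Λ + 132) * r) →
      mass β J y γ K r F (fun x => sTest β J y γ K v X x ^ 2)
        ≤ 2 * (mainC κ Λ ^ 2 * ((16 * Λ + 132) * r) * (6 * (mass β J y γ K r F
            (fun x => stabE β J y γ (spins x) K ^ 2 + stabEta β J y γ (spins x) K ^ 2)
          + (mass β J y γ K r F (fun x => sXi β J y γ K x ^ 2)
            + mass β J y γ K r F (fun x => sR1 β J y γ K x ^ 2)))))
          + 4 * (A ^ 2 + A) * ε ^ 2 :=
    fun v X he hok hv => (absorb H.Fpos hA hε (htest v X _ he hok)).trans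
      (add_le_add (mul_le_mul_of_nonneg_left (main_mass H v hv) zero_le_two) le_rfl)
  have T1 := step (fGap β J y γ K) (xGap β J y K) (hcut _ (by simp))
    (fun x _ => (hW κ θ r m' n J y γ F H x).2.1) fun x hx => (hqf x hx).1
  have T2 := step (fInc β J y K) (xInc β J y K) (hcut _ (by simp))
    (fun x _ => (hW κ θ r m' n J y γ F H x).2.2.2.1) fun x hx => (hqf x hx).2.1
  have T3 := step (fField β J y γ K) (xField β J y K) (hcut _ (by simp))
    (fun x hx => (hW κ θ r m' n J y γ F H x).2.2.2.2 hx) fun x hx => (hqf x hx).2.2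
  have hr0 : 0 ≤ r := H.rpos.le
  set P := mass β J y γ K r F
    fun x => stabE β J y γ (spins x) K ^ 2 + stabEta β J y γ (spins x) K ^ 2
  set Q := mass β J y γ K r F fun x => sXi β J y γ K x ^ 2
  have hP0 : 0 ≤ P := mass_nonneg H.Fpos fun x => by positivity
  have hQ0 : 0 ≤ Q := mass_nonneg H.Fpos fun x => sq_nonneg _
  have h1 : θ ^ 2 * P ≤ a * r * (P + Q) + c * ε ^ 2 := by
    have hWx : ∀ x, Inner β J y γ K (4 * r) x →
        ((xGap β J y K x).deg ≤ K + 4 ∧ (xGap β J y K x).size ≤ W) ∧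
        ((xInc β J y K x).deg ≤ K + 4 ∧ (xInc β J y K x).size ≤ W) ∧
        ((xField β J y K x).deg ≤ K + 4 ∧ (xField β J y K x).size ≤ W) := fun x hx => by
      obtain ⟨-, fG, -, fI, fF⟩ := hW κ θ r m' n J y γ F H x
      exact ⟨⟨fG.deg, fG.size⟩, ⟨fI.deg, fI.size⟩, ⟨(fF hx).deg, (fF hx).size⟩⟩
    exact first_ineq hP0 hr0 (by linarith [H.rle]) (by positivity) hAr hε2 hd
      (relations_mass H hWx) T1 T2 T3 (Rel _ (by simp)) (Rel _ (by simp)) (Rel _ (by simp))
      (Rel _ (by simp)) (Rel _ (by simp))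
      ((mass_const_le H.Fpos (sq_nonneg _)).trans (inv_sqrt_sq_le H.npos hD))
  have h2 : θ / 4 * Q ≤ b * P + 4 * b * r * Q + c * ε ^ 2 := by
    have ht1 := htest (fTap γ) xTap (sXi β J y γ K) (hcut _ (by simp))
      fun x _ => (hW κ θ r m' n J y γ F H x).1
    have hz : ∀ x, sTest β J y γ K (fTap γ) xTap x = sXi β J y γ K x := fun x => by
      simp [sTest, sXi, traceObs, xTap, Expr.mat_const, avg]
    simp only [hz] at ht1
    have hU := test_le H.Fpos hA hε hθ ht1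
    have hpt := mass_mono (β := β) (γ := γ) (K := K) (r := r) H.Fpos (F := F)
      (f := fun x => θ / 2 * sXi β J y γ K x ^ 2)
      fun x hx => tap_pointwise H (close_of_cutoff H.rpos hx)
    simp only [mass_const_mul, mass_add] at hpt
    rw [← hb, show mass β J y γ K r F (fun x => stabE β J y γ (spins x) K ^ 2)
      + mass β J y γ K r F (fun x => stabEta β J y γ (spins x) K ^ 2) = P from
        (mass_add _ _).symm] at hpt
    have := mul_le_mul_of_nonneg_left (Rel (sR1 β J y γ K) (by simp)) hb0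
    have : 0 ≤ 70000 * (36 * mainC κ Λ ^ 2 * (16 * Λ + 132) * Ar + 12 * (A ^ 2 + A) + 5 * Ar
      + ν ^ 2) * ε ^ 2 := by positivity
    rw [hc]
    linarith
  have hcl := boot_close hθ ha0 hb0 hr0 hP0 hQ0 h1 h2
    (hr.trans (min_le_left _ _)) (hr.trans (min_le_right _ _))
  rw [mass_add, mass_add, add_mul]
  refine add_le_add (hcl.trans (le_trans (le_of_eq ?_)
    (mul_le_mul_of_nonneg_right (le_abs_self _) hε2))) (Rel _ (by simp))
  ring

end Vale.Agent.P150.Beta1.Stability
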