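import Vale.Agent.P150.Beta1.Stability.Geo

/-!
# The free identities of the stability argument, for AMP

With `k = K + 1`, the expression `stabA` is the matrix `L_k (J - B) - B L_{k-1}` that represents the
driving term of the equation for `ampA (K + 2) - m`.
-/

namespace Vale.Agent.P150.Beta1.Stability

open Finset Real
open Vale.Agent.P150.Beta1.Algebra

variable {ι : Type*} [Fintype ι]

/-- `L_k (J - B) - B L_{k-1}`, `B` the Onsager coefficient of `ampA k`, `k = K + 1`. -/
noncomputable def stabA (β : ℝ) (J : ι → ι → ℝ) (y x : ι → ℝ) (K : ℕ) : Expr ι :=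
  .add (.mul ((ampCoef β J y x).L (K + 1))
      (.add .coup (.const (-(onsager β (ampA β J y x (K + 1)))))))
    (.mul (.const (-(onsager β (ampA β J y x (K + 1))))) ((ampCoef β J y x).L K))

/-- The part of the free trace that passes through the resolvent. -/
noncomputable def stabY (β : ℝ) (G : ι → ℝ) (J : ι → ι → ℝ) (y x : ι → ℝ) (K : ℕ) : ℝ :=
  carry β G (ampU β J y x (K + 1)) (chainList (ampU β J y x) K) (stabA β J y x K)

/-- The scalar `c = T + Y`. -/
noncomputable def stabC (β : ℝ) (G : ι → ℝ) (J : ι → ι → ℝ) (y x : ι → ℝ) (K : ℕ) : ℝ :=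
  ampT β J y x (K + 1) + stabY β G J y x K

variable (β : ℝ) (G : ι → ℝ) (J : ι → ι → ℝ) (y x : ι → ℝ) (K : ℕ)

lemma deg_stabA : (stabA β J y x K).deg ≤ K + 2 := by
  have h1 := (ampCoef β J y x).deg_L (K + 1)
  have h2 := (ampCoef β J y x).deg_L K
  simp only [stabA, Expr.deg, Expr.const]
  omega

/-- The field at level `k` meets the driving matrix and the resolvent in `c G`. -/
theorem resFree_grad_stabA (i : ι) :
    resFree β G (.mul (gradE β J y x (K + 1)) (stabA β J y x K)) i
      = β ^ 2 * stabC β G J y x K * G i := by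
  have hX : (stabA β J y x K).deg ≤ (chainList (ampU β J y x) K).length + 2 := by
    simpa using deg_stabA β J y x K
  rw [gradE, chainList, resFree_chain_top β G _ _ _ hX]
  have h1 : (Expr.mul (chain β (chainList (ampU β J y x) (K + 1)))
        (.mul (stabA β J y x K) (.diag G))).free β i = β ^ 2 * ampT β J y x (K + 1) * G i := by
    set C := ampCoef β J y x
    have hA := free_chain_A_diag (β := β) C (ampU β J y x) (K + 1) G i
    rw [← ampT_eq] at hA
    rw [← hA]
    have hz := free_chain_mul_eq_zero (β := β) (chainList (ampU β J y x) (K + 1))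
      (.mul (.mul (C.L (K + 1)) (.const (-(C.ons (K + 1)) - C.dlt (K + 1)))) (.diag G))
      (by simpa [Expr.deg, Expr.const] using C.deg_L (K + 1)) i
    simp only [stabA, Coef.A, Expr.free, Expr.op, Expr.const, LinearMap.comp_apply, map_add,
      LinearMap.add_apply, Pi.add_apply, show onsager β (ampA β J y x (K + 1)) = C.ons (K + 1) from rfl]
      at hz ⊢
    rw [topMul_const (-(C.ons (K + 1))), topMul_const (C.dlt (K + 1))]
    rw [topMul_const (-(C.ons (K + 1)) - C.dlt (K + 1))] at hz
    simp only [map_smul, Pi.smul_apply, smul_eq_mul] at hz ⊢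
    linear_combination hz
  rw [chainList] at h1
  rw [h1, stabC, stabY]
  ring

/-- Its pairing with the slopes of `ampA (k + 1)`. -/
theorem avg_resFree_slope (u : ι → ℝ) :
    avg (fun i => u i * resFree β G (.mul (gradE β J y x (K + 1)) (stabA β J y x K)) i)
      = stabC β G J y x K * (β ^ 2 * avg fun i => u i * G i) := by
  simp only [resFree_grad_stabA, avg, mul_left_comm (u _), ← mul_assoc]
  simp only [mul_assoc, ← mul_sum, mul_div_assoc]
  ring

/-- The first coupling against the slopes of `ampA (k + 1)`. -/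
theorem avg_resFree_coup [Nonempty ι] :
    avg (resFree β G (.mul .coup (.mul (.diag (ampU β J y x (K + 2)))
        (.mul (gradE β J y x (K + 1)) (stabA β J y x K)))))
      = onsager β (ampA β J y x (K + 2)) * stabY β G J y x K
        + β ^ 2 * avg G * (stabC β G J y x K * (β ^ 2 * avg fun i => ampU β J y x (K + 2) i * G i)) := by
  have hX : (stabA β J y x K).deg ≤ (chainList (ampU β J y x) K).length + 2 := by
    simpa using deg_stabA β J y x K
  have h := avg_resFree_slope β G J y x K (ampU β J y x (K + 2))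
  rw [gradE, chainList] at h ⊢
  rw [resFree_coup_chain β G _ _ _ _ hX, h, stabY, onsager_eq,
    show (fun i => 1 - ampA β J y x (K + 2) i ^ 2) = ampU β J y x (K + 2) from rfl]
  ring

/-- The same without resolvent. -/
theorem avg_free_coup_L [Nonempty ι] :
    avg ((Expr.mul .coup (.mul (.diag (ampU β J y x (K + 2)))
        (.mul (gradE β J y x (K + 1)) ((ampCoef β J y x).L (K + 1))))).free β)
      = onsager β (ampA β J y x (K + 2)) * ampT β J y x (K + 1) := by
  have hX : ((ampCoef β J y x).L (K + 1)).deg ≤ (chainList (ampU β J y x) K).length + 1 := by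
    simpa using (ampCoef β J y x).deg_L (K + 1)
  have h := avg_free_grad_L (β := β) (ampCoef β J y x) (ampU β J y x) K
  rw [← ampT_eq] at h
  rw [gradE, chainList, free_coup_chain β _ _ _ _ hX, onsager_eq, ← h]
  simp only [Expr.free, Expr.op, LinearMap.comp_apply, topMul_cons]
  rfl

/-- An increment is orthogonal to any later slope. -/
theorem free_slope_later {j k : ℕ} (hjk : k ≤ j) (u : ι → ℝ) (i : ι) :
    (Expr.mul (.mul (.diag u) (gradE β J y x j)) ((ampCoef β J y x).L k)).free β i = 0 := by
  have h := amp_free_later_L β J y x hjk i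
  simp only [Expr.free, Expr.op, LinearMap.comp_apply, topMul_cons] at h ⊢
  rw [h, mul_zero]

variable [DecidableEq ι] {C κ g' : ℝ} {m : ℕ}

/-- `GoodResolvent` extends from words to expressions. -/
theorem resolvent_diag_le (h : GoodResolvent β κ m C J) {c : ℝ} {g : ι → ℝ} (hc : |c| * κ ≤ 1)
    (hg : ∀ i, 0 ≤ g i) (hgκ : ∀ i, g i * κ ≤ 1) (hF : FreeEdge (β ^ 2) c κ g)
    (hO : OpBound c κ J g) (hC : 0 ≤ C) (X : Expr ι) (hX : X.deg ≤ m) :
    ∑ i, ((X.mat J * res c J g) i i - resFree β (freeG (β ^ 2) c g) X i) ^ 2 ≤ C * X.size ^ 2 := by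
  obtain ⟨W, hW, a, d, l, hm, ho, hb, hs⟩ := X.exists_words β J
  have hq : ∀ w, ∑ i, ((wordMat J (d w) (l w) * res c J g) i i
      - wordOp β (d w) (l w) (geo (freeG (β ^ 2) c g)) [i]) ^ 2 ≤ C := fun w => by
    have h1 := (h c g (d w) (l w) hc hg hgκ hF hO ((hb w).1.trans hX) (hb w).2.1 (hb w).2.2).1
    refine le_trans (le_of_eq (sum_congr rfl fun i _ => ?_)) h1
    rw [resVal_eq_wordOp β _ _ _ _ i le_rfl]
  calc _ = ∑ i, (∑ w, a w * ((wordMat J (d w) (l w) * res c J g) i i
          - wordOp β (d w) (l w) (geo (freeG (β ^ 2) c g)) [i])) ^ 2 := by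
        refine sum_congr rfl fun i _ => congrArg (· ^ 2) ?_
        simp [resFree, hm, ho, Matrix.sum_mul, Matrix.sum_apply, mul_sub, sum_sub_distrib]
    _ ≤ ∑ i, (∑ w, |a w|) * ∑ w, |a w| * ((wordMat J (d w) (l w) * res c J g) i i
          - wordOp β (d w) (l w) (geo (freeG (β ^ 2) c g)) [i]) ^ 2 :=
        sum_le_sum fun i _ => sq_comb_le _ _
    _ ≤ X.size * (X.size * C) := by
        rw [← mul_sum, sum_comm]
        simp only [← mul_sum]
        exact mul_le_mul hs (sum_weight_le hs hC hq)
          (sum_nonneg fun w _ => mul_nonneg (abs_nonneg _) (sum_nonneg fun _ _ => sq_nonneg _))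
          X.size_nonneg
    _ = _ := by ring

/-- The off-diagonal `ℓ⁴` norm of an expression followed by the resolvent. -/
theorem resolvent_offdiag_le (h : GoodResolvent β κ m C J) {c : ℝ} {g : ι → ℝ} (hc : |c| * κ ≤ 1)
    (hg : ∀ i, 0 ≤ g i) (hgκ : ∀ i, g i * κ ≤ 1) (hF : FreeEdge (β ^ 2) c κ g)
    (hO : OpBound c κ J g) (hC : 0 ≤ C) (X : Expr ι) (hX : X.deg ≤ m) :
    ∑ i, ∑ j, (if i = j then 0 else (X.mat J * res c J g) i j ^ 4) ≤ C * X.size ^ 4 := by
  obtain ⟨W, hW, a, d, l, hm, -, hb, hs⟩ := X.exists_words β J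
  have hq : ∀ w, ∑ i, ∑ j,
      (if i = j then 0 else (wordMat J (d w) (l w) * res c J g) i j ^ 4) ≤ C := fun w =>
    (h c g (d w) (l w) hc hg hgκ hF hO ((hb w).1.trans hX) (hb w).2.1 (hb w).2.2).2
  calc _ ≤ ∑ i, ∑ j, (∑ w, |a w|) ^ 3 *
          ∑ w, |a w| * (if i = j then 0 else (wordMat J (d w) (l w) * res c J g) i j ^ 4) := by
        refine sum_le_sum fun i _ => sum_le_sum fun j _ => ?_
        split_ifs
        · simp
        · rw [hm]
          simp only [Matrix.sum_mul, Matrix.sum_apply, Matrix.smul_mul, Matrix.smul_apply,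
            smul_eq_mul]
          exact pow_four_comb_le a _
    _ ≤ X.size ^ 3 * (X.size * C) := by
        simp only [← mul_sum]
        rw [sum_congr rfl fun i _ => sum_comm, sum_comm]
        simp only [← mul_sum]
        refine mul_le_mul (pow_le_pow_left₀ (sum_nonneg fun _ _ => abs_nonneg _) hs 3)
          (sum_weight_le hs hC hq) ?_ (pow_nonneg X.size_nonneg 3)
        exact sum_nonneg fun w _ => mul_nonneg (abs_nonneg _)
          (sum_nonneg fun i _ => sum_nonneg fun j _ => by split_ifs <;> positivity)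
    _ = _ := by ring

end Vale.Agent.P150.Beta1.Stability
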