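import Vale.Agent.P150.Beta1.Stein.Basic
import Vale.Agent.P150.Beta1.Resolvent.Api
import Vale.Agent.P150.Beta1.Stability.Free

/-!
# The exact equation for an iterate near a TAP point

With `k = K + 1`, `δ = ampA (K+2) - tanh γ` solves `(1 - g (J - B)) δ = g Θ - Δ g'`, where `g` is the
Stein weight between `ampZ (K+1)` and `γ` and `Θ` is built from two increments and a rank one term.
-/

namespace Vale.Agent.P150.Beta1.Stability

open Finset Real Matrix

variable {ι : Type*} [Fintype ι] (β : ℝ) (J : ι → ι → ℝ) (y γ x : ι → ℝ) (K : ℕ)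

/-- Distance of an iterate from the TAP point. -/
noncomputable def gap (k : ℕ) : ι → ℝ := fun i => ampA β J y x k i - tanh (γ i)

/-- The variance parameter between `ampZ (K+1)` and `γ`. -/
noncomputable def stabDt : ℝ := β ^ 2 * qav (gap β J y γ x (K + 1))

/-- The overlap of the TAP point with its distance to `ampA (K+1)`. -/
noncomputable def stabXi : ℝ := avg fun i => tanh (γ i) * gap β J y γ x (K + 1) i

/-- The Stein weight between `ampZ (K+1)` and `γ`. -/
noncomputable def stabG : ι → ℝ :=
  fun i => steinG (ampZ β J y x (K + 1) i) (γ i) (stabDt β J y γ x K)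

/-- Its logarithmic derivative. -/
noncomputable def stabH : ι → ℝ :=
  fun i => steinH (ampZ β J y x (K + 1) i) (γ i) (stabDt β J y γ x K)

/-- The free diagonal of the resolvent. -/
noncomputable def stabFree : ι → ℝ :=
  freeG (β ^ 2) (-onsager β (tanhv γ)) (stabG β J y γ x K)

/-- The free scalar `c`. -/
noncomputable def stabScalar : ℝ := stabC β (stabFree β J y γ x K) J y x K

lemma ampZ_succ : ∀ (K : ℕ) (i : ι), ampZ β J y x (K + 1) i
    = y i + act J (ampA β J y x (K + 1)) i
      - onsager β (ampA β J y x (K + 1)) * ampA β J y x K i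
  | 0, _ => rfl
  | _ + 1, _ => rfl

lemma act_add (u v : ι → ℝ) (i : ι) : act J (fun l => u l + v l) i = act J u i + act J v i := by
  simp only [act, mul_add, sum_add_distrib]

lemma act_sub (u v : ι → ℝ) (i : ι) : act J (fun l => u l - v l) i = act J u i - act J v i := by
  simp only [act, mul_sub, sum_sub_distrib]

/-- The Onsager coefficient at an iterate against the one at the TAP point. -/
lemma onsager_gap (k : ℕ) : onsager β (tanhv γ) - onsager β (ampA β J y x k)
    = β ^ 2 * (qav (gap β J y γ x k) + 2 * avg fun i => tanh (γ i) * gap β J y γ x k i) := by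
  have e : qav (ampA β J y x k) = qav (gap β J y γ x k)
      + 2 * (avg fun i => tanh (γ i) * gap β J y γ x k i) + qav (tanhv γ) := by
    simp only [qav, avg, gap, tanhv, ← mul_div_assoc, mul_sum, ← add_div, ← sum_add_distrib]
    exact congrArg (· / _) (sum_congr rfl fun i _ => by ring)
  simp only [onsager]
  linear_combination β ^ 2 * e

/-- The driving term. -/
noncomputable def theta : ι → ℝ := fun i =>
  act J (ampD β J y x (K + 1)) i
    - onsager β (ampA β J y x (K + 1)) * (ampD β J y x (K + 1) i + ampD β J y x K i)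
    + 2 * β ^ 2 * stabXi β J y γ x K * ampA β J y x (K + 2) i

/-- The field equation. -/
lemma field_eq (hT : ∀ i, γ i + onsager β (tanhv γ) * tanh (γ i) = y i + act J (tanhv γ) i) (i : ι) :
    ampZ β J y x (K + 1) i - γ i - stabDt β J y γ x K * tanh (ampZ β J y x (K + 1) i)
      = act J (gap β J y γ x (K + 2)) i - onsager β (tanhv γ) * gap β J y γ x (K + 2) i
        + theta β J y γ x K i := by
  have hB := onsager_gap β J y γ x (K + 1)
  have hM : tanh (ampZ β J y x (K + 1) i) = ampA β J y x (K + 2) i := rfl
  have e : act J (ampA β J y x (K + 1)) i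
      = act J (gap β J y γ x (K + 2)) i + act J (ampD β J y x (K + 1)) i + act J (tanhv γ) i := by
    rw [← act_add, ← act_add]
    congr 1
    funext l
    simp only [gap, ampD, tanhv]
    ring
  rw [hM, ampZ_succ, e]
  simp only [theta, stabDt, stabXi, gap, ampD] at hB ⊢
  linear_combination ampA β J y x (K + 2) i * hB + hT i * (-1)

/-- The Stein identity on the field equation. -/
lemma gap_eq (hT : ∀ i, γ i + onsager β (tanhv γ) * tanh (γ i) = y i + act J (tanhv γ) i) (i : ι) :
    gap β J y γ x (K + 2) i
      = stabG β J y γ x K i * (act J (gap β J y γ x (K + 2)) i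
          - onsager β (tanhv γ) * gap β J y γ x (K + 2) i + theta β J y γ x K i)
        - stabDt β J y γ x K * (stabH β J y γ x K i * stabG β J y γ x K i) := by
  rw [← field_eq β J y γ x K hT i, stabH, stabG, steinH,
    div_mul_cancel₀ _ (steinG_pos _ _ _).ne', mul_comm (steinG _ _ _)]
  exact steinG_identity _ _ _

variable [DecidableEq ι]

/-- The resolvent at the configuration. -/
noncomputable def stabS : Matrix ι ι ℝ := res (-onsager β (tanhv γ)) J (stabG β J y γ x K)

/-- `q = S w`. -/
noncomputable def resQ (w : ι → ℝ) : ι → ℝ := stabS β J y γ x K *ᵥ w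

/-- `p = q / g`. -/
noncomputable def resP (w : ι → ℝ) : ι → ℝ :=
  w + shiftMat (-onsager β (tanhv γ)) J *ᵥ resQ β J y γ x K w

/-- The part of a pairing that the rule does not remove. -/
noncomputable def mainTerm (w : ι → ℝ) : ℝ :=
  ∑ i, stabH β J y γ x K i * resP β J y γ x K w i
      * (β ^ 2 * stabScalar β J y γ x K * stabFree β J y γ x K i
        - stabDt β J y γ x K * stabG β J y γ x K i)
    + 2 * β ^ 2 * stabXi β J y γ x K * ∑ i, resQ β J y γ x K w i * ampA β J y x (K + 2) i

variable {β J y γ x K} {κ : ℝ}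

lemma shiftMat_mulVec (c : ℝ) (u : ι → ℝ) (i : ι) :
    (shiftMat c J *ᵥ u) i = act J u i + c * u i := by
  simp only [shiftMat, Matrix.add_mulVec, Matrix.smul_mulVec, Matrix.one_mulVec, Pi.add_apply,
    Pi.smul_apply, smul_eq_mul]
  rfl

omit [DecidableEq ι] in
lemma sum_mul_act_comm (hs : ∀ i j, J i j = J j i) (u v : ι → ℝ) :
    ∑ i, u i * act J v i = ∑ i, v i * act J u i := by
  simp only [act, mul_sum]
  rw [sum_comm]
  exact sum_congr rfl fun i _ => sum_congr rfl fun j _ => by rw [hs]; ring

lemma resQ_eq (H : Adm (-onsager β (tanhv γ)) κ J (stabG β J y γ x K)) (w : ι → ℝ) (i : ι) :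
    resQ β J y γ x K w i = stabG β J y γ x K i * resP β J y γ x K w i := by
  rw [resP, resQ, stabS]
  conv_lhs => rw [H.res_eq, Matrix.add_mulVec, Matrix.mul_assoc, ← Matrix.mulVec_mulVec]
  simp only [Pi.add_apply, Matrix.mulVec_diagonal, ← Matrix.mulVec_mulVec, mul_add]

/-- The pairing with a test field, before any use of the rule. -/
theorem pairing_eq (H : Adm (-onsager β (tanhv γ)) κ J (stabG β J y γ x K))
    (hT : ∀ i, γ i + onsager β (tanhv γ) * tanh (γ i) = y i + act J (tanhv γ) i) (w : ι → ℝ) :
    ∑ i, w i * gap β J y γ x (K + 2) i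
      = ∑ i, ampD β J y x (K + 1) i * (act J (resQ β J y γ x K w) i
            - onsager β (ampA β J y x (K + 1)) * resQ β J y γ x K w i)
        + ∑ i, ampD β J y x K i * (-(onsager β (ampA β J y x (K + 1))) * resQ β J y γ x K w i)
        + (2 * β ^ 2 * stabXi β J y γ x K * ∑ i, resQ β J y γ x K w i * ampA β J y x (K + 2) i
          - stabDt β J y γ x K * ∑ i, stabH β J y γ x K i * resP β J y γ x K w i
              * stabG β J y γ x K i) := by
  set q := resQ β J y γ x K w with hq
  set p := resP β J y γ x K w with hp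
  set δ := gap β J y γ x (K + 2)
  set B := onsager β (tanhv γ)
  set d := ampD β J y x (K + 1)
  have hw : ∀ i, w i = p i - (act J q i - B * q i) := fun i => by
    rw [hp, resP, Pi.add_apply, shiftMat_mulVec, ← hq]
    ring
  have hqp : ∀ i, q i = stabG β J y γ x K i * p i := fun i => resQ_eq H w i
  have h1 : ∑ i, w i * δ i = ∑ i, q i * theta β J y γ x K i
      - stabDt β J y γ x K * ∑ i, stabH β J y γ x K i * p i * stabG β J y γ x K i := by
    have h2 : ∑ i, w i * δ i = ∑ i, p i * δ i - ∑ i, q i * (act J δ i - B * δ i) := by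
      simp only [hw, sub_mul, mul_sub, sum_sub_distrib]
      rw [sum_mul_act_comm H.symm q δ]
      simp only [mul_comm (δ _) (act J q _)]
      congr 2
      exact sum_congr rfl fun i _ => by ring
    rw [h2, mul_sum, ← sum_sub_distrib, ← sum_sub_distrib]
    refine sum_congr rfl fun i _ => ?_
    have := gap_eq β J y γ x K hT i
    rw [hqp]
    linear_combination p i * this
  have h3 : ∑ i, q i * act J d i = ∑ i, d i * act J q i := sum_mul_act_comm H.symm q d
  set Bp := onsager β (ampA β J y x (K + 1))
  set d' := ampD β J y x K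
  have e4 : ∑ i, q i * theta β J y γ x K i
      = ∑ i, q i * act J d i + -Bp * ∑ i, q i * d i + -Bp * ∑ i, q i * d' i
        + 2 * β ^ 2 * stabXi β J y γ x K * ∑ i, q i * ampA β J y x (K + 2) i := by
    simp only [theta, mul_sum, ← sum_add_distrib]
    exact sum_congr rfl fun i _ => by ring
  have e5 : ∑ i, d i * (act J q i - Bp * q i)
      = ∑ i, d i * act J q i + -Bp * ∑ i, q i * d i := by
    simp only [mul_sum, ← sum_add_distrib]
    exact sum_congr rfl fun i _ => by ring
  have e6 : ∑ i, d' i * (-Bp * q i) = -Bp * ∑ i, q i * d' i := by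
    simp only [mul_sum]
    exact sum_congr rfl fun i _ => by ring
  rw [h1, e4, e5, e6, h3]
  ring

end Vale.Agent.P150.Beta1.Stability
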