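import Vale.Agent.P150.Beta1.Good
import Vale.Agent.P150.Beta1.Stein.Log
import Vale.Agent.P150.Beta1.Stability.Exact

/-!
# Configurations near a TAP point with an edge

There the Stein weights lie below the box of the edge, so the resolvent and its free diagonal are
defined, the slope average is below one and the TAP point is not an eigenvector of the rank one edge.
-/

namespace Vale.Agent.P150.Beta1.Stability

open Finset Real Matrix

variable {ι : Type*} [Fintype ι] {β : ℝ} {J : ι → ι → ℝ} {y γ x : ι → ℝ} {K : ℕ}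

/-- The last three iterates are close to the TAP point. -/
def Close (β : ℝ) (J : ι → ι → ℝ) (y γ x : ι → ℝ) (K : ℕ) (r : ℝ) : Prop :=
  ∀ j, K ≤ j → j ≤ K + 2 → qav (gap β J y γ x j) ≤ r

lemma sum_sq_le_of_qav [Nonempty ι] {u : ι → ℝ} {r : ℝ} (h : qav u ≤ r) :
    ∑ i, u i ^ 2 ≤ r * Fintype.card ι := by
  rwa [qav, avg, div_le_iff₀ (by exact_mod_cast Fintype.card_pos)] at h

lemma qav_nonneg (u : ι → ℝ) : 0 ≤ qav u :=
  div_nonneg (sum_nonneg fun _ _ => sq_nonneg _) (Nat.cast_nonneg _)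

/-- Cauchy-Schwarz for averages. -/
lemma avg_mul_sq_le (u v : ι → ℝ) : (avg fun i => u i * v i) ^ 2 ≤ qav u * qav v := by
  simp only [qav, avg, div_pow, div_mul_div_comm, ← sq]
  exact div_le_div_of_nonneg_right (sum_mul_sq_le_sq_mul_sq _ _ _) (sq_nonneg _)

lemma qav_tanhv_le (γ : ι → ℝ) : qav (tanhv γ) ≤ 1 := by
  refine div_le_one_of_le₀ ((sum_le_sum fun i _ =>
    (sq_le_one_iff_abs_le_one _).2 (abs_tanh_lt_one (γ i)).le).trans (le_of_eq (by simp)))
    (Nat.cast_nonneg _)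

lemma onsager_tanhv_mem (β : ℝ) (γ : ι → ℝ) :
    0 ≤ onsager β (tanhv γ) ∧ onsager β (tanhv γ) ≤ β ^ 2 := by
  have h1 := qav_tanhv_le γ
  have h0 := qav_nonneg (tanhv γ)
  rw [onsager]
  exact ⟨mul_nonneg (sq_nonneg β) (by linarith),
    mul_le_of_le_one_right (sq_nonneg β) (by linarith)⟩

/-- The field of a close iterate is close to the field of the TAP point. -/
lemma field_sub_sq [Nonempty ι] {Λ r : ℝ} (hβ : β ^ 2 ≤ 1)
    (hJ : ∀ a : ι → ℝ, ∑ i, act J a i ^ 2 ≤ Λ * ∑ i, a i ^ 2) (hΛ : 0 ≤ Λ)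
    (hT : ∀ i, γ i + onsager β (tanhv γ) * tanh (γ i) = y i + act J (tanhv γ) i)
    (hc : Close β J y γ x K r) (hr : r ≤ 1) :
    ∑ i, (ampZ β J y x (K + 1) i - γ i) ^ 2 ≤ 3 * (Λ + 11) * r * Fintype.card ι := by
  set B := onsager β (tanhv γ)
  set Bp := onsager β (ampA β J y x (K + 1))
  have h1 := hc (K + 1) (by omega) (by omega)
  have h0 := hc K le_rfl (by omega)
  have hA : ∀ i, |ampA β J y x (K + 1) i| ≤ 1 := fun i => (abs_tanh_lt_one _).le
  have hBp : Bp ^ 2 ≤ 1 := by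
    have hq : qav (ampA β J y x (K + 1)) ≤ 1 := div_le_one_of_le₀ ((sum_le_sum fun i _ =>
      (sq_le_one_iff_abs_le_one _).2 (hA i)).trans (le_of_eq (by simp))) (Nat.cast_nonneg _)
    have := qav_nonneg (ampA β J y x (K + 1))
    have h : 0 ≤ Bp ∧ Bp ≤ 1 := ⟨mul_nonneg (sq_nonneg β) (by linarith),
      mul_le_one₀ hβ (by linarith) (by linarith)⟩
    exact pow_le_one₀ h.1 h.2
  have hdB : (B - Bp) ^ 2 ≤ 10 * r := by
    rw [onsager_gap β J y γ x (K + 1)]
    set a := qav (gap β J y γ x (K + 1))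
    set b := avg fun i => tanh (γ i) * gap β J y γ x (K + 1) i
    have ha : 0 ≤ a := qav_nonneg _
    have hb : b ^ 2 ≤ r := (avg_mul_sq_le (tanhv γ) _).trans
      ((mul_le_of_le_one_left ha (qav_tanhv_le γ)).trans h1)
    have ha2 : a ^ 2 ≤ r := by nlinarith
    rw [mul_pow]
    refine (mul_le_of_le_one_left (sq_nonneg _) (pow_le_one₀ (sq_nonneg β) hβ)).trans ?_
    nlinarith [sq_nonneg (a - 2 * b)]
  have e : ∀ i, ampZ β J y x (K + 1) i - γ i = act J (gap β J y γ x (K + 1)) i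
      + (-Bp * gap β J y γ x K i) + (B - Bp) * tanh (γ i) := fun i => by
    rw [ampZ_succ, show gap β J y γ x (K + 1) = fun l => ampA β J y x (K + 1) l - tanhv γ l from rfl,
      act_sub]
    simp only [gap]
    linear_combination -(hT i)
  have hpt : ∀ i, (ampZ β J y x (K + 1) i - γ i) ^ 2 ≤ 3 * (act J (gap β J y γ x (K + 1)) i ^ 2
      + gap β J y γ x K i ^ 2 + 10 * r) := fun i => by
    have h2 : (-Bp * gap β J y γ x K i) ^ 2 ≤ gap β J y γ x K i ^ 2 := by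
      rw [mul_pow, neg_sq]
      exact mul_le_of_le_one_left (sq_nonneg _) hBp
    have h3 : ((B - Bp) * tanh (γ i)) ^ 2 ≤ 10 * r := by
      rw [mul_pow]
      exact (mul_le_of_le_one_right (sq_nonneg _)
        ((sq_le_one_iff_abs_le_one _).2 (abs_tanh_lt_one _).le)).trans hdB
    rw [e i]
    nlinarith [sq_nonneg (act J (gap β J y γ x (K + 1)) i - -Bp * gap β J y γ x K i),
      sq_nonneg (act J (gap β J y γ x (K + 1)) i - (B - Bp) * tanh (γ i)),
      sq_nonneg (-Bp * gap β J y γ x K i - (B - Bp) * tanh (γ i))]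
  refine (sum_le_sum fun i _ => hpt i).trans ?_
  rw [← mul_sum, sum_add_distrib, sum_add_distrib, sum_const, card_univ, nsmul_eq_mul]
  have := (hJ (gap β J y γ x (K + 1))).trans
    (mul_le_mul_of_nonneg_left (sum_sq_le_of_qav h1) hΛ)
  have := sum_sq_le_of_qav h0
  linarith

variable [DecidableEq ι]

/-- What the edge gives at a close configuration. -/
structure Boxed (β : ℝ) (J : ι → ι → ℝ) (y γ x : ι → ℝ) (K : ℕ) (κ θ : ℝ) : Prop where
  adm : Adm (-onsager β (tanhv γ)) κ J (stabG β J y γ x K)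
  edge : FreeEdge (β ^ 2) (-onsager β (tanhv γ)) κ (stabG β J y γ x K)
  shift : |(-onsager β (tanhv γ))| * κ ≤ 1
  gpos : ∀ i, 0 < stabG β J y γ x K i
  gle : ∀ i, stabG β J y γ x K i ≤ 2
  gκ : ∀ i, stabG β J y γ x K i * κ ≤ 1
  free_nonneg : ∀ i, 0 ≤ stabFree β J y γ x K i
  free_le : ∀ i, stabFree β J y γ x K i ≤ 8 / κ ^ 3
  shift_free : |β ^ 2 * avg (stabFree β J y γ x K) - onsager β (tanhv γ)| ≤ 1
  free_eq : ∀ i, stabFree β J y γ x K i * (1 - (β ^ 2 * avg (stabFree β J y γ x K)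
      - onsager β (tanhv γ)) * stabG β J y γ x K i) = stabG β J y γ x K i
  slope_nonneg : 0 ≤ β ^ 2 * avg fun i => Algebra.ampU β J y x (K + 2) i * stabFree β J y γ x K i
  slope_le : β ^ 2 * (avg fun i => Algebra.ampU β J y x (K + 2) i * stabFree β J y γ x K i) ≤ 1 - θ
  coercive : 2 * β ^ 2 * (avg fun i => tanh (γ i) * resQ β J y γ x K (tanhv γ) i) ≤ 1 - θ

omit [DecidableEq ι] in
/-- Above the diagonal of the box only few sites. -/
lemma card_bad_le [Nonempty ι] {Λ r η₁ : ℝ} (hβ : β ^ 2 ≤ 1)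
    (hJ : ∀ a : ι → ℝ, ∑ i, act J a i ^ 2 ≤ Λ * ∑ i, a i ^ 2) (hΛ : 0 ≤ Λ)
    (hT : ∀ i, γ i + onsager β (tanhv γ) * tanh (γ i) = y i + act J (tanhv γ) i)
    (hc : Close β J y γ x K r) (hr : r ≤ 1 / 4) (hrη : 8 * r ≤ η₁)
    (hη₁ : 0 < η₁) :
    ((univ.filter fun i => 1 - tanh (γ i) ^ 2 + η₁ < stabG β J y γ x K i).card : ℝ) * η₁ ^ 2
      ≤ 192 * (Λ + 11) * r * Fintype.card ι := by
  set S := univ.filter fun i => 1 - tanh (γ i) ^ 2 + η₁ < stabG β J y γ x K i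
  have hu : ∀ i ∈ S, η₁ ^ 2 / 64 ≤ (ampZ β J y x (K + 1) i - γ i) ^ 2 := by
    intro i hi
    have h := (mem_filter.1 hi).2
    set D := stabDt β J y γ x K
    have hD0 : 0 ≤ D := mul_nonneg (sq_nonneg β) (qav_nonneg _)
    have hD : D ≤ r := (mul_le_of_le_one_left (qav_nonneg _) hβ).trans (hc _ (by omega) (by omega))
    have hs := abs_steinG_sub_sech (ampZ β J y x (K + 1) i) (γ i) D (L := 1 / 4)
      (by rw [abs_of_nonneg hD0]; linarith)
    have he : exp (1 / 4 / 2) ≤ 2 := by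
      refine (exp_bound_div_one_sub_of_interval (by norm_num) (by norm_num)).trans ?_
      norm_num
    have h2 : stabG β J y γ x K i - (1 - tanh (γ i) ^ 2)
        ≤ 2 * (2 * |ampZ β J y x (K + 1) i - γ i| + r) := by
      refine (le_abs_self _).trans (hs.trans (mul_le_mul he ?_ (by positivity) zero_le_two))
      rw [abs_of_nonneg hD0]
      linarith
    have h3 : η₁ / 8 ≤ |ampZ β J y x (K + 1) i - γ i| := by linarith
    calc η₁ ^ 2 / 64 = (η₁ / 8) ^ 2 := by ring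
      _ ≤ |ampZ β J y x (K + 1) i - γ i| ^ 2 := pow_le_pow_left₀ (by positivity) h3 2
      _ = _ := sq_abs _
  have h1 : (S.card : ℝ) * (η₁ ^ 2 / 64) ≤ ∑ i ∈ S, (ampZ β J y x (K + 1) i - γ i) ^ 2 := by
    rw [← nsmul_eq_mul, ← sum_const]
    exact sum_le_sum hu
  have h2 := (sum_le_sum_of_subset_of_nonneg (subset_univ S) fun i _ _ =>
    sq_nonneg (ampZ β J y x (K + 1) i - γ i)).trans
      (field_sub_sq hβ hJ hΛ hT hc (by linarith))
  linarith

/-- The first two terms of `g / (1 - t g)`. -/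
lemma site_expand {g t : ℝ} (h0 : 0 ≤ g) (h2 : g ≤ 2) (_ : 0 ≤ t) (ht : t ≤ 1 / 44) :
    g / (1 - t * g) ≤ g + t * g ^ 2 + 11 * t ^ 2 := by
  have hd : 1 - 1 / 22 ≤ 1 - t * g := by nlinarith
  rw [div_le_iff₀ (by linarith)]
  nlinarith [pow_le_pow_left₀ h0 h2 3, mul_nonneg (sq_nonneg t) (sub_nonneg.2 hd)]

omit [DecidableEq ι] in
/-- The quadratic form of the edge at `g / (1 - κ)`. -/
lemma edge_quad {η η₁ κ κ₀ gmax : ℝ} (hκ : 0 ≤ κ) (hκ4 : κ ≤ 1 / 4)
    (hκη : κ * (2 * (1 + η)) ≤ η) (hη₁ : η₁ ≤ η / 2) (hκ₀ : 0 ≤ κ₀) (hgmax : 4 ≤ gmax)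
    (hTE : TapEdge β κ₀ η gmax J y γ) (g : ι → ℝ) (hg : ∀ i, 0 < g i) (hg2 : ∀ i, g i ≤ 2)
    (hcard : ((univ.filter fun i => 1 - tanh (γ i) ^ 2 + η₁ < g i).card : ℝ)
      ≤ η * Fintype.card ι) (a : ι → ℝ) :
    (∑ i, a i * act J a i) - onsager β (tanhv γ) * (∑ i, a i ^ 2)
      + 2 * β ^ 2 * (∑ i, tanh (γ i) * a i) ^ 2 / Fintype.card ι
        ≤ (1 - κ) * ∑ i, a i ^ 2 / g i := by
  have h := hTE.2 (fun i => g i / (1 - κ)) a (fun i => ⟨div_pos (hg i) (by linarith), by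
    rw [div_le_iff₀ (by linarith)]
    have := hg2 i
    nlinarith⟩) ?_
  · have h0 : 0 ≤ κ₀ * ∑ i, a i ^ 2 := mul_nonneg hκ₀ (sum_nonneg fun _ _ => sq_nonneg _)
    simp only [div_div_eq_mul_div] at h
    have e : ∑ i, a i ^ 2 * (1 - κ) / g i = (1 - κ) * ∑ i, a i ^ 2 / g i := by
      rw [mul_sum]
      exact sum_congr rfl fun i _ => by ring
    linarith
  · refine le_trans ?_ hcard
    rw [← Set.ncard_coe_finset]
    refine Nat.cast_le.2 (Set.ncard_le_ncard (fun i hi => ?_) (Finset.finite_toSet _))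
    simp only [Set.mem_ofPred_eq, coe_filter, mem_univ, true_and] at hi ⊢
    by_contra hni
    push Not at hni
    rw [lt_div_iff₀ (by linarith)] at hi
    have h1 := (sq_le_one_iff_abs_le_one _).2 (abs_tanh_lt_one (γ i)).le
    have h2 : κ * (1 - tanh (γ i) ^ 2 + η) ≤ κ * (1 + η) :=
      mul_le_mul_of_nonneg_left (by linarith [sq_nonneg (tanh (γ i))]) hκ
    linarith

omit [DecidableEq ι] in
/-- The free self-energy at `onsager + t`. -/
lemma edge_energy [Nonempty ι] {t η₁ f : ℝ} (hβ : β ^ 2 ≤ 1) (ht0 : 0 < t) (htle : t ≤ 1 / 44)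
    (hη₁ : 0 < η₁) (hη₁1 : η₁ ≤ 1) (g : ι → ℝ) (hg : ∀ i, 0 < g i) (hg2 : ∀ i, g i ≤ 2)
    (hcard : ((univ.filter fun i => 1 - tanh (γ i) ^ 2 + η₁ < g i).card : ℝ)
      ≤ f * Fintype.card ι) :
    selfEnergy (β ^ 2) (-onsager β (tanhv γ)) g (onsager β (tanhv γ) + t)
      ≤ onsager β (tanhv γ) + β ^ 2 * t + (4 * η₁ + 11 * t ^ 2 + 3 * f) := by
  set v := fun i => 1 - tanh (γ i) ^ 2
  set S := univ.filter fun i => v i + η₁ < g i with hS
  have hn : (0 : ℝ) < Fintype.card ι := by exact_mod_cast Fintype.card_pos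
  have hB : onsager β (tanhv γ) = β ^ 2 * avg v := Algebra.onsager_eq β (tanhv γ)
  have hsite : ∀ i, g i / (1 - (-onsager β (tanhv γ) + (onsager β (tanhv γ) + t)) * g i)
      ≤ v i + t + (4 * η₁ + 11 * t ^ 2) + (if v i + η₁ < g i then (3 : ℝ) else 0) := by
    intro i
    rw [neg_add_cancel_left]
    refine (site_expand (hg i).le (hg2 i) ht0.le htle).trans ?_
    have hv0 : 0 ≤ v i := sub_nonneg.2 ((sq_le_one_iff_abs_le_one _).2 (abs_tanh_lt_one (γ i)).le)
    have hv1 : v i ≤ 1 := sub_le_self _ (sq_nonneg _)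
    split_ifs with hi
    · have := mul_le_mul_of_nonneg_left (pow_le_pow_left₀ (hg i).le (hg2 i) 2) ht0.le
      linarith [hg2 i]
    · rw [not_lt] at hi
      have h3 : g i ^ 2 ≤ 1 + 3 * η₁ := by
        have := pow_le_pow_left₀ (hg i).le hi 2
        nlinarith
      have := mul_le_mul_of_nonneg_left h3 ht0.le
      have : t * η₁ ≤ η₁ := mul_le_of_le_one_left hη₁.le (by linarith)
      linarith
  rw [selfEnergy]
  refine (mul_le_mul_of_nonneg_left (avg_le_avg hsite) (sq_nonneg β)).trans ?_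
  have e : avg (fun i => v i + t + (4 * η₁ + 11 * t ^ 2) + (if v i + η₁ < g i then (3 : ℝ) else 0))
      = avg v + t + (4 * η₁ + 11 * t ^ 2) + 3 * S.card / Fintype.card ι := by
    simp only [avg, sum_add_distrib, sum_const, card_univ, nsmul_eq_mul, add_div, sum_ite,
      mul_zero, add_zero, ← hS]
    field_simp
  have hS3 : 3 * (S.card : ℝ) / Fintype.card ι ≤ 3 * f := by
    rw [div_le_iff₀ hn]
    linarith
  have hS0 : (0 : ℝ) ≤ 3 * S.card / Fintype.card ι := by positivity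
  have h2 : β ^ 2 * (4 * η₁ + 11 * t ^ 2 + 3 * S.card / Fintype.card ι)
      ≤ 4 * η₁ + 11 * t ^ 2 + 3 * S.card / Fintype.card ι :=
    mul_le_of_le_one_left (by positivity) hβ
  rw [e, hB]
  linarith

/-- The TAP point stays below the rank one edge. -/
lemma edge_coercive [Nonempty ι] {Λ κ θ : ℝ} (hΛ : 0 ≤ Λ) (hβ : β ^ 2 ≤ 1)
    (hθ0 : 0 ≤ θ) (hθ1 : θ ≤ 1) (hθ4 : θ * (Λ + 4) ≤ κ)
    (hJ : ∀ a : ι → ℝ, ∑ i, act J a i ^ 2 ≤ Λ * ∑ i, a i ^ 2)
    (H : Adm (-onsager β (tanhv γ)) κ J (stabG β J y γ x K))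
    (hg2 : ∀ i, stabG β J y γ x K i ≤ 2)
    (hquad : ∀ a : ι → ℝ, (∑ i, a i * act J a i) - onsager β (tanhv γ) * (∑ i, a i ^ 2)
      + 2 * β ^ 2 * (∑ i, tanh (γ i) * a i) ^ 2 / Fintype.card ι
        ≤ (1 - κ) * ∑ i, a i ^ 2 / stabG β J y γ x K i) :
    2 * β ^ 2 * (avg fun i => tanh (γ i) * resQ β J y γ x K (tanhv γ) i) ≤ 1 - θ := by
  set g := stabG β J y γ x K
  set B := onsager β (tanhv γ)
  set τ := β ^ 2
  obtain ⟨hB0, hB1⟩ := onsager_tanhv_mem β γ
  have hn : (0 : ℝ) < Fintype.card ι := by exact_mod_cast Fintype.card_pos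
  have hgpos : ∀ i, 0 < g i := fun i => steinG_pos _ _ _
  set a := resQ β J y γ x K (tanhv γ)
  set Q := ∑ i, tanh (γ i) * a i with hQ
  set Pg := ∑ i, a i ^ 2 / g i with hPg
  have hm : ∀ i, tanh (γ i) = a i / g i - (act J a i - B * a i) := fun i => by
    have h1 : a i = g i * resP β J y γ x K (tanhv γ) i := resQ_eq H _ i
    have h2 : resP β J y γ x K (tanhv γ) i = tanh (γ i) + (act J a i + -B * a i) := by
      rw [resP, Pi.add_apply, shiftMat_mulVec]
      rfl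
    have h3 : a i / g i = resP β J y γ x K (tanhv γ) i := by
      rw [h1, mul_div_cancel_left₀ _ (hgpos i).ne']
    linarith
  have hQe : Q = Pg - ((∑ i, a i * act J a i) - B * ∑ i, a i ^ 2) := by
    rw [hQ, hPg, mul_sum, ← sum_sub_distrib, ← sum_sub_distrib]
    refine sum_congr rfl fun i _ => ?_
    rw [hm i]
    ring
  have h1 := hquad a
  rw [← hQ, ← hPg] at h1
  have hPa : ∑ i, a i ^ 2 ≤ 2 * Pg := by
    rw [hPg, mul_sum]
    refine sum_le_sum fun i _ => ?_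
    rw [← mul_div_assoc, le_div_iff₀ (hgpos i), mul_comm (2 : ℝ)]
    exact mul_le_mul_of_nonneg_left (hg2 i) (sq_nonneg _)
  have hPg0 : 0 ≤ Pg := sum_nonneg fun i _ => div_nonneg (sq_nonneg _) (hgpos i).le
  have hJa : -((Λ + 1) / 2 * ∑ i, a i ^ 2) ≤ ∑ i, a i * act J a i := by
    have h2 : ∀ i, -((a i ^ 2 + act J a i ^ 2) / 2) ≤ a i * act J a i := fun i => by
      nlinarith [sq_nonneg (a i + act J a i)]
    have h3 := sum_le_sum (s := (univ : Finset ι)) fun i _ => h2 i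
    rw [sum_neg_distrib, ← sum_div, sum_add_distrib] at h3
    linarith [hJ a]
  have hQ4 : Q ≤ (Λ + 4) * Pg := by
    have h4 : B * ∑ i, a i ^ 2 ≤ ∑ i, a i ^ 2 :=
      mul_le_of_le_one_left (sum_nonneg fun _ _ => sq_nonneg _) (hB1.trans hβ)
    have h5 := mul_le_mul_of_nonneg_left hPa (show 0 ≤ (Λ + 3) / 2 by linarith)
    linarith
  have h6 : θ * Q ≤ κ * Pg :=
    (mul_le_mul_of_nonneg_left hQ4 hθ0).trans
      (by rw [← mul_assoc]; exact mul_le_mul_of_nonneg_right hθ4 hPg0)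
  show 2 * τ * (Q / Fintype.card ι) ≤ 1 - θ
  rcases le_or_gt Q 0 with hQ0 | hQ0
  · have : 2 * τ * (Q / Fintype.card ι) ≤ 0 :=
      mul_nonpos_of_nonneg_of_nonpos (mul_nonneg zero_le_two (sq_nonneg β))
        (div_nonpos_of_nonpos_of_nonneg hQ0 hn.le)
    linarith
  · refine le_of_mul_le_mul_right ?_ hQ0
    have e : 2 * τ * (Q / Fintype.card ι) * Q = 2 * τ * Q ^ 2 / Fintype.card ι := by ring
    linarith

/-- The edge at every close configuration, with constants from `β`, `η` and the operator norm. -/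
theorem exists_boxed (β η Λ : ℝ) (hβ : β ^ 2 < 1) (hη : 0 < η) (hΛ : 0 ≤ Λ) :
    ∃ κ θ r₀ : ℝ, 0 < κ ∧ κ ≤ 1 ∧ 0 < θ ∧ θ ≤ 1 ∧ 0 < r₀ ∧ r₀ ≤ 1 / 4 ∧
      ∀ (ι : Type) [Fintype ι] [DecidableEq ι] [Nonempty ι] (J : ι → ι → ℝ) (y γ x : ι → ℝ)
        (K : ℕ) (κ₀ gmax : ℝ), (∀ i j, J i j = J j i) →
        (∀ a : ι → ℝ, ∑ i, act J a i ^ 2 ≤ Λ * ∑ i, a i ^ 2) → 0 ≤ κ₀ → 4 ≤ gmax →
        TapEdge β κ₀ η gmax J y γ → Close β J y γ x K r₀ → Boxed β J y γ x K κ θ := by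
  set τ := β ^ 2 with hτ
  have hτ0 : 0 ≤ τ := sq_nonneg β
  set t := (1 - τ) / 44 with ht
  have ht0 : 0 < t := by rw [ht]; linarith
  have htle : t ≤ 1 / 44 := by rw [ht]; linarith
  set P := (1 - τ) * t with hP
  have hP0 : 0 < P := mul_pos (by linarith) ht0
  have hP1 : P ≤ 1 := mul_le_one₀ (by linarith) ht0.le (by linarith)
  set η₁ := min (η / 2) (P / 16) with hη₁
  have hη₁0 : 0 < η₁ := lt_min (by linarith) (by linarith)
  set f := min η (P / 32) with hf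
  have hf0 : 0 < f := lt_min hη (by linarith)
  set κ := min (η / (2 * (1 + η))) (P / 4) with hκdef
  have hκ0 : 0 < κ := lt_min (by positivity) (by linarith)
  have hκ1 : κ ≤ 1 / 4 := (min_le_right _ _).trans (by linarith)
  set θ := min ((1 - τ) / 2) (κ / (Λ + 4)) with hθ
  have hθ0 : 0 < θ := lt_min (by linarith) (by positivity)
  have hθh : θ ≤ (1 - τ) / 2 := min_le_left _ _
  set r₀ := min (1 / 4) (min (η₁ / 8) (f * η₁ ^ 2 / (192 * (Λ + 11)))) with hr₀
  refine ⟨κ, θ, r₀, hκ0, by linarith, hθ0, by linarith,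
    lt_min (by norm_num) (lt_min (by linarith) (by positivity)), min_le_left _ _, ?_⟩
  intro ι _ _ _ J y γ x K κ₀ gmax hs hJ hκ₀ hgmax hTE hc
  set g := stabG β J y γ x K
  set B := onsager β (tanhv γ)
  obtain ⟨hB0, hB1⟩ := onsager_tanhv_mem β γ
  have hn : (0 : ℝ) < Fintype.card ι := by exact_mod_cast Fintype.card_pos
  have hr14 : r₀ ≤ 1 / 4 := min_le_left _ _
  have hrη : r₀ ≤ η₁ / 8 := (min_le_right _ _).trans (min_le_left _ _)
  have hgpos : ∀ i, 0 < g i := fun i => steinG_pos _ _ _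
  have hg2 : ∀ i, g i ≤ 2 := fun i => by
    refine (steinG_le_exp _ _ _).trans ?_
    have hD : |stabDt β J y γ x K| ≤ 1 / 4 := by
      rw [stabDt, abs_of_nonneg (mul_nonneg (sq_nonneg β) (qav_nonneg _))]
      exact ((mul_le_of_le_one_left (qav_nonneg _) hβ.le).trans (hc _ (by omega) (by omega))).trans
        hr14
    refine (exp_bound_div_one_sub_of_interval (by positivity) (by linarith)).trans ?_
    rw [div_le_iff₀ (by linarith)]
    linarith
  set S := univ.filter fun i => 1 - tanh (γ i) ^ 2 + η₁ < g i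
  have hcard : (S.card : ℝ) ≤ f * Fintype.card ι := by
    have h := card_bad_le hβ.le hJ hΛ hTE.1 hc hr14 (by linarith) hη₁0
    have h2 : r₀ * (192 * (Λ + 11)) ≤ f * η₁ ^ 2 :=
      (le_div_iff₀ (by positivity)).1 ((min_le_right _ _).trans (min_le_right _ _))
    have h3 := mul_le_mul_of_nonneg_right h2 hn.le
    refine le_of_mul_le_mul_right (le_trans h ?_) (pow_pos hη₁0 2)
    linarith
  have hquad := edge_quad (J := J) (y := y) hκ0.le hκ1
    ((le_div_iff₀ (by positivity)).1 (min_le_left _ _)) (min_le_left _ _) hκ₀ hgmax hTE g hgpos hg2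
    (hcard.trans (mul_le_mul_of_nonneg_right (min_le_left _ _) hn.le))
  have hop : OpBound (-B) κ J g := by
    intro a
    have h := hquad fun i => √(g i) * a i
    have e : ∑ i, (√(g i) * a i) ^ 2 / g i = ∑ i, a i ^ 2 := sum_congr rfl fun i _ => by
      rw [mul_pow, sq_sqrt (hgpos i).le, mul_div_cancel_left₀ _ (hgpos i).ne']
    rw [e] at h
    have h0 : 0 ≤ 2 * τ * (∑ i, tanh (γ i) * (√(g i) * a i)) ^ 2 / Fintype.card ι := by positivity
    simp only [shiftQ]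
    linarith
  have H : Adm (-B) κ J g := ⟨hκ0, hs, fun i => (hgpos i).le, hop⟩
  have hE : selfEnergy τ (-B) g (B + t) ≤ B + t - κ := by
    refine (edge_energy hβ.le ht0 htle hη₁0 ((min_le_right _ _).trans (by linarith)) g hgpos hg2
      hcard).trans ?_
    have hP16 : η₁ ≤ P / 16 := min_le_right _ _
    have hP32 : f ≤ P / 32 := min_le_right _ _
    have hP4 : κ ≤ P / 4 := min_le_right _ _
    have hT2 : 11 * t ^ 2 = P / 4 := by rw [hP, ht]; ring
    have hPt : t = τ * t + P := by rw [hP]; ring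
    linarith
  have hd : ∀ i, (-B + (B + t)) * g i < 1 := fun i => by
    rw [neg_add_cancel_left]
    have := mul_le_mul_of_nonneg_left (hg2 i) ht0.le
    linarith
  have hF : FreeEdge τ (-B) κ g := ⟨B + t, by linarith,
    (mul_le_mul (show B + t ≤ 2 by linarith) hκ1 hκ0.le zero_le_two).trans (by norm_num), hd, hE⟩
  have hBκ : |(-B)| * κ ≤ 1 := by
    rw [abs_neg, abs_of_nonneg hB0]
    exact mul_le_one₀ (by linarith) hκ0.le (by linarith)
  have hgκ : ∀ i, g i * κ ≤ 1 := fun i =>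
    (mul_le_mul (hg2 i) hκ1 hκ0.le zero_le_two).trans (by norm_num)
  obtain ⟨ν, E⟩ := hF.edgeAt hτ0 hκ0 hBκ (fun i => (hgpos i).le) hgκ
  have hsig : τ * avg (stabFree β J y γ x K) ≤ B + t := by
    rw [stabFree, E.avg_G]
    exact freeSigma_le (by linarith) hd (by linarith)
  have hG0 : ∀ i, 0 ≤ stabFree β J y γ x K i := E.G_nonneg
  have hσ0 : 0 ≤ τ * avg (stabFree β J y γ x K) := mul_nonneg hτ0 (avg_nonneg hG0)
  have hU : ∀ i, 0 ≤ Algebra.ampU β J y x (K + 2) i ∧ Algebra.ampU β J y x (K + 2) i ≤ 1 := fun i =>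
    ⟨sub_nonneg.2 ((sq_le_one_iff_abs_le_one _).2 (abs_tanh_lt_one _).le),
      sub_le_self _ (sq_nonneg _)⟩
  refine ⟨H, hF, hBκ, hgpos, hg2, hgκ, hG0, E.G_le, ?_, fun i => ?_,
    mul_nonneg hτ0 (avg_nonneg fun i => mul_nonneg (hU i).1 (hG0 i)), ?_,
    edge_coercive hΛ hβ.le hθ0.le (by linarith)
      ((le_div_iff₀ (by linarith)).1 (min_le_right _ _)) hJ H hg2 hquad⟩
  · rw [abs_le]
    constructor <;> linarith
  · have h := E.G_eq i
    rw [show -B + τ * avg (freeG τ (-B) g) = τ * avg (freeG τ (-B) g) - B by ring] at h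
    exact h
  · refine (mul_le_mul_of_nonneg_left (avg_le_avg fun i =>
      mul_le_of_le_one_left (hG0 i) (hU i).2) hτ0).trans ?_
    have h44 : t * 44 = 1 - τ := by rw [ht]; ring
    linarith

end Vale.Agent.P150.Beta1.Stability
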