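import Vale.Agent.P150.Beta1.Stability.Box
import Vale.Agent.P150.Beta1.Rule.Pairing

/-!
# The main term and the closing algebra

The main term of the residual is controlled by three scalars `e₂`, `c η` and `ξ`, and the scalar
identities of the tests give these back at a loss proportional to the radius.
-/

namespace Vale.Agent.P150.Beta1.Stability

open Finset Real Matrix

variable {ι : Type*} [Fintype ι] [DecidableEq ι] {β κ θ Λ : ℝ} {J : ι → ι → ℝ} {y γ x : ι → ℝ}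
  {K : ℕ}

/-- `c - |ampA (K+1) - tanh γ|² / n`. -/
noncomputable def stabE (β : ℝ) (J : ι → ι → ℝ) (y γ x : ι → ℝ) (K : ℕ) : ℝ :=
  stabScalar β J y γ x K - qav (gap β J y γ x (K + 1))

/-- `c η`, with `η` the gap between the self-energy and the Onsager coefficient. -/
noncomputable def stabEta (β : ℝ) (J : ι → ι → ℝ) (y γ x : ι → ℝ) (K : ℕ) : ℝ :=
  stabScalar β J y γ x K * (β ^ 2 * avg (stabFree β J y γ x K) - onsager β (tanhv γ))

/-- The constant of the main term. -/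
noncomputable def mainC (κ Λ : ℝ) : ℝ :=
  48 / κ ^ 3 * √(2 + 4 * (Λ + 1) * (2 / κ) ^ 2) + 4 / κ

lemma mainC_nonneg (hκ : 0 < κ) : 0 ≤ mainC κ Λ := by unfold mainC; positivity

lemma qp_norms (hB : Boxed β J y γ x K κ θ) (hβ : β ^ 2 ≤ 1)
    (hJ : ∀ a : ι → ℝ, ∑ i, act J a i ^ 2 ≤ Λ * ∑ i, a i ^ 2) (hΛ : 0 ≤ Λ) (w : ι → ℝ) :
    ∑ i, resQ β J y γ x K w i ^ 2 ≤ (2 / κ) ^ 2 * ∑ i, w i ^ 2 ∧
    ∑ i, resP β J y γ x K w i ^ 2 ≤ (2 + 4 * (Λ + 1) * (2 / κ) ^ 2) * ∑ i, w i ^ 2 := by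
  have hq : ∑ i, resQ β J y γ x K w i ^ 2 ≤ (2 / κ) ^ 2 * ∑ i, w i ^ 2 :=
    (hB.adm.res_opLe zero_le_two hB.gle).2 w
  refine ⟨hq, ?_⟩
  obtain ⟨b0, b1⟩ := onsager_tanhv_mem β γ
  set q := resQ β J y γ x K w
  have hb : ∀ i, (-onsager β (tanhv γ) * q i) ^ 2 ≤ q i ^ 2 := fun i => by
    rw [mul_pow, neg_sq]
    exact mul_le_of_le_one_left (sq_nonneg _) (pow_le_one₀ b0 (b1.trans hβ))
  have hpt : ∀ i, resP β J y γ x K w i ^ 2 ≤ 2 * w i ^ 2 + 4 * (act J q i ^ 2 + q i ^ 2) := by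
    intro i
    rw [resP, Pi.add_apply, shiftMat_mulVec]
    have h1 := add_sq_le (a := w i) (b := act J q i + -onsager β (tanhv γ) * q i)
    have h2 := add_sq_le (a := act J q i) (b := -onsager β (tanhv γ) * q i)
    linarith [hb i]
  refine (sum_le_sum fun i _ => hpt i).trans ?_
  rw [sum_add_distrib, ← mul_sum, ← mul_sum, sum_add_distrib]
  have h3 : (Λ + 1) * ∑ i, q i ^ 2 ≤ (Λ + 1) * ((2 / κ) ^ 2 * ∑ i, w i ^ 2) :=
    mul_le_mul_of_nonneg_left hq (by linarith)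
  linarith [hJ q]

/-- The diagonal part of the main term. -/
lemma abs_main_diag_le (hB : Boxed β J y γ x K κ θ) (hβ : β ^ 2 ≤ 1)
    (hJ : ∀ a : ι → ℝ, ∑ i, act J a i ^ 2 ≤ Λ * ∑ i, a i ^ 2) (hΛ : 0 ≤ Λ) (w : ι → ℝ) :
    |∑ i, stabH β J y γ x K i * resP β J y γ x K w i
        * (β ^ 2 * stabScalar β J y γ x K * stabFree β J y γ x K i
          - stabDt β J y γ x K * stabG β J y γ x K i)|
      ≤ 48 / κ ^ 3 * √(2 + 4 * (Λ + 1) * (2 / κ) ^ 2)
          * (|stabE β J y γ x K| + |stabEta β J y γ x K|)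
          * (√(Fintype.card ι) * √(∑ i, w i ^ 2)) := by
  set c := stabScalar β J y γ x K
  set G := stabFree β J y γ x K
  set g := stabG β J y γ x K
  set qp := qav (gap β J y γ x (K + 1))
  set η := β ^ 2 * avg G - onsager β (tanhv γ)
  set e := stabE β J y γ x K with he
  set X := |e| + |stabEta β J y γ x K|
  set p := resP β J y γ x K w
  have hκ := hB.adm.hκ
  have hpt : ∀ i, |β ^ 2 * c * G i - stabDt β J y γ x K * g i| ≤ 8 / κ ^ 3 * (3 * X) := by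
    intro i
    have e1 : β ^ 2 * c * G i - stabDt β J y γ x K * g i
        = β ^ 2 * (G i * (e + (stabEta β J y γ x K - e * η) * g i)) := by
      have := hB.free_eq i
      rw [stabDt, stabEta, he, stabE]
      linear_combination β ^ 2 * qp * this
    rw [e1, abs_mul, abs_of_nonneg (sq_nonneg β)]
    refine (mul_le_of_le_one_left (abs_nonneg _) hβ).trans ?_
    rw [abs_mul, abs_of_nonneg (hB.free_nonneg i)]
    refine mul_le_mul (hB.free_le i) ?_ (abs_nonneg _) (by positivity)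
    refine (abs_add_le _ _).trans ?_
    rw [abs_mul, abs_of_pos (hB.gpos i)]
    have h2 : |stabEta β J y γ x K - e * η| ≤ X := by
      refine (abs_sub _ _).trans ?_
      rw [abs_mul]
      have := mul_le_of_le_one_right (abs_nonneg e) hB.shift_free
      linarith
    have := mul_le_mul h2 (hB.gle i) (hB.gpos i).le
      (add_nonneg (abs_nonneg _) (abs_nonneg _))
    linarith [abs_nonneg (stabEta β J y γ x K)]
  have hX : 0 ≤ X := add_nonneg (abs_nonneg _) (abs_nonneg _)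
  have hpt2 : ∀ i, |stabH β J y γ x K i * p i * (β ^ 2 * c * G i - stabDt β J y γ x K * g i)|
      ≤ 48 / κ ^ 3 * X * |p i| := by
    intro i
    rw [abs_mul, abs_mul]
    refine (mul_le_mul (mul_le_mul_of_nonneg_right (abs_steinH_le _ _ _) (abs_nonneg _)) (hpt i)
      (abs_nonneg _) (by positivity)).trans (le_of_eq ?_)
    ring
  refine (abs_sum_le_sum_abs _ _).trans ((sum_le_sum fun i _ => hpt2 i).trans ?_)
  rw [← mul_sum]
  have h1 : ∑ i, |p i| ≤ √(Fintype.card ι) * (√(2 + 4 * (Λ + 1) * (2 / κ) ^ 2)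
      * √(∑ i, w i ^ 2)) := by
    rw [← Real.sqrt_mul (by positivity : (0:ℝ) ≤ 2 + 4 * (Λ + 1) * (2 / κ) ^ 2),
      ← Real.sqrt_mul (Nat.cast_nonneg _)]
    refine Real.le_sqrt_of_sq_le ?_
    have := sum_mul_sq_le_sq_mul_sq (univ : Finset ι) (fun _ => (1 : ℝ)) fun i => |p i|
    simp only [one_mul, one_pow, sum_const, card_univ, nsmul_one, sq_abs] at this
    exact this.trans (mul_le_mul_of_nonneg_left (qp_norms hB hβ hJ hΛ w).2 (Nat.cast_nonneg _))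
  exact (mul_le_mul_of_nonneg_left h1 (mul_nonneg (by positivity) hX)).trans (le_of_eq (by ring))

/-- The main term of a test field. -/
theorem abs_mainTerm_le (hB : Boxed β J y γ x K κ θ) (hβ : β ^ 2 ≤ 1)
    (hJ : ∀ a : ι → ℝ, ∑ i, act J a i ^ 2 ≤ Λ * ∑ i, a i ^ 2) (hΛ : 0 ≤ Λ)
    (hx : ∀ i, |ampA β J y x (K + 2) i| ≤ 1) (w : ι → ℝ) :
    |mainTerm β J y γ x K w| ≤ mainC κ Λ * (|stabE β J y γ x K| + |stabEta β J y γ x K|
      + |stabXi β J y γ x K|) * (√(Fintype.card ι) * √(∑ i, w i ^ 2)) := by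
  set S := √(Fintype.card ι) * √(∑ i, w i ^ 2) with hS
  have hκ := hB.adm.hκ
  have h2 : |∑ i, resQ β J y γ x K w i * ampA β J y x (K + 2) i| ≤ 2 / κ * S := by
    refine (Rule.abs_sum_le_sqrt (A := (Fintype.card ι : ℝ)) ?_).trans ?_
    · exact (sum_le_sum fun i _ => (sq_le_one_iff_abs_le_one _).2 (hx i)).trans (le_of_eq (by simp))
    · rw [hS, mul_left_comm (2 / κ)]
      refine mul_le_mul_of_nonneg_left ?_ (Real.sqrt_nonneg _)
      rw [← Real.sqrt_sq (show 0 ≤ 2 / κ by positivity), ← Real.sqrt_mul (sq_nonneg _)]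
      exact Real.sqrt_le_sqrt (qp_norms hB hβ hJ hΛ w).1
  have h1 := abs_main_diag_le hB hβ hJ hΛ w
  have h3 : |2 * β ^ 2 * stabXi β J y γ x K * ∑ i, resQ β J y γ x K w i * ampA β J y x (K + 2) i|
      ≤ 2 * |stabXi β J y γ x K| * (2 / κ * S) := by
    rw [abs_mul, abs_mul, abs_of_nonneg (show (0:ℝ) ≤ 2 * β ^ 2 by positivity)]
    exact mul_le_mul (mul_le_mul_of_nonneg_right (by linarith) (abs_nonneg _)) h2 (abs_nonneg _)
      (by positivity)
  refine (abs_add_le _ _).trans ((add_le_add h1 h3).trans ?_)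
  have hC : 0 ≤ 48 / κ ^ 3 * √(2 + 4 * (Λ + 1) * (2 / κ) ^ 2) := by positivity
  have hS0 : 0 ≤ S := by positivity
  have := mul_nonneg (mul_nonneg hC (abs_nonneg (stabXi β J y γ x K))) hS0
  have := mul_nonneg (mul_nonneg (show 0 ≤ 4 / κ by positivity) (add_nonneg
    (abs_nonneg (stabE β J y γ x K)) (abs_nonneg (stabEta β J y γ x K)))) hS0
  simp only [← hS] at *
  simp only [mainC]
  ring_nf at *
  linarith

/-- The test by the TAP point is coercive in `ξ`. -/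
theorem tap_test_lower [Nonempty ι] (hB : Boxed β J y γ x K κ θ) (hβ : β ^ 2 ≤ 1)
    (hJ : ∀ a : ι → ℝ, ∑ i, act J a i ^ 2 ≤ Λ * ∑ i, a i ^ 2) (hΛ : 0 ≤ Λ) {ρ ξ : ℝ}
    (hρ : 0 ≤ ρ) (hδ : qav (gap β J y γ x (K + 2)) ≤ ρ ^ 2) :
    θ * ξ ^ 2 - mainC κ Λ * |ξ| * (|stabE β J y γ x K| + |stabEta β J y γ x K|
        + |stabXi β J y γ x K - ξ| + ρ * |stabXi β J y γ x K|)
      ≤ ξ * (ξ - mainTerm β J y γ x K (tanhv γ) / Fintype.card ι) := by
  set n := (Fintype.card ι : ℝ) with hn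
  have hn0 : 0 < n := by rw [hn]; exact_mod_cast Fintype.card_pos
  have hκ := hB.adm.hκ
  set q := resQ β J y γ x K (tanhv γ)
  set X := |stabE β J y γ x K| + |stabEta β J y γ x K|
  set a := avg fun i => tanh (γ i) * q i
  set b := avg fun i => q i * gap β J y γ x (K + 2) i
  set d := (∑ i, stabH β J y γ x K i * resP β J y γ x K (tanhv γ) i
        * (β ^ 2 * stabScalar β J y γ x K * stabFree β J y γ x K i
          - stabDt β J y γ x K * stabG β J y γ x K i)) / n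
  set ξ' := stabXi β J y γ x K
  have hmm := sum_sq_le_of_qav (qav_tanhv_le γ)
  rw [one_mul] at hmm
  have hd : |d| ≤ 48 / κ ^ 3 * √(2 + 4 * (Λ + 1) * (2 / κ) ^ 2) * X := by
    rw [abs_div, abs_of_pos hn0, div_le_iff₀ hn0]
    refine (abs_main_diag_le hB hβ hJ hΛ (tanhv γ)).trans ?_
    refine mul_le_mul_of_nonneg_left ?_ (by positivity)
    calc √n * √(∑ i, tanhv γ i ^ 2) ≤ √n * √n :=
          mul_le_mul_of_nonneg_left (Real.sqrt_le_sqrt hmm) (Real.sqrt_nonneg _)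
      _ = n := Real.mul_self_sqrt hn0.le
  have hq : qav q ≤ (2 / κ) ^ 2 := by
    rw [qav, avg, ← hn, div_le_iff₀ hn0]
    exact ((qp_norms hB hβ hJ hΛ (tanhv γ)).1).trans (mul_le_mul_of_nonneg_left hmm (sq_nonneg _))
  have ha : |a| ≤ 2 / κ :=
    abs_le_of_sq_le_sq ((avg_mul_sq_le (tanhv γ) q).trans
      ((mul_le_of_le_one_left (qav_nonneg q) (qav_tanhv_le γ)).trans hq)) (by positivity)
  have hb : |b| ≤ 2 / κ * ρ := by
    refine abs_le_of_sq_le_sq ((avg_mul_sq_le q _).trans ?_) (by positivity)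
    rw [mul_pow]
    exact mul_le_mul hq hδ (qav_nonneg _) (sq_nonneg _)
  have hco := hB.coercive
  have e : ξ - mainTerm β J y γ x K (tanhv γ) / n
      = ξ * (1 - 2 * β ^ 2 * a) - (d + 2 * β ^ 2 * ((ξ' - ξ) * a + ξ' * b)) := by
    have e1 : ∑ i, q i * ampA β J y x (K + 2) i = n * (a + b) := by
      simp only [a, b, avg, ← hn, gap]
      rw [← add_div, mul_div_cancel₀ _ hn0.ne', ← sum_add_distrib]
      exact sum_congr rfl fun i _ => by ring
    simp only [mainTerm, add_div, d]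
    rw [e1]
    field_simp
    ring
  rw [e]
  have h1 : θ * ξ ^ 2 ≤ (1 - 2 * β ^ 2 * a) * ξ ^ 2 :=
    mul_le_mul_of_nonneg_right (by linarith [hco]) (sq_nonneg ξ)
  have h2 : |d + 2 * β ^ 2 * ((ξ' - ξ) * a + ξ' * b)|
      ≤ mainC κ Λ * (X + |ξ' - ξ| + ρ * |ξ'|) := by
    refine (abs_add_le _ _).trans ?_
    rw [abs_mul, abs_of_nonneg (show (0:ℝ) ≤ 2 * β ^ 2 by positivity)]
    have h3 : |(ξ' - ξ) * a + ξ' * b| ≤ 2 / κ * (|ξ' - ξ| + ρ * |ξ'|) := by
      refine (abs_add_le _ _).trans ?_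
      rw [abs_mul, abs_mul]
      have := mul_le_mul_of_nonneg_left ha (abs_nonneg (ξ' - ξ))
      have := mul_le_mul_of_nonneg_left hb (abs_nonneg ξ')
      linarith
    have h4 : 2 * β ^ 2 * |(ξ' - ξ) * a + ξ' * b| ≤ 4 / κ * (|ξ' - ξ| + ρ * |ξ'|) :=
      ((mul_le_mul (show 2 * β ^ 2 ≤ 2 by linarith) h3 (abs_nonneg _) zero_le_two)).trans
        (le_of_eq (by ring))
    have hC : 0 ≤ 48 / κ ^ 3 * √(2 + 4 * (Λ + 1) * (2 / κ) ^ 2) := by positivity
    have := mul_nonneg hC (add_nonneg (abs_nonneg (ξ' - ξ)) (mul_nonneg hρ (abs_nonneg ξ')))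
    have := mul_nonneg (show 0 ≤ 4 / κ by positivity)
      (add_nonneg (abs_nonneg (stabE β J y γ x K)) (abs_nonneg (stabEta β J y γ x K)))
    simp only [mainC]
    linarith
  have h5 := (abs_le.1 ((abs_mul ξ _).trans_le (mul_le_mul_of_nonneg_left h2 (abs_nonneg ξ)))).2
  linarith

/-- The scalar identities close. The inputs are the values of the tests and of the orthogonality
relations; the outputs are `e₂` and `c η`. -/
theorem closing {τ b c Y T σ Bs Bk Bp ξ qd qp r1 r2 r3 r4 r5 eδ ed ev z ν ρ : ℝ}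
    (hτ0 : 0 ≤ τ) (hτ1 : τ ≤ 1) (hθ : 0 < θ) (hb0 : 0 ≤ b) (hb : b ≤ 1 - θ) (hBs : |Bs| ≤ 1)
    (hBk : |Bk| ≤ 1) (hBp : |Bp| ≤ 1) (hρ0 : 0 ≤ ρ) (hρ : ρ ≤ 1) (hν : 0 ≤ ν)
    (hqd0 : 0 ≤ qd) (hqd : qd ≤ 4 * ρ ^ 2) (hqp0 : 0 ≤ qp) (hqp : qp ≤ 4 * ρ ^ 2)
    (hξ : |ξ| ≤ 2 * ρ) (hc : c = T + Y) (hBkq : Bk = Bs - τ * (qd + 2 * ξ))
    (hr5 : T - (qp - qd + 2 * r1) = r5)
    (hz : z = -(Bs * qd) + (r4 + Bk * (T - r5)) - Bp * (r2 + r3)
      + τ * (qp + 2 * (ξ + r1)) * (qd + ξ))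
    (hδ : |eδ - (qd - c * b)| ≤ ν) (hd : |ed - (r2 - (Y - c * b))| ≤ ν)
    (hv : |ev - (z - (c * σ - Bk * Y - σ * (c * b)))| ≤ ν) :
    |c - qp| ≤ 2 * (|eδ| + |ed| + |ev| + |r1| + |r2| + |r3| + |r4| + |r5| + ν) ∧
    θ * |c * (σ - Bs)|
      ≤ 60 * (|eδ| + |ed| + |ev| + |r1| + |r2| + |r3| + |r4| + |r5| + ν) + 16 * ρ * |ξ| := by
  set E := |eδ| + |ed| + |ev| + |r1| + |r2| + |r3| + |r4| + |r5| + ν with hE
  have n1 := abs_nonneg eδ
  have n2 := abs_nonneg ed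
  have n3 := abs_nonneg ev
  have n4 := abs_nonneg r1
  have n5 := abs_nonneg r2
  have n6 := abs_nonneg r3
  have n7 := abs_nonneg r4
  have n8 := abs_nonneg r5
  have hE0 : 0 ≤ E := by positivity
  set a1 := qd - c * b with ha1
  have ha : |a1| ≤ E := by
    have := abs_sub_le a1 eδ 0
    rw [abs_sub_comm] at hδ
    simp only [sub_zero] at this
    linarith
  have h2 : |c - qp| ≤ 2 * E := by
    have e : c - qp = r5 + 2 * r1 + (Y - c * b) - a1 := by
      linear_combination hr5 + hc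
    rw [e, abs_le]
    obtain ⟨d1, d2⟩ := abs_le.1 hd
    obtain ⟨a1', a2'⟩ := abs_le.1 hδ
    obtain ⟨u1, u2⟩ := abs_le.1 (le_refl |r5|)
    obtain ⟨v1, v2⟩ := abs_le.1 (le_refl |r1|)
    obtain ⟨w1, w2⟩ := abs_le.1 (le_refl |r2|)
    obtain ⟨x1, x2⟩ := abs_le.1 (le_refl |eδ|)
    obtain ⟨y1, y2⟩ := abs_le.1 (le_refl |ed|)
    constructor <;> linarith
  refine ⟨h2, ?_⟩
  have hcb : |qd + ξ| ≤ 6 * ρ := by
    have : qd ≤ 4 * ρ := hqd.trans (by nlinarith)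
    rw [abs_le]
    constructor <;> linarith [abs_le.1 hξ]
  have hcξ : |c * ξ| ≤ 4 * ρ * |ξ| + 4 * E := by
    rw [show c * ξ = qp * ξ + (c - qp) * ξ by ring]
    refine (abs_add_le _ _).trans ?_
    rw [abs_mul, abs_mul, abs_of_nonneg hqp0]
    have h3 : qp * |ξ| ≤ 4 * ρ * |ξ| :=
      mul_le_mul_of_nonneg_right (hqp.trans (by nlinarith)) (abs_nonneg _)
    have h4 : |c - qp| * |ξ| ≤ 2 * E * 2 :=
      mul_le_mul h2 (hξ.trans (by linarith)) (abs_nonneg _) (by linarith)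
    linarith
  have hξc : |ξ * (c * b + ξ)| ≤ 6 * ρ * |ξ| + 4 * E := by
    rw [show ξ * (c * b + ξ) = b * (c * ξ) + ξ * ξ by ring]
    refine (abs_add_le _ _).trans ?_
    rw [abs_mul b, abs_mul ξ, abs_of_nonneg hb0]
    have h3 := (mul_le_of_le_one_left (abs_nonneg _) (by linarith : b ≤ 1)).trans hcξ
    have h4 := mul_le_mul_of_nonneg_right hξ (abs_nonneg ξ)
    linarith
  have key : c * (σ - Bs) * (1 - b) = -(τ * (c * ξ)) + 2 * τ * (ξ * (c * b + ξ))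
      + (-(Bs * a1) + r4 - Bk * r5 - Bp * (r2 + r3) + 2 * τ * (ξ * a1)
        + τ * ((2 * r1 - (c - qp)) * (qd + ξ)))
      - (z - (c * σ - Bk * Y - σ * (c * b))) := by
    rw [hz, ha1, hc, hBkq]
    ring
  have hev : |z - (c * σ - Bk * Y - σ * (c * b))| ≤ E := by
    have := abs_sub_le (z - (c * σ - Bk * Y - σ * (c * b))) ev 0
    rw [abs_sub_comm] at hv
    simp only [sub_zero] at this
    linarith
  have m1 : |Bs * a1| ≤ E := by
    rw [abs_mul]; exact (mul_le_of_le_one_left (abs_nonneg _) hBs).trans ha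
  have m2 : |Bk * r5| ≤ E := by
    rw [abs_mul]; exact (mul_le_of_le_one_left (abs_nonneg _) hBk).trans (by linarith)
  have m3 : |Bp * (r2 + r3)| ≤ E := by
    rw [abs_mul]
    exact (mul_le_of_le_one_left (abs_nonneg _) hBp).trans ((abs_add_le _ _).trans (by linarith))
  have m4 : |τ * (c * ξ)| ≤ 4 * ρ * |ξ| + 4 * E := by
    rw [abs_mul, abs_of_nonneg hτ0]; exact (mul_le_of_le_one_left (abs_nonneg _) hτ1).trans hcξ
  have m5 : |τ * (ξ * (c * b + ξ))| ≤ 6 * ρ * |ξ| + 4 * E := by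
    rw [abs_mul, abs_of_nonneg hτ0]; exact (mul_le_of_le_one_left (abs_nonneg _) hτ1).trans hξc
  have m6 : |τ * (ξ * a1)| ≤ 2 * E := by
    rw [abs_mul, abs_of_nonneg hτ0]
    refine (mul_le_of_le_one_left (abs_nonneg _) hτ1).trans ?_
    rw [abs_mul]
    exact mul_le_mul (hξ.trans (by linarith)) ha (abs_nonneg _) zero_le_two
  have m7 : |τ * ((2 * r1 - (c - qp)) * (qd + ξ))| ≤ 24 * E := by
    rw [abs_mul, abs_of_nonneg hτ0]
    refine (mul_le_of_le_one_left (abs_nonneg _) hτ1).trans ?_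
    rw [abs_mul]
    refine (mul_le_mul (b := 4 * E) ((abs_sub _ _).trans ?_) (hcb.trans (by linarith : 6 * ρ ≤ 6))
      (abs_nonneg _) (by linarith)).trans (le_of_eq (by ring))
    rw [abs_mul, abs_two]
    linarith
  have hlhs : θ * |c * (σ - Bs)| ≤ |c * (σ - Bs) * (1 - b)| := by
    rw [abs_mul (c * _), mul_comm θ]
    exact mul_le_mul_of_nonneg_left (le_abs.2 (Or.inl (by linarith))) (abs_nonneg _)
  refine hlhs.trans ?_
  rw [key]
  rw [abs_le] at m1 m2 m3 m4 m5 m6 m7 hev ⊢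
  obtain ⟨u1, u2⟩ := abs_le.1 (show |r4| ≤ E by linarith)
  constructor <;> linarith

end Vale.Agent.P150.Beta1.Stability
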