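import Vale.Agent.P150.Beta1.Stability.Bootstrap
import Vale.Agent.P150.Beta1.Good
import Vale.Agent.P150.Beta1.Words.Event

/-!
# The deterministic stability bound

For a constant vector `a`, the pairing of `E_ν x - tanh γ` with `a` splits into increments, paid by
the rule, the cutoff part of `ampA (K+2) - tanh γ`, paid by the residual and the bootstrap, and the
mass off the cutoff.
-/

namespace Vale.Agent.P150.Beta1.Stability

open Finset Function Real Matrix
open Vale.Agent.P150.Beta1.Algebra Vale.Agent.P150.Beta1.Rule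

variable {n : ℕ} {β : ℝ}

lemma testSq_const (a : Fin n → ℝ) (x : Fin n → Bool) :
    testSq (fun _ : Fin n → Bool => a) x = ∑ i, a i ^ 2 := by
  simp [testSq, deriv2]

lemma tracePair_const (L : Matrix (Fin n) (Fin n) ℝ) (a : Fin n → ℝ) (x : Fin n → Bool) :
    tracePair L (fun _ : Fin n → Bool => a) x = 0 := by
  simp [tracePair, deriv2]

lemma sqrt_affine_le {T S : ℝ} (hT : 0 ≤ T) (hS : 0 ≤ S) :
    √(T * S + 1) ≤ (√T + 1) * (√S + 1) := by
  refine Real.sqrt_le_iff.2 ⟨by positivity, ?_⟩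
  have e1 := Real.sq_sqrt hT
  have e2 := Real.sq_sqrt hS
  have : √T * √S * (√T * √S) = T * S := by linear_combination S * e1 + √T ^ 2 * e2
  nlinarith [mul_nonneg (Real.sqrt_nonneg T) (Real.sqrt_nonneg S), Real.sqrt_nonneg T,
    Real.sqrt_nonneg S]

/-- The increments down to the configuration. -/
lemma exists_increments (hrule : RuleStatement β) (K : ℕ) : ∃ m : ℕ, ∀ C, ∃ A, 0 ≤ A ∧
    ∀ (n : ℕ) (J : Fin n → Fin n → ℝ) (y : Fin n → ℝ) (F : (Fin n → Bool) → ℝ) (a : Fin n → ℝ),
      GoodWords β m C J → (∀ x, 0 < F x) →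
        |tmean (gibbs J y) F (fun x =>
            ∑ i, a i * (spins x i - ampA β J y (spins x) (K + 2) i))|
          ≤ A * √(tdir (gibbs J y) F + 1) * (√(∑ i, a i ^ 2) + 1) := by
  induction K + 2 with
  | zero =>
    refine ⟨0, fun C => ⟨0, le_rfl, fun n J y F a _ hF => ?_⟩⟩
    simp [ampA, tmean_const (fun x => gibbs_pos x) hF]
  | succ k ih =>
    obtain ⟨m, hm⟩ := ih
    obtain ⟨mk, hmk⟩ := hrule k
    refine ⟨max m mk, fun C => ?_⟩
    obtain ⟨A, hA, h⟩ := hm C
    obtain ⟨B, hB⟩ := hmk C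
    refine ⟨A + |B|, by positivity, fun n J y F a hG hF => ?_⟩
    have hρ : ∀ x, 0 < gibbs J y x := fun x => gibbs_pos x
    have hGm : GoodWords β m C J :=
      ⟨hG.1, hG.2.1, hG.2.2.1, fun d l hl => hG.2.2.2 d l (hl.trans (le_max_left _ _))⟩
    have hGk : GoodWords β mk C J :=
      ⟨hG.1, hG.2.1, hG.2.2.1, fun d l hl => hG.2.2.2 d l (hl.trans (le_max_right _ _))⟩
    have h1 := h n J y F a hGm hF
    have h2 := hB n J y F (fun _ => a) hGk hF
    simp only [tracePair_const, funext (testSq_const a), tmean_const hρ hF, sub_zero] at h2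
    have e : ∀ x : Fin n → Bool, ∑ i, a i * (spins x i - ampA β J y (spins x) (k + 1) i)
        = ∑ i, a i * (spins x i - ampA β J y (spins x) k i)
          + ∑ i, ampD β J y (spins x) k i * a i := fun x => by
      rw [← sum_add_distrib]
      exact sum_congr rfl fun i _ => by simp only [ampD]; ring
    simp only [e, tmean_add]
    have hsq : √(∑ i, a i ^ 2 + 1) ≤ √(∑ i, a i ^ 2) + 1 := by
      refine Real.sqrt_le_iff.2 ⟨by positivity, ?_⟩
      nlinarith [Real.sq_sqrt (sum_nonneg fun i (_ : i ∈ univ) => sq_nonneg (a i)),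
        Real.sqrt_nonneg (∑ i, a i ^ 2)]
    have h3 : B * √(tdir (gibbs J y) F + 1) * √(∑ i, a i ^ 2 + 1)
        ≤ |B| * √(tdir (gibbs J y) F + 1) * (√(∑ i, a i ^ 2) + 1) :=
      mul_le_mul (mul_le_mul_of_nonneg_right (le_abs_self B) (Real.sqrt_nonneg _)) hsq
        (Real.sqrt_nonneg _) (by positivity)
    refine (abs_add_le _ _).trans ?_
    linarith

/-- The distance of `ampA (K+2)` to the TAP point, on the cutoff. -/
lemma exists_cut_part (hrule : RuleStatement β) (hscal : ScalarStatement β) (hβ : β ^ 2 ≤ 1)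
    (K : ℕ) :
    ∃ m : ℕ, ∀ C κ θ Λ R r : ℝ, 0 < κ → 0 < θ → 0 ≤ Λ → r ≤ bootR κ θ Λ → ∃ A, 0 ≤ A ∧
      ∀ (m' n : ℕ) (J : Fin n → Fin n → ℝ) (y γ : Fin n → ℝ) (F : (Fin n → Bool) → ℝ)
        (a : Fin n → ℝ), m ≤ m' → Setting β C κ θ Λ R r m' K J y γ F →
        |tmean (gibbs J y) F (fun x => cutoff β J y γ K r x
            * ∑ i, a i * gap β J y γ (spins x) (K + 2) i)|
          ≤ A * √(tdir (gibbs J y) F + 1) * (√(∑ i, a i ^ 2) + 1) := by
  obtain ⟨mb, hmb⟩ := exists_bootstrap hrule hscal hβ K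
  obtain ⟨mr, hm6, hmr⟩ := exists_residual hrule hβ K
  refine ⟨max mb mr, fun C κ θ Λ R r hκ hθ hΛ hr => ?_⟩
  obtain ⟨Ab, hAb, hb⟩ := hmb C κ θ Λ R r hκ hθ hΛ hr
  obtain ⟨Ar, hAr, hres⟩ := hmr C κ hκ
  set G := |10 * ((1 / r) ^ 2 * (3 * (4 * R + 4 * R + 4 * (R * R))))| with hGdef
  set KA := |R| * (2 / κ) ^ 2 with hKA
  set M := mainC κ Λ
  have hM : 0 ≤ M := mainC_nonneg hκ
  refine ⟨Ar * (√(2 + 20 * G) + 1) + 3 * √(G * KA) + M * √(4 * Ab), by positivity,
    fun m' n J y γ F a hm H => ?_⟩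
  have := H.nonempty
  have hρ : ∀ x, 0 < gibbs J y x := fun x => gibbs_pos x
  have hn1 : (1 : ℝ) ≤ n := by exact_mod_cast H.npos
  have hn0 : (0 : ℝ) < n := zero_lt_one.trans_le hn1
  set χ := cutoff β J y γ K r
  set S := ∑ i, a i ^ 2 with hSdef
  have hS : 0 ≤ S := sum_nonneg fun i _ => sq_nonneg _
  set D := tdir (gibbs J y) F
  have hD : 0 ≤ D := tdir_nonneg H.words.1 H.words.2.1 H.Fpos
  set L := fun x => (stabA β J y (spins x) K).mat J * stabS β J y γ (spins x) K
  set w := fun x i => χ x * a i with hw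
  have hg : ∀ x, scGrad χ x ≤ G := fun x => (scGrad_cutoff (H.reg x)).trans (le_abs_self _)
  have hw0 : ∀ x, ¬Inner β J y γ K (4 * r) x → w x = 0 ∧ ∀ j, w (flip j x) = 0 := fun x hx =>
    ⟨funext fun i => by simp [hw, χ, (H.support x hx).1],
      fun j => funext fun i => by simp [hw, χ, (H.support x hx).2 j]⟩
  have hGr : GoodWords β mr C J := ⟨H.words.1, H.words.2.1, H.words.2.2.1,
    fun d l hl => H.words.2.2.2 d l (hl.trans ((le_max_right _ _).trans hm))⟩
  have hRr : GoodResolvent β κ mr C J := fun c g d l h1 h2 h3 h4 h5 hl =>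
    H.resolvent c g d l h1 h2 h3 h4 h5 (hl.trans ((le_max_right _ _).trans hm))
  have hbox : ∀ x, χ x ≠ 0 → Boxed β J y γ (spins x) K κ θ := fun x hx =>
    H.box x fun j h1 h2 => (close_of_cutoff H.rpos hx j h1 h2).trans (by linarith [H.rpos])
  have htest : tmean (gibbs J y) F (testSq w) ≤ (2 + 20 * G) * S := by
    refine (tmean_mono hρ H.Fpos fun x => ?_).trans_eq (tmean_const hρ H.Fpos _)
    refine (testSq_scalar_mul χ (fun _ => a) x).trans ?_
    rw [testSq_const]
    refine mul_le_mul_of_nonneg_right ?_ hS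
    have h2 : χ x ^ 2 ≤ 1 := pow_le_one₀ (cutoff_mem x).1 (cutoff_mem x).2
    have h3 : ∑ j, deriv2 j χ x ^ 2 ≤ G := by
      refine le_trans ?_ (hg x)
      rw [scGrad, Fintype.card_fin]
      exact le_mul_of_one_le_left (sum_nonneg fun _ _ => sq_nonneg _) hn1
    linarith
  have hR := (hres n J y γ F θ (4 * r) w H.npos hGr hRr H.Fpos H.tap H.box hw0).trans
    (mul_le_mul_of_nonneg_left ((Real.sqrt_le_sqrt (by linarith)).trans
      (sqrt_affine_le (by positivity : 0 ≤ 2 + 20 * G) hS)) (by positivity))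
  have htp : |tmean (gibbs J y) F (fun x => tracePair (L x) w x)| ≤ 3 * √(G * KA) * √S := by
    refine (abs_tmean_le hρ H.Fpos _).trans ((tmean_mono hρ H.Fpos fun x => ?_).trans_eq
      (tmean_const hρ H.Fpos _))
    by_cases hx : Inner β J y γ K (4 * r) x
    · have hL : Act KA (L x) := act_mono (act_mul (H.reg x).actA (H.box x hx.1).res_act)
        (mul_le_mul_of_nonneg_right (le_abs_self R) (sq_nonneg _))
      have h := tracePair_scalar hL χ (fun _ => a) x
      rw [tracePair_const, mul_zero, sub_zero, testSq_const, Fintype.card_fin] at h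
      refine h.trans ?_
      rw [mul_assoc (3 : ℝ), ← Real.sqrt_mul (by positivity)]
      refine mul_le_mul_of_nonneg_left (Real.sqrt_le_sqrt ((div_le_self ?_ hn1).trans ?_))
        (by norm_num)
      · exact mul_nonneg (mul_nonneg (scGrad_nonneg _ _) (by positivity)) hS
      · exact mul_le_mul_of_nonneg_right (mul_le_mul_of_nonneg_right (hg x) (by positivity)) hS
    · simp only [(testSq_zero (hw0 x hx).1 (hw0 x hx).2).2, abs_zero]
      positivity
  have hmain : |tmean (gibbs J y) F (fun x => mainTerm β J y γ (spins x) K (w x))|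
      ≤ M * √(4 * Ab) * √(D + 1) * √S := by
    set X := fun x => |stabE β J y γ (spins x) K| + |stabEta β J y γ (spins x) K|
      + |sXi β J y γ K x| + |sR1 β J y γ K x|
    have hb' := hb m' n J y γ F ((le_max_left _ _).trans hm) H
    have hX2 : tmean (gibbs J y) F (fun x => (χ x * X x) ^ 2) ≤ 4 * Ab * ((D + 1) / n) := by
      have h : mass β J y γ K r F (fun x => X x ^ 2) ≤ 4 * (Ab * rate D n ^ 2) := by
        refine le_trans ?_ (mul_le_mul_of_nonneg_left hb' (by norm_num : (0 : ℝ) ≤ 4))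
        rw [← mass_const_mul]
        refine mass_mono H.Fpos fun x _ => ?_
        simp only [X]
        rw [← sq_abs (stabE β J y γ (spins x) K), ← sq_abs (stabEta β J y γ (spins x) K),
          ← sq_abs (sXi β J y γ K x), ← sq_abs (sR1 β J y γ K x)]
        linarith [sq_nonneg (|stabE β J y γ (spins x) K| - |stabEta β J y γ (spins x) K|),
          sq_nonneg (|stabE β J y γ (spins x) K| - |sXi β J y γ K x|),
          sq_nonneg (|stabE β J y γ (spins x) K| - |sR1 β J y γ K x|),
          sq_nonneg (|stabEta β J y γ (spins x) K| - |sXi β J y γ K x|),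
          sq_nonneg (|stabEta β J y γ (spins x) K| - |sR1 β J y γ K x|),
          sq_nonneg (|sXi β J y γ K x| - |sR1 β J y γ K x|)]
      rw [rate, Real.sq_sqrt (by positivity), ← mul_assoc] at h
      simpa only [mass, mul_pow] using h
    have hpt : ∀ x, |mainTerm β J y γ (spins x) K (w x)| ≤ M * √n * √S * (χ x * X x) := by
      intro x
      simp only [w, mainTerm_smul, abs_mul, abs_of_nonneg (cutoff_mem x).1, χ]
      by_cases hx : cutoff β J y γ K r x = 0
      · simp [hx]
      · have h := abs_mainTerm_le (hbox x hx) H.hβ H.op H.hΛ (abs_ampA_le β J y x (K + 2)) a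
        rw [Fintype.card_fin, ← hSdef, stabXi_split x] at h
        have hX : |stabE β J y γ (spins x) K| + |stabEta β J y γ (spins x) K|
            + |sXi β J y γ K x + sR1 β J y γ K x| ≤ X x := by
          simp only [X]
          linarith [abs_add_le (sXi β J y γ K x) (sR1 β J y γ K x)]
        refine (mul_le_mul_of_nonneg_left (h.trans (mul_le_mul_of_nonneg_right
          (mul_le_mul_of_nonneg_left hX hM) (by positivity))) (cutoff_mem x).1).trans (le_of_eq ?_)
        ring
    refine (abs_tmean_le hρ H.Fpos _).trans ((tmean_mono hρ H.Fpos hpt).trans ?_)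
    rw [tmean_const_mul]
    have h1 : tmean (gibbs J y) F (fun x => χ x * X x) ≤ √(4 * Ab) * (√(D + 1) / √n) := by
      rw [← Real.sqrt_div' _ hn0.le, ← Real.sqrt_mul (by positivity)]
      have h := tmean_sqrt_le hρ H.Fpos fun x => sq_nonneg (χ x * X x)
      simp only [Real.sqrt_sq_eq_abs] at h
      exact (tmean_mono hρ H.Fpos fun x => le_abs_self _).trans (h.trans (Real.sqrt_le_sqrt hX2))
    refine (mul_le_mul_of_nonneg_left h1 (by positivity)).trans (le_of_eq ?_)
    field_simp
  have e : (fun x => χ x * ∑ i, a i * gap β J y γ (spins x) (K + 2) i)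
      = fun x => (∑ i, w x i * gap β J y γ (spins x) (K + 2) i - tracePair (L x) w x
          - mainTerm β J y γ (spins x) K (w x))
        + (tracePair (L x) w x + mainTerm β J y γ (spins x) K (w x)) := by
    funext x
    simp only [w, mul_sum, mul_assoc]
    ring
  rw [e, tmean_add, tmean_add]
  refine (abs_add_le _ _).trans ((add_le_add hR ((abs_add_le _ _).trans
    (add_le_add htp hmain))).trans ?_)
  have hsD : 1 ≤ √(D + 1) := Real.one_le_sqrt.2 (by linarith)
  have := mul_le_mul_of_nonneg_left hsD (show 0 ≤ 3 * √(G * KA) * √S by positivity)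
  have : 0 ≤ 3 * √(G * KA) * √(D + 1) := by positivity
  have : 0 ≤ M * √(4 * Ab) * √(D + 1) := by positivity
  linarith

open scoped Classical in
/-- The deterministic core. -/
theorem stability_core {β : ℝ} (hβ : β ^ 2 < 1) (hrule : RuleStatement β)
    (hscal : ScalarStatement β) (η Λ : ℝ) (hη : 0 < η) (hΛ : 0 ≤ Λ) :
    ∃ κ > 0, ∃ ρ₀ > 0, ∀ ρ > 0, ρ ≤ ρ₀ → ∀ K : ℕ, ∃ m : ℕ, ∀ C, ∃ C1, ∃ N : ℕ,
      ∀ n ≥ N, ∀ (J : Fin n → Fin n → ℝ) (y γ : Fin n → ℝ) (F : (Fin n → Bool) → ℝ)
        (κ₀ gmax : ℝ), 0 ≤ κ₀ → 4 ≤ gmax → GoodWords β m C J → GoodResolvent β κ m C J →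
        Words.OpSq J Λ → (∀ x, 0 < F x) → TapEdge β κ₀ η gmax J y γ →
          ∑ i, (tmean (gibbs J y) F (fun x => spins x i) - tanh (γ i)) ^ 2
            ≤ C1 * (tdir (gibbs J y) F + 1)
              + C1 * n * tmean (gibbs J y) F
                  (fun x => if Near β J y (spins x) (tanhv γ) K ρ then (0 : ℝ) else 1) := by
  obtain ⟨κ, θ, r₀, hκ, -, hθ, -, hr₀, -, hbox⟩ := exists_boxed β η Λ hβ hη hΛ
  have ha0 : 0 ≤ bootA κ Λ := by unfold bootA; positivity
  have hb0 : 0 ≤ bootB κ θ Λ := by unfold bootB; positivity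
  have hR0 : 0 < bootR κ θ Λ := lt_min (by positivity) (by positivity)
  refine ⟨κ, hκ, min (min (r₀ / 4) (1 / 16)) (bootR κ θ Λ),
    lt_min (lt_min (by positivity) (by norm_num)) hR0, fun ρ hρ hρ₀ K => ?_⟩
  obtain ⟨mi, hmi⟩ := exists_increments hrule K
  obtain ⟨mc, hmc⟩ := exists_cut_part hrule hscal hβ.le K
  refine ⟨max (max mi mc) (2 * K + 6), fun C => ?_⟩
  set r := ρ ^ 2 with hrdef
  have hr : 0 < r := by positivity
  have hrρ : r ≤ ρ := by
    have : ρ ≤ 1 := hρ₀.trans ((min_le_left _ _).trans ((min_le_right _ _).trans (by norm_num)))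
    rw [hrdef, sq]; exact mul_le_of_le_one_left hρ.le this
  have hr4 : 4 * r ≤ r₀ ∧ 4 * r ≤ 1 / 4 := by
    have h1 := (hρ₀.trans (min_le_left _ _)).trans (min_le_left _ _)
    have h2 := (hρ₀.trans (min_le_left _ _)).trans (min_le_right _ _)
    constructor <;> linarith
  obtain ⟨R, -, hR⟩ := exists_regular β C K
  obtain ⟨Ai, hAi, hi⟩ := hmi C
  obtain ⟨Ac, hAc, hc⟩ := hmc C κ θ Λ R r hκ hθ hΛ (hrρ.trans (hρ₀.trans (min_le_right _ _)))
  set A := Ai + Ac
  refine ⟨2 * A ^ 2 + 2 * A + 8, ⌈4 * (3 * (4 * R + 4 * R + 4 * (R * R))) / r ^ 2⌉₊ + 1,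
    fun n hn J y γ F κ₀ gmax hκ₀ hgmax hG hGR hop hF hT => ?_⟩
  have : Nonempty (Fin n) := Fin.pos_iff_nonempty.1 (by omega)
  have H : Setting β C κ θ Λ R r (max (max mi mc) (2 * K + 6)) K J y γ F :=
    { npos := by omega
      deg := le_max_right _ _
      hβ := hβ.le
      hθ := hθ
      hΛ := hΛ
      words := hG
      resolvent := hGR
      op := hop
      Fpos := hF
      tap := hT.1
      box := fun x hx => hbox (Fin n) J y γ (spins x) K κ₀ gmax hG.1 hop hκ₀ hgmax hT
        fun j h1 h2 => (hx j h1 h2).trans hr4.1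
      reg := fun x => hR (Fin n) _ J y γ x (le_max_right _ _) hG
      rpos := hr
      rle := hr4.2
      large := by
        have h1 := (Nat.le_ceil (4 * (3 * (4 * R + 4 * R + 4 * (R * R))) / r ^ 2)).trans
          (Nat.cast_le.2 (show _ ≤ n by omega))
        rwa [div_le_iff₀ (by positivity), mul_comm _ (r ^ 2)] at h1 }
  have hρg : ∀ x, 0 < gibbs J y x := fun x => gibbs_pos x
  set D := tdir (gibbs J y) F
  have hD : 0 ≤ D := tdir_nonneg hG.1 hG.2.1 hF
  set P := tmean (gibbs J y) F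
    (fun x => if Near β J y (spins x) (tanhv γ) K ρ then (0 : ℝ) else 1)
  set v := fun i => tmean (gibbs J y) F (fun x => spins x i) - tanh (γ i) with hv
  set S := ∑ i, v i ^ 2 with hS
  show S ≤ _
  have hS0 : 0 ≤ S := sum_nonneg fun i _ => sq_nonneg _
  have hn0 : (0 : ℝ) < n := by exact_mod_cast H.npos
  have h1 := hi n J y F v ⟨hG.1, hG.2.1, hG.2.2.1, fun d l hl =>
    hG.2.2.2 d l (hl.trans ((le_max_left _ _).trans (le_max_left _ _)))⟩ hF
  have h2 := hc _ n J y γ F v ((le_max_right _ _).trans (le_max_left _ _)) H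
  have hfar : |tmean (gibbs J y) F (fun x => (1 - cutoff β J y γ K r x)
      * ∑ i, v i * gap β J y γ (spins x) (K + 2) i)| ≤ 2 * √n * √S * P := by
    refine (abs_tmean_le hρg hF _).trans ((tmean_mono hρg hF fun x => ?_).trans_eq
      (tmean_const_mul _ _))
    rw [abs_mul, abs_of_nonneg (sub_nonneg.2 (cutoff_mem x).2), mul_comm _ (ite _ _ _)]
    refine mul_le_mul ?_ ?_ (abs_nonneg _) (by split_ifs <;> norm_num)
    · split_ifs with hN
      · rw [hrdef, cutoff_eq_one hρ hN, sub_self]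
      · linarith [(cutoff_mem (β := β) (J := J) (y := y) (γ := γ) (K := K) (r := r) x).1]
    · refine (Real.le_sqrt_of_sq_le ?_).trans
        (le_of_eq (show √(4 * n * S) = 2 * √n * √S by
          rw [Real.sqrt_mul (by positivity), Real.sqrt_mul (by norm_num),
            show √4 = 2 from (Real.sqrt_eq_iff_mul_self_eq (by norm_num) (by norm_num)).2 (by norm_num)]))
      rw [sq_abs]
      refine (sum_mul_sq_le_sq_mul_sq _ _ _).trans ?_
      rw [← hS, mul_comm _ S]
      refine mul_le_mul_of_nonneg_left ?_ hS0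
      exact (sum_le_sum fun i _ => sq_abs_le (abs_gap_le β J y γ x (K + 2) i)).trans
        (le_of_eq (by simp; ring))
  have e : S = tmean (gibbs J y) F
      (fun x => ∑ i, v i * (spins x i - ampA β J y (spins x) (K + 2) i))
      + (tmean (gibbs J y) F (fun x => cutoff β J y γ K r x
          * ∑ i, v i * gap β J y γ (spins x) (K + 2) i)
        + tmean (gibbs J y) F (fun x => (1 - cutoff β J y γ K r x)
          * ∑ i, v i * gap β J y γ (spins x) (K + 2) i)) := by
    rw [← tmean_add, ← tmean_add]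
    have e1 : ∀ x : Fin n → Bool, ∑ i, v i * (spins x i - ampA β J y (spins x) (K + 2) i)
        + (cutoff β J y γ K r x * ∑ i, v i * gap β J y γ (spins x) (K + 2) i
          + (1 - cutoff β J y γ K r x) * ∑ i, v i * gap β J y γ (spins x) (K + 2) i)
        = ∑ i, (v i * spins x i - v i * tanh (γ i)) := fun x => by
      rw [← add_mul, add_sub_cancel, one_mul, ← sum_add_distrib]
      exact sum_congr rfl fun i _ => by simp only [gap]; ring
    simp only [e1, sum_sub_distrib, tmean_sub, tmean_const hρg hF]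
    have e2 : tmean (gibbs J y) F (fun x => ∑ i, v i * spins x i)
        = ∑ i, v i * tmean (gibbs J y) F (fun x => spins x i) := by
      simp only [tmean, mean, mul_sum, mul_div_assoc', ← sum_div]
      rw [sum_comm]
      exact congrArg (· / _) (sum_congr rfl fun i _ => sum_congr rfl fun x _ => by ring)
    rw [e2, ← sum_sub_distrib, hS]
    exact sum_congr rfl fun i _ => by simp only [hv]; ring
  set B := A * √(D + 1) with hB
  have hB0 : 0 ≤ B := by positivity
  set q := √S
  have hq : q ^ 2 = S := Real.sq_sqrt hS0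
  have hmain : S ≤ B * (q + 1) + 2 * √n * q * P := by
    rw [e]
    refine (add_le_add (le_abs_self _) (add_le_add ((le_abs_self _).trans h2)
      ((le_abs_self _).trans hfar))).trans ?_
    rw [hB]
    simp only [A]
    linarith
  have hP0 : 0 ≤ P := tmean_nonneg hρg hF fun x => by split_ifs <;> norm_num
  have hP1 : P ≤ 1 := (tmean_mono hρg hF fun x => by split_ifs <;> norm_num).trans_eq
    (tmean_const hρg hF 1)
  have hD1 : √(D + 1) ≤ D + 1 := by
    rw [Real.sqrt_le_left (by linarith)]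
    exact le_self_pow₀ (by linarith) two_ne_zero
  have hB2 : B ^ 2 = A ^ 2 * (D + 1) := by rw [hB, mul_pow, Real.sq_sqrt (by linarith)]
  have hB1 : B ≤ A * (D + 1) := mul_le_mul_of_nonneg_left hD1 (by positivity)
  have hE2 : (2 * √n * P) ^ 2 ≤ 4 * (n * P) := by
    rw [mul_pow, mul_pow, Real.sq_sqrt hn0.le]
    have := mul_le_mul_of_nonneg_left (mul_le_of_le_one_left hP0 hP1) hn0.le
    linarith
  have h7 : S ≤ 2 * B ^ 2 + 2 * (2 * √n * P) ^ 2 + 2 * B := by
    nlinarith [sq_nonneg (q - (B + 2 * √n * P)), sq_nonneg (B - 2 * √n * P)]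
  have : 0 ≤ (n : ℝ) * P := mul_nonneg hn0.le hP0
  have : 0 ≤ (A ^ 2 + A) * ((n : ℝ) * P) := mul_nonneg (by positivity) this
  linarith

end Vale.Agent.P150.Beta1.Stability
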