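import Vale.Agent.P150.Beta1.Stability.Regular

/-!
# The test field of the rule

For a test field `w` put `q = S w`. The rule applies to `(J - B) q` and `-B q`; the trace it
produces is `tr (A' S ∇w)` plus the diagonal of `P A' S` weighted by the Stein weight, up to errors
of the order of the test norm.
-/

namespace Vale.Agent.P150.Beta1.Stability

open Finset Function Real Matrix
open Vale.Agent.P150.Beta1.Algebra Vale.Agent.P150.Beta1.Rule

variable {ι : Type*} [Fintype ι] [DecidableEq ι]

/-- `q = S w` as an observable. -/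
noncomputable def qObs (β : ℝ) (J : ι → ι → ℝ) (y γ : ι → ℝ) (K : ℕ)
    (w : (ι → Bool) → ι → ℝ) : (ι → Bool) → ι → ℝ :=
  fun z => resQ β J y γ (spins z) K (w z)

/-- The test field against `ampD (K+1)`. -/
noncomputable def psiOne (β : ℝ) (J : ι → ι → ℝ) (y γ : ι → ℝ) (K : ℕ)
    (w : (ι → Bool) → ι → ℝ) : (ι → Bool) → ι → ℝ :=
  fun z i => act J (qObs β J y γ K w z) i
    + -onsager β (ampA β J y (spins z) (K + 1)) * qObs β J y γ K w z i

/-- The test field against `ampD K`. -/
noncomputable def psiZero (β : ℝ) (J : ι → ι → ℝ) (y γ : ι → ℝ) (K : ℕ)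
    (w : (ι → Bool) → ι → ℝ) : (ι → Bool) → ι → ℝ :=
  fun z i => -onsager β (ampA β J y (spins z) (K + 1)) * qObs β J y γ K w z i

/-- A configuration and its neighbours are close to the TAP point. -/
def Inner (β : ℝ) (J : ι → ι → ℝ) (y γ : ι → ℝ) (K : ℕ) (r : ℝ) (x : ι → Bool) : Prop :=
  Close β J y γ (spins x) K r ∧ ∀ j, Close β J y γ (spins (flip j x)) K r

variable {β κ θ R : ℝ} {J : ι → ι → ℝ} {y γ : ι → ℝ} {K : ℕ}

/-- The operator bound of `1 + (J - B) S`. -/
lemma Boxed.shift_act [Nonempty ι] {C : ℝ} {m : ℕ} {x : ι → Bool} (hG : GoodWords β m C J)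
    (hβ : β ^ 2 ≤ 1) (hB : Boxed β J y γ (spins x) K κ θ) :
    Act ((1 + (√(max C 1) + 1) * (2 / κ)) ^ 2)
      (1 + shiftMat (-onsager β (tanhv γ)) J * stabS β J y γ (spins x) K) := by
  obtain ⟨b0, b1⟩ := onsager_tanhv_mem β γ
  have hJ : RN.OpLe √(max C 1) (Matrix.of J) := opLe_of_act (zero_le_one.trans (le_max_right _ _))
    fun a => (hG.2.2.1 a).trans (mul_le_mul_of_nonneg_right (le_max_left _ _)
      (sum_nonneg fun _ _ => sq_nonneg _))
  refine act_of_opLe ((hB.adm.one_add_shift_res_opLe hJ zero_le_two hB.gle).mono ?_)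
  have := hB.adm.hκ
  gcongr
  rw [abs_neg, abs_of_nonneg b0]
  exact b1.trans hβ

lemma Boxed.res_act {x : ι → Bool} (hB : Boxed β J y γ (spins x) K κ θ) :
    Act ((2 / κ) ^ 2) (stabS β J y γ (spins x) K) :=
  act_of_opLe (hB.adm.res_opLe zero_le_two hB.gle)

omit [DecidableEq ι] in
lemma act_transpose {L : ℝ} {X : Matrix ι ι ℝ} (h : Act L X) : Act L Xᵀ :=
  ⟨h.2, by rw [transpose_transpose]; exact h.1⟩

lemma one_add_transpose {x : ι → Bool} (hB : Boxed β J y γ (spins x) K κ θ) :
    (1 + shiftMat (-onsager β (tanhv γ)) J * stabS β J y γ (spins x) K)ᵀ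
      = 1 + stabS β J y γ (spins x) K * shiftMat (-onsager β (tanhv γ)) J := by
  rw [transpose_add, transpose_one, transpose_mul, stabS, hB.adm.res_transpose,
    shiftMat_transpose hB.adm.symm]

lemma resP_eq (x w : ι → ℝ) : resP β J y γ x K w
    = (1 + shiftMat (-onsager β (tanhv γ)) J * stabS β J y γ x K) *ᵥ w := by
  rw [resP, resQ, Matrix.add_mulVec, Matrix.one_mulVec, Matrix.mulVec_mulVec]

omit [Fintype ι] in
lemma eq_add_of_flip (j : ι) (f : (ι → Bool) → ℝ) (x : ι → Bool) :
    f (flip j x) = f x + -2 * spin (x j) * deriv2 j f x := by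
  rw [← flip_sub]
  ring

omit [Fintype ι] in
lemma deriv2_flip (j : ι) (f : (ι → Bool) → ℝ) (x : ι → Bool) :
    deriv2 j f x = -(spin (x j) / 2) * (f (flip j x) - f x) := deriv2_eq_flip j f x

/-- The change of `q` along a flip, expanded at either end. -/
lemma jac_q_cols {x : ι → Bool} (w : (ι → Bool) → ι → ℝ)
    (hB : Boxed β J y γ (spins x) K κ θ) (hBf : ∀ j, Boxed β J y γ (spins (flip j x)) K κ θ) :
    (jac (qObs β J y γ K w) x = stabS β J y γ (spins x) K * jac w x
      + (1 + stabS β J y γ (spins x) K * shiftMat (-onsager β (tanhv γ)) J)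
        * Matrix.of fun i j => jac (fun z => stabG β J y γ (spins z) K) x i j
            * resP β J y γ (spins (flip j x)) K (w (flip j x)) i) ∧
    ∀ i j, jac (qObs β J y γ K w) x i j
      = (stabS β J y γ (spins (flip j x)) K *ᵥ fun l => jac w x l j) i
        + ((1 + stabS β J y γ (spins (flip j x)) K * shiftMat (-onsager β (tanhv γ)) J)
            *ᵥ fun l => jac (fun z => stabG β J y γ (spins z) K) x l j
              * resP β J y γ (spins x) K (w x) l) i := by
  set A := shiftMat (-onsager β (tanhv γ)) J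
  set jg := jac (fun z => stabG β J y γ (spins z) K) x
  set jw := jac w x
  have hD : ∀ j, diagonal (stabG β J y γ (spins (flip j x)) K) - diagonal (stabG β J y γ (spins x) K)
      = diagonal fun i => -2 * spin (x j) * jg i j := fun j =>
    flip_diag_sub (fun z => stabG β J y γ (spins z) K) j x
  have hw : ∀ j, w (flip j x) - w x = fun i => -2 * spin (x j) * jw i j := fun j => by
    funext i
    exact flip_sub j (fun z => w z i) x
  have hsub : ∀ j, stabS β J y γ (spins (flip j x)) K - stabS β J y γ (spins x) K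
      = (1 + stabS β J y γ (spins x) K * A) * diagonal (fun i => -2 * spin (x j) * jg i j)
        * (1 + A * stabS β J y γ (spins (flip j x)) K) ∧
      stabS β J y γ (spins (flip j x)) K - stabS β J y γ (spins x) K
      = (1 + stabS β J y γ (spins (flip j x)) K * A) * diagonal (fun i => -2 * spin (x j) * jg i j)
        * (1 + A * stabS β J y γ (spins x) K) := fun j => by
    constructor
    · rw [← hD j]
      show res _ J _ - res _ J _ = _
      rw [res_sub hB.adm (hBf j).adm, sub_self, Matrix.mul_zero, Matrix.zero_mul, add_zero]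
      rfl
    · rw [← neg_sub, ← hD j, ← neg_sub (diagonal (stabG β J y γ (spins x) K))]
      show -(res _ J _ - res _ J _) = _
      rw [res_sub (hBf j).adm hB.adm, sub_self, Matrix.mul_zero, Matrix.zero_mul, add_zero,
        Matrix.mul_neg, Matrix.neg_mul]
      rfl
  have hs : ∀ j, spin (x j) * spin (x j) = 1 := fun j => by
    rcases spin_cases (x j) with h | h <;> rw [h] <;> norm_num
  have hq : ∀ i j, jac (qObs β J y γ K w) x i j
      = -(spin (x j) / 2) * ((stabS β J y γ (spins (flip j x)) K *ᵥ w (flip j x)) i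
          - (stabS β J y γ (spins x) K *ᵥ w x) i) := fun i j =>
    deriv2_flip j (fun z => qObs β J y γ K w z i) x
  have hscale : ∀ (M : Matrix ι ι ℝ) (u : ι → ℝ) (c : ℝ) (i : ι),
      (M *ᵥ fun l => c * u l) i = c * (M *ᵥ u) i := fun M u c i => by
    simp only [mulVec, dotProduct, mul_sum]
    exact sum_congr rfl fun l _ => by ring
  have hdiag : ∀ (j : ι) (u : ι → ℝ), (diagonal fun i => -2 * spin (x j) * jg i j) *ᵥ u
      = fun l => -2 * spin (x j) * (jg l j * u l) := fun j u => by
    funext l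
    rw [mulVec_diagonal]
    ring
  refine ⟨?_, fun i j => ?_⟩
  · ext i j
    rw [hq]
    have e : stabS β J y γ (spins (flip j x)) K *ᵥ w (flip j x) - stabS β J y γ (spins x) K *ᵥ w x
        = stabS β J y γ (spins x) K *ᵥ (w (flip j x) - w x)
          + (stabS β J y γ (spins (flip j x)) K - stabS β J y γ (spins x) K) *ᵥ w (flip j x) := by
      rw [mulVec_sub, sub_mulVec]; abel
    have e' := congrFun e i
    rw [Pi.sub_apply, Pi.add_apply, hw, (hsub j).1, ← mulVec_mulVec, ← mulVec_mulVec, ← resP_eq,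
      hdiag, hscale, hscale] at e'
    rw [e', Matrix.add_apply, mul_apply', mul_apply']
    simp only [mulVec, dotProduct, Matrix.of_apply]
    linear_combination (∑ l, stabS β J y γ (spins x) K i l * jw l j
      + ∑ l, (1 + stabS β J y γ (spins x) K * A) i l
        * (jg l j * resP β J y γ (spins (flip j x)) K (w (flip j x)) l)) * hs j
  · rw [hq]
    have e : stabS β J y γ (spins (flip j x)) K *ᵥ w (flip j x) - stabS β J y γ (spins x) K *ᵥ w x
        = stabS β J y γ (spins (flip j x)) K *ᵥ (w (flip j x) - w x)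
          + (stabS β J y γ (spins (flip j x)) K - stabS β J y γ (spins x) K) *ᵥ w x := by
      rw [mulVec_sub, sub_mulVec]; abel
    have e' := congrFun e i
    rw [Pi.sub_apply, Pi.add_apply, hw, (hsub j).2, ← mulVec_mulVec, ← mulVec_mulVec, ← resP_eq,
      hdiag, hscale, hscale] at e'
    rw [e']
    linear_combination ((stabS β J y γ (spins (flip j x)) K *ᵥ fun l => jw l j) i
      + ((1 + stabS β J y γ (spins (flip j x)) K * A)
        *ᵥ fun l => jg l j * resP β J y γ (spins x) K (w x) l) i) * hs j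

/-- Sizes of `q` and `p` and of their gradients. -/
lemma q_bounds [Nonempty ι] {C : ℝ} {m : ℕ} {x : ι → Bool} (w : (ι → Bool) → ι → ℝ)
    (hG : GoodWords β m C J) (hβ : β ^ 2 ≤ 1) (hR : Regular β J y γ x K R)
    (hB : Boxed β J y γ (spins x) K κ θ) (hBf : ∀ j, Boxed β J y γ (spins (flip j x)) K κ θ) :
    testSq (qObs β J y γ K w) x
      ≤ 2 * ((2 / κ) ^ 2 + ((1 + (√(max C 1) + 1) * (2 / κ)) ^ 2) ^ 2 * R) * testSq w x ∧
    ∑ i, resP β J y γ (spins x) K (w x) i ^ 2
      ≤ (1 + (√(max C 1) + 1) * (2 / κ)) ^ 2 * ∑ i, w x i ^ 2 := by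
  set W := (1 + (√(max C 1) + 1) * (2 / κ)) ^ 2 with hW
  set σ := (2 / κ) ^ 2
  set p := resP β J y γ (spins x) K (w x)
  have hW0 : 0 ≤ W := sq_nonneg _
  have hp : ∑ i, p i ^ 2 ≤ W * ∑ i, w x i ^ 2 := by
    simp only [p, resP_eq]
    exact (hB.shift_act hG hβ).1 _
  refine ⟨?_, hp⟩
  set jg := jac (fun z => stabG β J y γ (spins z) K) x
  have hq0 : ∑ i, qObs β J y γ K w x i ^ 2 ≤ σ * ∑ i, w x i ^ 2 := hB.res_act.1 _
  have hcol : ∀ j, ∑ i, jac (qObs β J y γ K w) x i j ^ 2
      ≤ 2 * (σ * ∑ l, jac w x l j ^ 2 + W * ∑ l, (jg l j * p l) ^ 2) := fun j => by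
    simp only [(jac_q_cols w hB hBf).2]
    refine (sum_le_sum fun i _ => add_sq_le).trans ?_
    rw [← mul_sum, sum_add_distrib]
    have h1 := (hBf j).res_act.1 fun l => jac w x l j
    have h2 := (act_transpose ((hBf j).shift_act hG hβ)).1 fun l => jg l j * p l
    rw [one_add_transpose (hBf j)] at h2
    linarith
  have hgp : ∑ j, ∑ l, (jg l j * p l) ^ 2 ≤ R * ∑ l, p l ^ 2 := by
    rw [sum_comm, mul_sum]
    refine sum_le_sum fun l _ => ?_
    simp only [mul_pow, ← sum_mul]
    exact mul_le_mul_of_nonneg_right (hR.actG.row_le l) (sq_nonneg _)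
  have hR0 : 0 ≤ R := act_nonneg hR.actG
  have hf : frob (jac (qObs β J y γ K w) x)
      ≤ 2 * (σ * frob (jac w x) + W * (R * (W * ∑ i, w x i ^ 2))) := by
    rw [frob, sum_comm]
    refine (sum_le_sum fun j _ => hcol j).trans ?_
    rw [← mul_sum, sum_add_distrib, ← mul_sum, ← mul_sum, frob, sum_comm (γ := ι)]
    gcongr
    exact hgp.trans (mul_le_mul_of_nonneg_left hp hR0)
  rw [testSq_eq, testSq_eq]
  have : 0 ≤ σ * frob (jac w x) := mul_nonneg (sq_nonneg _) (frob_nonneg _)
  have : 0 ≤ W ^ 2 * R * frob (jac w x) := by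
    have := frob_nonneg (jac w x)
    positivity
  have : 0 ≤ σ * ∑ i, w x i ^ 2 := mul_nonneg (sq_nonneg _) (sum_nonneg fun _ _ => sq_nonneg _)
  linarith

/-- Hadamard product of `A' S` with a chain word. -/
lemma had_res_le {C : ℝ} {m : ℕ} {x : ι → Bool} [Nonempty ι] (hG : GoodWords β m C J)
    (hGR : GoodResolvent β κ m C J) (hm : 2 * K + 6 ≤ m) (hR : Regular β J y γ x K R)
    (hB : Boxed β J y γ (spins x) K κ θ) {S : ℝ}
    (hA : (stabA β J y (spins x) K).size ≤ S) (hP : (gradE β J y (spins x) (K + 1)).size ≤ S) :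
    ∑ i, ∑ j, ((stabA β J y (spins x) K).mat J * stabS β J y γ (spins x) K) j i ^ 2
        * (gradE β J y (spins x) (K + 1)).mat J i j ^ 2
      ≤ (2 * C + C ^ 2) * S ^ 4 + R * (2 / κ) ^ 2 * (C * S ^ 2) := by
  set A := (stabA β J y (spins x) K).mat J * stabS β J y γ (spins x) K
  set P := gradE β J y (spins x) (K + 1)
  have hC := goodWords_nonneg hG
  have hd : P.deg ≤ m := (deg_gradE β J y (spins x) (K + 1)).trans (by omega)
  have hAact : Act (R * (2 / κ) ^ 2) A := act_mul hR.actA hB.res_act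
  have hkey : ∀ i j, A j i ^ 2 * P.mat J i j ^ 2 ≤ (if i = j then 0 else A j i ^ 4)
      + P.mat J i j ^ 4 + (if i = j then R * (2 / κ) ^ 2 * P.mat J i j ^ 2 else 0) := by
    intro i j
    split_ifs with hij
    · have := mul_le_mul_of_nonneg_right (hAact.entry_le j i) (sq_nonneg (P.mat J i j))
      have : 0 ≤ P.mat J i j ^ 4 := by positivity
      linarith
    · nlinarith [sq_nonneg (A j i ^ 2 - P.mat J i j ^ 2), sq_nonneg (A j i ^ 2),
        sq_nonneg (P.mat J i j ^ 2)]
  refine (sum_le_sum fun i _ => sum_le_sum fun j _ => hkey i j).trans ?_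
  simp only [sum_add_distrib, sum_ite_eq, mem_univ, if_true]
  have h4 : ∀ X : Expr ι, X.size ≤ S → X.size ^ 4 ≤ S ^ 4 := fun X hX =>
    pow_le_pow_left₀ X.size_nonneg hX 4
  have ha : ∑ i, ∑ j, (if i = j then 0 else A j i ^ 4) ≤ C * S ^ 4 := by
    rw [sum_comm]
    refine le_trans (le_of_eq (sum_congr rfl fun j _ => sum_congr rfl fun i _ => ?_))
      ((resolvent_offdiag_le β J hGR hB.shift (fun l => (hB.gpos l).le) hB.gκ hB.edge hB.adm.op hC
        (stabA β J y (spins x) K) ((deg_stabA β J y (spins x) K).trans (by omega))).trans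
        (mul_le_mul_of_nonneg_left (h4 _ hA) hC))
    simp only [eq_comm (a := i)]
    rfl
  have h0 : ∀ i, P.free β i = 0 := free_chain β _
  have hp := (expr_quart hG P hd h0).trans (mul_le_mul_of_nonneg_left (h4 P hP) (by positivity))
  have hpd : ∑ i, R * (2 / κ) ^ 2 * P.mat J i i ^ 2 ≤ R * (2 / κ) ^ 2 * (C * S ^ 2) := by
    rw [← mul_sum]
    refine mul_le_mul_of_nonneg_left ?_ (act_nonneg hAact)
    have := P.diag_le hG hd
    simp only [h0, sub_zero] at this
    exact this.trans (mul_le_mul_of_nonneg_left (pow_le_pow_left₀ P.size_nonneg hP 2) hC)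
  simp only [quart] at hp
  linarith

end Vale.Agent.P150.Beta1.Stability

namespace Vale.Agent.P150.Beta1.Stability

open Finset Function Real Matrix
open Vale.Agent.P150.Beta1.Algebra Vale.Agent.P150.Beta1.Rule

variable {ι : Type*} [Fintype ι] [DecidableEq ι] {β κ θ R : ℝ} {J : ι → ι → ℝ} {y γ : ι → ℝ}
  {K : ℕ}

/-- The trace against `A'`. -/
lemma trace_q_bound [Nonempty ι] {C : ℝ} {m : ℕ} {x : ι → Bool} (w : (ι → Bool) → ι → ℝ)
    (hG : GoodWords β m C J) (hGR : GoodResolvent β κ m C J) (hm : 2 * K + 6 ≤ m)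
    (hβ : β ^ 2 ≤ 1) (hR : Regular β J y γ x K R) (hB : Boxed β J y γ (spins x) K κ θ)
    (hBf : ∀ j, Boxed β J y γ (spins (flip j x)) K κ θ) {S W Cq : ℝ} (hS : stabSize β K ≤ S)
    (hW : W = (1 + (√(max C 1) + 1) * (2 / κ)) ^ 2)
    (hCq : Cq = 2 * ((2 / κ) ^ 2 + W ^ 2 * R)) :
    |tracePair ((stabA β J y (spins x) K).mat J) (qObs β J y γ K w) x
        - (tracePair ((stabA β J y (spins x) K).mat J * stabS β J y γ (spins x) K) w x
          + ∑ i, stabH β J y γ (spins x) K i * resP β J y γ (spins x) K (w x) i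
              * (β ^ 2 * stabScalar β J y γ (spins x) K * stabFree β J y γ (spins x) K i))|
      ≤ (2 * √(C * S ^ 4) * √W + √(R * W * R) * √W
          + 2 * √(2 * (4 * ((2 * C + C ^ 2) * S ^ 4 + R * (2 / κ) ^ 2 * (C * S ^ 2))) + 2 * (R * W * R))
            * √(2 * 1 + 2 * (max C 1 + 1) * 2 * Cq)) * √(testSq w x) := by
  set A' := (stabA β J y (spins x) K).mat J with hA'
  set Sx := stabS β J y γ (spins x) K
  set A := shiftMat (-onsager β (tanhv γ)) J
  set g := stabG β J y γ (spins x) K
  set h := stabH β J y γ (spins x) K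
  set p := resP β J y γ (spins x) K (w x)
  set P := (gradE β J y (spins x) (K + 1)).mat J
  set jg := jac (fun z => stabG β J y γ (spins z) K) x
  set E1 := jg - diagonal (fun i => h i * g i) * P
  have hC := goodWords_nonneg hG
  have hR0 : 0 ≤ R := act_nonneg hR.actG
  have hW0 : 0 ≤ W := hW ▸ sq_nonneg _
  set X := 1 + Sx * A with hX
  have hXact : Act W X := by
    rw [hW, hX, ← one_add_transpose hB]
    exact act_transpose (hB.shift_act hG hβ)
  set B := A' * X
  have hBact : Act (R * W) B := act_mul hR.actA hXact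
  set p' := fun j => resP β J y γ (spins (flip j x)) K (w (flip j x))
  set jp := jac (fun z => resP β J y γ (spins z) K (w z)) x
  -- the exact decomposition
  have hXg : ∀ i l, X i l * g l = Sx i l := fun i l => by
    have h1 := hB.adm.res_eq'
    have h2 : X * diagonal g = Sx := by
      rw [hX, Matrix.add_mul, Matrix.one_mul]
      exact h1.symm
    rw [← h2, mul_diagonal]
  have hp' : ∀ i j, p' j i = p i + -2 * spin (x j) * jp i j := fun i j =>
    eq_add_of_flip j (fun z => resP β J y γ (spins z) K (w z) i) x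
  have hg' : ∀ l i, (A' * Sx) l i = B l i * g i := fun l i => by
    simp only [B, Matrix.mul_apply, sum_mul]
    exact sum_congr rfl fun k _ => by rw [mul_assoc, hXg]
  have eB : ∑ i, ((Matrix.of fun i j => jg i j * p' j i) * B) i i
      = ∑ i, h i * p i * (P * (A' * Sx)) i i + ∑ i, p i * (E1 * B) i i
        + ∑ i, ∑ j, B j i * jg i j * (-2 * spin (x j) * jp i j) := by
    rw [← sum_add_distrib, ← sum_add_distrib]
    refine sum_congr rfl fun i _ => ?_
    rw [Matrix.mul_apply (M := P), Matrix.mul_apply (M := E1), Matrix.mul_apply (N := B)]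
    simp only [mul_sum, ← sum_add_distrib, Matrix.of_apply]
    refine sum_congr rfl fun l _ => ?_
    have e1 : jg i l = E1 i l + h i * g i * P i l := by
      simp only [E1, Matrix.sub_apply, diagonal_mul]
      ring
    rw [hp', hg']
    linear_combination p i * B l i * e1
  have hmain : tracePair A' (qObs β J y γ K w) x = tracePair (A' * Sx) w x
      + ∑ i, h i * p i * (P * (A' * Sx)) i i
      + ∑ i, p i * (E1 * B) i i
      + ∑ i, ∑ j, B j i * jg i j * (-2 * spin (x j) * jp i j) := by
    rw [tracePair_eq_trace, tracePair_eq_trace, (jac_q_cols w hB hBf).1, Matrix.add_mul]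
    simp only [Matrix.add_apply, sum_add_distrib]
    rw [add_assoc (∑ i, (jac w x * (A' * Sx)) i i), add_assoc (∑ i, (jac w x * (A' * Sx)) i i), ← eB]
    congr 1
    · rw [trace_comm, ← Matrix.mul_assoc, trace_comm]
    · rw [trace_comm, ← Matrix.mul_assoc, trace_comm]
  -- the three errors
  have hp2 : √(∑ i, p i ^ 2) ≤ √W * √(testSq w x) := by
    rw [← Real.sqrt_mul hW0]
    refine Real.sqrt_le_sqrt ((q_bounds w hG hβ hR hB hBf).2.trans (le_of_eq_of_le (by rw [hW])
      (mul_le_mul_of_nonneg_left ?_ hW0)))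
    exact le_add_of_nonneg_right (sum_nonneg fun _ _ => sum_nonneg fun _ _ => sq_nonneg _)
  have hh : ∀ i, |h i| ≤ 2 := fun i => abs_steinH_le _ _ _
  have d1 : |∑ i, h i * p i * (P * (A' * Sx)) i i
      - ∑ i, h i * p i * (β ^ 2 * stabScalar β J y γ (spins x) K * stabFree β J y γ (spins x) K i)|
      ≤ 2 * √(C * S ^ 4) * (√W * √(testSq w x)) := by
    obtain ⟨s1, s2, -⟩ := size_stab β J y x K
    rw [← sum_sub_distrib]
    simp only [← mul_sub]
    refine (abs_sum_le_sqrt (A := C * S ^ 4) ?_).trans ?_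
    · have hd := resolvent_diag_le β J hGR hB.shift (fun l => (hB.gpos l).le) hB.gκ hB.edge
        hB.adm.op hC (Expr.mul (gradE β J y (spins x) (K + 1)) (stabA β J y (spins x) K))
        (by
          have := deg_stabA β J y (spins x) K
          have : (gradE β J y (spins x) (K + 1)).deg ≤ K + 2 := deg_gradE β J y (spins x) (K + 1)
          simp only [Expr.deg]
          omega)
      refine le_trans (le_of_eq (sum_congr rfl fun i _ => ?_)) (hd.trans
        (mul_le_mul_of_nonneg_left ?_ hC))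
      · rw [show freeG (β ^ 2) (-onsager β (tanhv γ)) (stabG β J y γ (spins x) K)
          = stabFree β J y γ (spins x) K from rfl, resFree_grad_stabA]
        simp only [Expr.mat, Matrix.mul_assoc]
        rfl
      · rw [show S ^ 4 = (S * S) ^ 2 by ring]
        refine pow_le_pow_left₀ (Expr.size_nonneg _) ?_ 2
        simp only [Expr.size]
        exact mul_le_mul (s2.trans hS) (s1.trans hS) (Expr.size_nonneg _)
          ((Expr.size_nonneg _).trans (s2.trans hS))
    · rw [mul_comm 2, mul_assoc]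
      refine mul_le_mul_of_nonneg_left ?_ (Real.sqrt_nonneg _)
      have e : √(∑ i, (h i * p i) ^ 2) ≤ 2 * √(∑ i, p i ^ 2) := by
        rw [show (2 : ℝ) = √4 by rw [show (4:ℝ) = 2 ^ 2 by norm_num, Real.sqrt_sq zero_le_two],
          ← Real.sqrt_mul (by norm_num : (0:ℝ) ≤ 4), mul_sum]
        refine Real.sqrt_le_sqrt (sum_le_sum fun i _ => ?_)
        rw [mul_pow]
        exact mul_le_mul_of_nonneg_right ((sq_abs_le (hh i)).trans (by norm_num)) (sq_nonneg _)
      exact e.trans (mul_le_mul_of_nonneg_left hp2 zero_le_two)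
  have d2 : |∑ i, p i * (E1 * B) i i| ≤ √(R * W * R) * (√W * √(testSq w x)) :=
    (abs_sum_le_sqrt ((diag_mul_sq_le hBact E1).trans
      (mul_le_mul_of_nonneg_left hR.gradG (mul_nonneg hR0 hW0)))).trans
      (mul_le_mul_of_nonneg_left hp2 (Real.sqrt_nonneg _))
  have hco : ∑ i, ∑ j, (B j i * jg i j) ^ 2
      ≤ 2 * (4 * ((2 * C + C ^ 2) * S ^ 4 + R * (2 / κ) ^ 2 * (C * S ^ 2))) + 2 * (R * W * R) := by
    obtain ⟨s1, s2, -⟩ := size_stab β J y x K
    have hh2 := had_res_le hG hGR hm hR hB (s1.trans hS) (s2.trans hS)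
    have hpt : ∀ i j, (B j i * jg i j) ^ 2 ≤ 2 * (4 * ((A' * Sx) j i ^ 2 * P i j ^ 2))
        + 2 * (R * W * E1 i j ^ 2) := fun i j => by
      have e : (A' * Sx) j i = B j i * g i := by
        simp only [B, Matrix.mul_apply, sum_mul]
        exact sum_congr rfl fun k _ => by rw [mul_assoc, hXg]
      have e1 : B j i * jg i j = h i * ((A' * Sx) j i * P i j) + B j i * E1 i j := by
        rw [e]
        simp only [E1, Matrix.sub_apply, diagonal_mul]
        ring
      rw [e1]
      refine (add_sq_le).trans ?_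
      rw [mul_add]
      gcongr ?_ + ?_
      · rw [mul_pow, mul_pow]
        exact mul_le_mul_of_nonneg_left (mul_le_mul_of_nonneg_right
          ((sq_abs_le (hh i)).trans (by norm_num)) (by positivity)) zero_le_two
      · rw [mul_pow]
        exact mul_le_mul_of_nonneg_left (mul_le_mul_of_nonneg_right (hBact.entry_le j i)
          (sq_nonneg _)) zero_le_two
    refine (sum_le_sum fun i _ => sum_le_sum fun j _ => hpt i j).trans ?_
    simp only [sum_add_distrib, ← mul_sum]
    have := mul_le_mul_of_nonneg_left hR.gradG (mul_nonneg hR0 hW0)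
    simp only [frob] at this
    linarith
  have hjp : frob jp ≤ (2 * 1 + 2 * (max C 1 + 1) * 2 * Cq) * testSq w x := by
    have e : jp = jac w x + A * jac (qObs β J y γ K w) x := by
      ext i j
      simp only [jp, Matrix.add_apply, Matrix.mul_apply, jac, Matrix.of_apply, deriv2, resP, qObs,
        Pi.add_apply, mulVec, dotProduct, ← mul_div_assoc, ← sum_div, mul_sub, sum_sub_distrib]
      ring
    have hAact : Act (2 * (max C 1 + 1)) A := by
      have h1 := expr_act hG (Expr.coup) (d := 1) (S := 1) le_rfl le_rfl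
      simp only [Expr.mat, pow_one, one_pow, mul_one] at h1
      have h2 : Act 1 ((-onsager β (tanhv γ)) • (1 : Matrix ι ι ℝ)) := by
        obtain ⟨b0, b1⟩ := onsager_tanhv_mem β γ
        simpa using act_of_opLe (RN.OpLe.smul_one (ι := ι) (a := -onsager β (tanhv γ)) (r := 1)
          (by rw [abs_neg, abs_of_nonneg b0]; linarith))
      exact h1.add h2
    rw [e]
    refine (Rule.frob_add_le _ _).trans ?_
    have hq := (q_bounds w hG hβ hR hB hBf).1
    rw [← hW, ← hCq] at hq
    have h1 : frob (jac (qObs β J y γ K w) x) ≤ Cq * testSq w x :=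
      (le_add_of_nonneg_left (sum_nonneg fun _ _ => sq_nonneg _)).trans hq
    have h2 : frob (jac w x) ≤ testSq w x :=
      le_add_of_nonneg_left (sum_nonneg fun _ _ => sq_nonneg _)
    have h3 := (hAact.frob_mul_le (jac (qObs β J y γ K w) x)).trans
      (mul_le_mul_of_nonneg_left h1 (act_nonneg hAact))
    linarith
  have d3 : |∑ i, ∑ j, B j i * jg i j * (-2 * spin (x j) * jp i j)|
      ≤ 2 * √(2 * (4 * ((2 * C + C ^ 2) * S ^ 4 + R * (2 / κ) ^ 2 * (C * S ^ 2))) + 2 * (R * W * R))
        * (√(2 * 1 + 2 * (max C 1 + 1) * 2 * Cq) * √(testSq w x)) := by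
    rw [← Fintype.sum_prod_type']
    refine (abs_sum_le_sqrt (A := 4 * frob jp) ?_).trans ?_
    · simp only [Fintype.sum_prod_type, frob, mul_sum]
      exact sum_le_sum fun i _ => sum_le_sum fun j _ => le_of_eq (sq_flip_weight x j _)
    · have h4 : √(4 * frob jp) ≤ 2 * (√(2 * 1 + 2 * (max C 1 + 1) * 2 * Cq) * √(testSq w x)) := by
        have hCq0 : 0 ≤ 2 * 1 + 2 * (max C 1 + 1) * 2 * Cq := by
          rw [hCq]
          positivity
        rw [Real.sqrt_mul (by norm_num : (0:ℝ) ≤ 4),
          show (4:ℝ) = 2 ^ 2 by norm_num, Real.sqrt_sq zero_le_two, ← Real.sqrt_mul hCq0]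
        exact mul_le_mul_of_nonneg_left (Real.sqrt_le_sqrt hjp) zero_le_two
      rw [mul_assoc (2 : ℝ), mul_left_comm (2 : ℝ), mul_comm (√(2 * (4 * _) + _))]
      refine mul_le_mul h4 (Real.sqrt_le_sqrt ?_) (Real.sqrt_nonneg _) (by positivity)
      rw [Fintype.sum_prod_type]
      exact hco
  rw [hmain]
  rw [abs_le] at d1 d2 d3 ⊢
  constructor <;> linarith

end Vale.Agent.P150.Beta1.Stability
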