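import Vale.Agent.P150.Beta1.Stability.Regular
import Vale.Agent.P150.Beta1.Stability.Residual

/-!
# The cutoff around the TAP point

A Lipschitz cutoff of the three squared distances, with gradient of order `n⁻¹ᐟ²`; for large `n` it
vanishes unless the configuration and its neighbours are close to the TAP point.
-/

namespace Vale.Agent.P150.Beta1.Stability

open Finset Function Real Matrix
open Vale.Agent.P150.Beta1.Algebra Vale.Agent.P150.Beta1.Rule

/-- The profile of the cutoff. -/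
noncomputable def bump (t : ℝ) : ℝ := max 0 (min 1 (2 - t))

lemma bump_mem (t : ℝ) : 0 ≤ bump t ∧ bump t ≤ 1 :=
  ⟨le_max_left _ _, max_le zero_le_one (min_le_left _ _)⟩

lemma bump_eq_one {t : ℝ} (h : t ≤ 1) : bump t = 1 := by
  rw [bump, min_eq_left (by linarith), max_eq_right zero_le_one]

lemma lt_two_of_bump_ne {t : ℝ} (h : bump t ≠ 0) : t < 2 := by
  by_contra ht
  exact h (max_eq_left ((min_le_right _ _).trans (by linarith)))

lemma abs_bump_sub_le (s t : ℝ) : |bump s - bump t| ≤ |s - t| := by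
  refine (abs_max_sub_max_le_max _ _ _ _).trans (max_le (by simp) ?_)
  refine (abs_min_sub_min_le_max _ _ _ _).trans (max_le (by simp) (le_of_eq ?_))
  rw [show 2 - s - (2 - t) = -(s - t) by ring, abs_neg]

variable {ι : Type*} [Fintype ι]

/-- The cutoff. -/
noncomputable def cutoff (β : ℝ) (J : ι → ι → ℝ) (y γ : ι → ℝ) (K : ℕ) (r : ℝ)
    (z : ι → Bool) : ℝ :=
  bump (qav (gap β J y γ (spins z) K) / r) * bump (qav (gap β J y γ (spins z) (K + 1)) / r)
    * bump (qav (gap β J y γ (spins z) (K + 2)) / r)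

variable {β R : ℝ} {J : ι → ι → ℝ} {y γ : ι → ℝ} {K : ℕ} {r : ℝ}

lemma cutoff_mem (z : ι → Bool) :
    0 ≤ cutoff β J y γ K r z ∧ cutoff β J y γ K r z ≤ 1 := by
  obtain ⟨a0, a1⟩ := bump_mem (qav (gap β J y γ (spins z) K) / r)
  obtain ⟨b0, b1⟩ := bump_mem (qav (gap β J y γ (spins z) (K + 1)) / r)
  obtain ⟨c0, c1⟩ := bump_mem (qav (gap β J y γ (spins z) (K + 2)) / r)
  exact ⟨mul_nonneg (mul_nonneg a0 b0) c0,
    mul_le_one₀ (mul_le_one₀ a1 b0 b1) c0 c1⟩

lemma close_of_cutoff {z : ι → Bool} (hr : 0 < r) (h : cutoff β J y γ K r z ≠ 0) :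
    Close β J y γ (spins z) K (2 * r) := by
  intro j h1 h2
  simp only [cutoff, mul_ne_zero_iff] at h
  have key : ∀ {a : ℝ}, bump (a / r) ≠ 0 → a ≤ 2 * r := fun {a} ha =>
    ((div_lt_iff₀ hr).1 (lt_two_of_bump_ne ha)).le
  rcases (show j = K ∨ j = K + 1 ∨ j = K + 2 by omega) with rfl | rfl | rfl
  · exact key h.1.1
  · exact key h.1.2
  · exact key h.2

lemma cutoff_eq_one [Nonempty ι] {z : ι → Bool} {ρ : ℝ} (hρ : 0 < ρ)
    (h : Near β J y (spins z) (tanhv γ) K ρ) : cutoff β J y γ K (ρ ^ 2) z = 1 := by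
  have key : ∀ j, K ≤ j → j ≤ K + 2 → bump (qav (gap β J y γ (spins z) j) / ρ ^ 2) = 1 := by
    intro j h1 h2
    refine bump_eq_one ((div_le_one (by positivity)).2 ?_)
    rw [qav, avg, div_le_iff₀ (by exact_mod_cast Fintype.card_pos)]
    exact h j h1 h2
  simp only [cutoff, key K le_rfl (by omega), key (K + 1) (by omega) (by omega),
    key (K + 2) (by omega) le_rfl, mul_one]

variable [DecidableEq ι]

lemma scGrad_lip (φ : ℝ → ℝ) {L : ℝ} (hφ : ∀ s t, |φ s - φ t| ≤ L * |s - t|)
    (s : (ι → Bool) → ℝ) (x : ι → Bool) :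
    scGrad (fun z => φ (s z)) x ≤ L ^ 2 * scGrad s x := by
  simp only [scGrad]
  rw [← mul_assoc, mul_comm (L ^ 2), mul_assoc]
  refine mul_le_mul_of_nonneg_left ?_ (Nat.cast_nonneg _)
  rw [mul_sum]
  refine sum_le_sum fun j _ => ?_
  have h := hφ (s (update x j true)) (s (update x j false))
  simp only [deriv2, div_pow, ← mul_div_assoc]
  refine div_le_div_of_nonneg_right ?_ (by norm_num)
  rw [← sq_abs, ← sq_abs (s _ - s _), ← mul_pow]
  exact pow_le_pow_left₀ (abs_nonneg _) h 2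

/-- The gradient of the squared distances. -/
lemma scGrad_qav_gap [Nonempty ι] {x : ι → Bool} (hR : Regular β J y γ x K R) {j : ℕ}
    (hj : j ≤ K + 2) :
    scGrad (fun z => qav (gap β J y γ (spins z) j)) x ≤ 3 * (4 * R + 4 * R + 4 * (R * R)) :=
  scGrad_qav _ x (abs_gap_le β J y γ x j) (hR.gap j hj)

lemma scGrad_cutoff [Nonempty ι] {x : ι → Bool} (hR : Regular β J y γ x K R) :
    scGrad (cutoff β J y γ K r) x
      ≤ 10 * ((1 / r) ^ 2 * (3 * (4 * R + 4 * R + 4 * (R * R)))) := by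
  set G := (1 / r) ^ 2 * (3 * (4 * R + 4 * R + 4 * (R * R)))
  set b := fun j z => bump (qav (gap β J y γ (spins z) j) / r)
  have hb : ∀ j, j ≤ K + 2 → scGrad (b j) x ≤ G := fun j hj => by
    refine (scGrad_lip (fun t => bump (t / r)) (L := |1 / r|) (fun s t => ?_) _ x).trans ?_
    · refine (abs_bump_sub_le _ _).trans (le_of_eq ?_)
      rw [← abs_mul]
      congr 1
      ring
    · rw [sq_abs]
      exact mul_le_mul_of_nonneg_left (scGrad_qav_gap hR hj) (sq_nonneg _)
  have hb1 : ∀ j z, |b j z| ≤ 1 := fun j z =>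
    abs_le.2 ⟨by linarith [(bump_mem (qav (gap β J y γ (spins z) j) / r)).1], (bump_mem _).2⟩
  have h2 : scGrad (fun z => b K z * b (K + 1) z) x ≤ 4 * G := by
    refine (scGrad_mul (b K) (b (K + 1)) x (hb1 K) (hb1 (K + 1))).trans ?_
    linarith [hb K (by omega), hb (K + 1) (by omega)]
  refine (scGrad_mul (fun z => b K z * b (K + 1) z) (b (K + 2)) x (A := 1) (B := 1) (fun z => ?_)
    (hb1 (K + 2))).trans ?_
  · rw [abs_mul]
    exact mul_le_one₀ (hb1 K z) (abs_nonneg _) (hb1 (K + 1) z)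
  · linarith [hb (K + 2) le_rfl]

omit [Fintype ι] in
lemma flip_flip (j : ι) (x : ι → Bool) : flip j (flip j x) = x := by
  simp [flip, update_idem, update_eq_self]

/-- Off the inner configurations the cutoff and its neighbouring values vanish. -/
lemma cutoff_support [Nonempty ι] (hr : 0 < r) (hR : ∀ x, Regular β J y γ x K R)
    (hn : 4 * (3 * (4 * R + 4 * R + 4 * (R * R))) ≤ r ^ 2 * Fintype.card ι) (x : ι → Bool)
    (hx : ¬Inner β J y γ K (4 * r) x) :
    cutoff β J y γ K r x = 0 ∧ ∀ j, cutoff β J y γ K r (flip j x) = 0 := by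
  have hn0 : (0 : ℝ) < Fintype.card ι := by exact_mod_cast Fintype.card_pos
  have step : ∀ z l j, j ≤ K + 2 →
      qav (gap β J y γ (spins (flip l z)) j) ≤ qav (gap β J y γ (spins z) j) + r := by
    intro z l j hj
    set d := deriv2 l (fun z => qav (gap β J y γ (spins z) j)) z
    have h1 : (Fintype.card ι : ℝ) * d ^ 2 ≤ 3 * (4 * R + 4 * R + 4 * (R * R)) :=
      (mul_le_mul_of_nonneg_left (single_le_sum (f := fun l => deriv2 l _ z ^ 2)
        (fun _ _ => sq_nonneg _) (mem_univ l)) hn0.le).trans (scGrad_qav_gap (hR z) hj)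
    have h2 : |2 * d| ≤ r := by
      refine abs_le_of_sq_le_sq ?_ hr.le
      refine le_of_mul_le_mul_right ?_ hn0
      linarith
    rw [eq_add_of_flip l (fun z => qav (gap β J y γ (spins z) j)) z]
    rcases spin_cases (z l) with h | h <;> rw [h] <;> linarith [abs_le.1 h2]
  have hclose : ∀ {z s}, Close β J y γ (spins z) K s → ∀ l,
      Close β J y γ (spins (flip l z)) K (s + r) := fun {z s} hz l j h1 h2 =>
    (step z l j h2).trans (by linarith [hz j h1 h2])
  have hmono : ∀ {z s}, Close β J y γ (spins z) K s → s ≤ 4 * r →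
      Close β J y γ (spins z) K (4 * r) := fun {z s} hz hs j h1 h2 => (hz j h1 h2).trans hs
  refine ⟨?_, fun j => ?_⟩
  · by_contra h
    have h2 := close_of_cutoff hr h
    exact hx ⟨hmono h2 (by linarith), fun l => hmono (hclose h2 l) (by linarith)⟩
  · by_contra h
    have h3 := hclose (close_of_cutoff hr h) j
    rw [flip_flip] at h3
    exact hx ⟨hmono h3 (by linarith), fun l => hmono (hclose h3 l) (by linarith)⟩

end Vale.Agent.P150.Beta1.Stability
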