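import Vale.Agent.P150.Beta1.Algebra.Amp
import Vale.Agent.P150.Beta1.Resolvent.Defs

/-!
# Free values of expressions followed by a resolvent

In the Fock model the resolvent with free diagonal `G` is the geometric state
`s ↦ ∏ G`. Its pairing with the chain words gives the identities of the stability argument.
-/

namespace Vale.Agent.P150.Beta1.Stability

open Finset Real
open Vale.Agent.P150.Beta1.Algebra

variable {ι : Type*}

/-- The geometric state. -/
def geo (G : ι → ℝ) : State ι := fun s => if s = [] then 0 else (s.map G).prod

/-- Multiplication below the bottom site by `G`. -/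
def below (G : ι → ℝ) : State ι →ₗ[ℝ] State ι where
  toFun v s :=
    match s with
    | [] => 0
    | [_] => 0
    | i :: j :: t => v ((i :: j :: t).dropLast) * G ((i :: j :: t).getLast (List.cons_ne_nil _ _))
  map_add' v w := by
    funext s
    rcases s with _ | ⟨i, _ | ⟨j, t⟩⟩ <;> simp [add_mul]
  map_smul' c v := by
    funext s
    rcases s with _ | ⟨i, _ | ⟨j, t⟩⟩ <;> simp [mul_assoc]

lemma below_nil (G : ι → ℝ) (v : State ι) : below G v [] = 0 := rfl

lemma below_single (G : ι → ℝ) (v : State ι) (i : ι) : below G v [i] = 0 := rfl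

lemma below_snoc (G : ι → ℝ) (v : State ι) (i j : ι) (t : List ι) :
    below G v (i :: t ++ [j]) = v (i :: t) * G j := by
  cases t with
  | nil => rfl
  | cons a t =>
    show v ((i :: a :: t ++ [j]).dropLast) * G ((i :: a :: t ++ [j]).getLast _) = _
    rw [List.dropLast_concat]
    simp

lemma topMul_below (e G : ι → ℝ) (v : State ι) :
    topMul e (below G v) = below G (topMul e v) := by
  funext s
  rcases s with _ | ⟨i, _ | ⟨j, t⟩⟩
  · rfl
  · simp [below]
  · simp [below, mul_assoc]

lemma push_below (G : ι → ℝ) (v : State ι) : push (below G v) = below G (push v) := by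
  funext s
  rcases s with _ | ⟨i, _ | ⟨j, _ | ⟨k, t⟩⟩⟩ <;> simp [below]

lemma geo_eq (G : ι → ℝ) : geo G = topMul G vac + below G (geo G) := by
  funext s
  rcases s with _ | ⟨i, t⟩
  · simp [geo, below_nil]
  rcases List.eq_nil_or_concat t with rfl | ⟨t, j, rfl⟩
  · simp [geo, below_single, vac]
  · rw [List.concat_eq_append, Pi.add_apply, ← List.cons_append, below_snoc, List.cons_append,
      topMul_cons]
    simp [geo, vac, mul_assoc]

variable [Fintype ι]

/-- The commutator of annihilation with `below`. -/
lemma ann_below (β : ℝ) (G : ι → ℝ) (v : State ι) :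
    ann β (below G v)
      = below G (ann β v) + (β ^ 2 * avg fun l => v [l]) • topMul G vac := by
  funext s
  rcases s with _ | ⟨i, _ | ⟨j, t⟩⟩
  · simp [below]
  · simp [below, vac, avg_mul_const, mul_assoc]
  · simp [below, vac, avg_mul_const, mul_assoc]

lemma ann_vac_diag (β : ℝ) (e : ι → ℝ) : ann β (topMul e (vac : State ι)) = 0 :=
  ann_eq_zero (low_vac.topMul e)

/-- An expression acts on the geometric state as on its bottom, up to fewer levels. -/
lemma Low.op_below (β : ℝ) (G : ι → ℝ) : ∀ (X : Expr ι) (v : State ι),
    ∃ r : State ι, Low (X.deg - 1) r ∧ (X.deg = 0 → r = 0) ∧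
      X.op β (below G v) = below G (X.op β v) + r
  | .coup, v => by
    refine ⟨(β ^ 2 * avg fun l => v [l]) • topMul G vac, fun s hs => ?_,
      fun h => absurd h one_ne_zero, ?_⟩
    · simp [(low_vac.topMul G) s (by simpa [Expr.deg] using hs)]
    · simp only [Expr.op, opJ_apply, push_below, ann_below, map_add]
      abel
  | .diag e, v => ⟨0, fun _ _ => rfl, fun _ => rfl, by simp [Expr.op, topMul_below]⟩
  | .add X Y, v => by
    obtain ⟨r, hr, hr0, he⟩ := Low.op_below β G X v
    obtain ⟨q, hq, hq0, hf⟩ := Low.op_below β G Y v
    refine ⟨r + q, fun s hs => ?_, fun h => ?_, ?_⟩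
    · simp only [Expr.deg] at hs
      simp [hr s (by omega), hq s (by omega)]
    · simp only [Expr.deg, Nat.max_eq_zero_iff] at h
      simp [hr0 h.1, hq0 h.2]
    · simp only [Expr.op, LinearMap.add_apply, he, hf, map_add]
      abel
  | .mul X Y, v => by
    obtain ⟨q, hq, hq0, hf⟩ := Low.op_below β G Y v
    obtain ⟨r, hr, hr0, he⟩ := Low.op_below β G X (Y.op β v)
    refine ⟨r + X.op β q, fun s hs => ?_, fun h => ?_, ?_⟩
    · simp only [Expr.deg] at hs
      rcases Nat.eq_zero_or_pos Y.deg with h0 | h0
      · simp [hr s (by omega), hq0 h0]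
      · simp [hr s (by omega), hq.op X s (by omega)]
    · simp only [Expr.deg, Nat.add_eq_zero_iff] at h
      simp [hr0 h.1, hq0 h.2]
    · simp only [Expr.op, LinearMap.comp_apply, hf, map_add, he]
      abel

/-- Free diagonal of an expression followed by the resolvent. -/
noncomputable def resFree (β : ℝ) (G : ι → ℝ) (X : Expr ι) (i : ι) : ℝ := X.op β (geo G) [i]

/-- A word on the geometric state, split at the creation of its bottom level. -/
lemma wordOp_geo_bottom (β : ℝ) (G : ι → ℝ) :
    ∀ (r : List (ι → ℝ)) (d : ι → ℝ) (i0 : ι) (s : List ι) (i : ι),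
    wordOp β d r (geo G) (i0 :: s ++ [i]) = (∑ j ∈ range r.length,
      wordOp β d (r.take j) vac (i0 :: s) * wordOp β (r.getD j 0) (r.drop (j + 1)) (geo G) [i])
      + wordOp β d r (geo G) (i0 :: s) * G i
  | [], d, i0, s, i => by
    simp [wordOp, geo, mul_assoc]
  | e :: r, d, i0, s, i => by
    have ih := wordOp_geo_bottom β G r e
    rw [List.length_cons, sum_range_succ']
    simp only [List.take_succ_cons, List.take_zero, List.getD_cons_succ, List.getD_cons_zero,
      List.drop_succ_cons, List.drop_zero]
    have hl : wordOp β d (e :: r) (geo G) (i0 :: s ++ [i])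
        = d i0 * (wordOp β e r (geo G) (s ++ [i])
          + β ^ 2 * avg fun l => wordOp β e r (geo G) (l :: i0 :: s ++ [i])) := by
      cases s <;> simp [wordOp, opJ_apply]
    have hann : (avg fun l => wordOp β e r (geo G) (l :: i0 :: s ++ [i]))
        = (∑ j ∈ range r.length, (avg fun l => wordOp β e (r.take j) vac (l :: i0 :: s))
            * wordOp β (r.getD j 0) (r.drop (j + 1)) (geo G) [i])
          + (avg fun l => wordOp β e r (geo G) (l :: i0 :: s)) * G i := by
      simp only [ih, avg, sum_add_distrib, add_div, sum_div, sum_mul]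
      congr 1
      · rw [sum_comm]
        exact sum_congr rfl fun j _ => sum_congr rfl fun l _ => by ring
      · exact sum_congr rfl fun l _ => by ring
    rw [hl, hann]
    cases s with
    | nil =>
      simp [wordOp, vac, opJ_apply, mul_sum, mul_add, mul_assoc]
      ring
    | cons i1 s' =>
      rw [ih i1 s' i]
      simp [wordOp, vac, opJ_apply, mul_sum, add_mul, mul_add, sum_add_distrib, mul_assoc]
      ring

/-- The free value of the resolvent module is the level-zero part of the geometric state. -/
theorem resVal_eq_wordOp (β : ℝ) (G : ι → ℝ) : ∀ (fuel : ℕ) (d : ι → ℝ) (l : List (ι → ℝ)) (i : ι),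
    l.length ≤ fuel → resVal β G fuel d l i = wordOp β d l (geo G) [i]
  | 0, d, [], i, _ => by simp [resVal, wordOp, geo]
  | fuel + 1, d, [], i, _ => by simp [resVal, wordOp, geo]
  | 0, d, e :: r, i, h => by simp at h
  | fuel + 1, d, e :: r, i, h => by
    simp only [List.length_cons, add_le_add_iff_right] at h
    have hsplit : ∀ l : ι, wordOp β e r (geo G) [l, i] = (∑ j ∈ range r.length,
        wordFree β e (r.take j) l * wordOp β (r.getD j 0) (r.drop (j + 1)) (geo G) [i])
        + wordOp β e r (geo G) [l] * G i :=
      fun l => wordOp_geo_bottom β G r e l [] i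
    have hrhs : wordOp β d (e :: r) (geo G) [i]
        = d i * (β ^ 2 * avg fun l => wordOp β e r (geo G) [l, i]) := by
      simp [wordOp, opJ_apply]
    rw [hrhs, resVal]
    simp only [hsplit]
    congr 1
    conv_rhs => rw [avg, sum_add_distrib, add_div, mul_add]
    congr 1
    · simp only [avg, mul_sum, sum_div, sum_mul]
      conv_rhs => rw [sum_comm]
      refine sum_congr rfl fun j hj => ?_
      have hj' := mem_range.1 hj
      rw [freeVal_eq_wordFree β fuel e (r.take j) (by simp; omega),
        resVal_eq_wordOp β G fuel (r.getD j 0) (r.drop (j + 1)) i (by simp; omega)]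
      exact sum_congr rfl fun l _ => by ring
    · rw [← sum_mul, show resVal β G fuel e r = fun l => wordOp β e r (geo G) [l] from
        funext fun l => resVal_eq_wordOp β G fuel e r l h, avg]
      ring

/-- Full annihilation commutes with `below`, up to one rank. -/
lemma annC_below (β : ℝ) (G : ι → ℝ) : ∀ (u : ι → ℝ) (l : List (ι → ℝ)) (v : State ι),
    annC β (u :: l) (below G v) = below G (annC β (u :: l) v)
      + (β ^ 2 * avg fun i => u i * annC β l v [i]) • topMul G vac
  | u, [], v => by
    simp only [annC, LinearMap.comp_apply, ann_below, map_add, map_smul, topMul_below,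
      topMul_topMul, ann_vac_diag, smul_zero, add_zero, topMul_cons]
  | u, w :: l, v => by
    have ih := annC_below β G w l v
    rw [annC, LinearMap.comp_apply, LinearMap.comp_apply, ih]
    simp only [map_add, map_smul, topMul_below, topMul_topMul, ann_vac_diag, smul_zero, add_zero,
      ann_below, topMul_cons]
    rfl

/-- The scalar carried from the resolvent through a chain into an expression. -/
noncomputable def carry (β : ℝ) (G : ι → ℝ) (u : ι → ℝ) (l : List (ι → ℝ)) (X : Expr ι) : ℝ :=
  avg fun i => u i * resFree β G (.mul (chain β l) X) i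

lemma resFree_chain (β : ℝ) (G : ι → ℝ) (l : List (ι → ℝ)) (X : Expr ι) (i : ι) :
    resFree β G (.mul (chain β l) X) i = annC β l (X.op β (geo G)) [i] := by
  simp only [resFree, Expr.op, LinearMap.comp_apply, chain_op]
  cases l with
  | nil => simp [chainF, annC, opJ_apply]
  | cons u l => simp [chainF]

/-- A chain into an expression of matching degree, on the geometric state. -/
lemma annC_geo (β : ℝ) (G : ι → ℝ) (u : ι → ℝ) (l : List (ι → ℝ)) (X : Expr ι)
    (hX : X.deg ≤ l.length + 2) :
    annC β (u :: l) (X.op β (geo G)) = annC β (u :: l) (X.op β (topMul G vac))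
      + below G (annC β (u :: l) (X.op β (geo G)))
      + (β ^ 2 * carry β G u l X) • topMul G vac := by
  obtain ⟨r, hr, -, he⟩ := Low.op_below β G X (geo G)
  have h0 : annC β (u :: l) r = 0 :=
    annC_eq_zero _ (hr.mono (by simp only [List.length_cons]; omega))
  conv_lhs => rw [geo_eq, map_add, he, map_add, map_add, h0, add_zero, annC_below]
  simp only [carry, resFree_chain]
  abel

/-- The pairing of a chain with an expression of matching degree. -/
theorem resFree_chain_top (β : ℝ) (G : ι → ℝ) (u : ι → ℝ) (l : List (ι → ℝ)) (X : Expr ι)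
    (hX : X.deg ≤ l.length + 2) (i : ι) :
    resFree β G (.mul (chain β (u :: l)) X) i
      = (Expr.mul (chain β (u :: l)) (.mul X (.diag G))).free β i
        + β ^ 2 * carry β G u l X * G i := by
  rw [resFree_chain, annC_geo β G u l X hX, free_chain_mul]
  simp [Expr.op, below_single, vac]

/-- The first coupling in front of a chain: it meets the first letter of the chain or goes through. -/
theorem resFree_coup_chain (β : ℝ) (G U : ι → ℝ) (u : ι → ℝ) (l : List (ι → ℝ)) (X : Expr ι)
    (hX : X.deg ≤ l.length + 2) :
    avg (resFree β G (.mul .coup (.mul (.diag U) (.mul (chain β (u :: l)) X))))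
      = β ^ 2 * avg U * carry β G u l X
        + β ^ 2 * (avg G * avg fun i => U i * resFree β G (.mul (chain β (u :: l)) X) i) := by
  have hlow : Low 0 (annC β (u :: l) (X.op β (topMul G vac))) :=
    Algebra.Low.annC _ ((((low_vac.topMul G).op X)).mono (by simp only [List.length_cons]; omega))
  have hpt : ∀ a i, chainF β (u :: l) (X.op β (geo G)) [a, i]
      = u i * resFree β G (.mul (chain β l) X) i
        + resFree β G (.mul (chain β (u :: l)) X) a * G i := by
    intro a i
    have h2 : annC β (u :: l) (X.op β (geo G)) [a, i]
        = resFree β G (.mul (chain β (u :: l)) X) a * G i := by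
      rw [resFree_chain, annC_geo β G u l X hX]
      simp only [Pi.add_apply, Pi.smul_apply, below_single, add_zero, hlow [a, i] (by simp)]
      rw [show ([a, i] : List ι) = a :: [] ++ [i] from rfl, below_snoc]
      conv_lhs => rw [annC_geo β G u l X hX]
      simp [below_single, vac]
    rw [chainF, LinearMap.add_apply, Pi.add_apply, h2]
    simp [resFree, Expr.op, chain_op]
  have hi : ∀ i, resFree β G (.mul .coup (.mul (.diag U) (.mul (chain β (u :: l)) X))) i
      = β ^ 2 * (avg U * (u i * resFree β G (.mul (chain β l) X) i)
        + (avg fun a => U a * resFree β G (.mul (chain β (u :: l)) X) a) * G i) := by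
    intro i
    simp only [resFree, Expr.op, LinearMap.comp_apply, opJ_apply, Pi.add_apply, push_single,
      zero_add, ann_cons, topMul_cons, chain_op]
    congr 1
    simp only [hpt]
    simp only [resFree, Expr.op, LinearMap.comp_apply, chain_op, avg, mul_add, sum_add_distrib,
      add_div, ← mul_assoc, ← sum_mul]
    ring
  rw [show resFree β G (.mul .coup (.mul (.diag U) (.mul (chain β (u :: l)) X))) = _ from funext hi]
  simp only [carry, avg, mul_add, sum_add_distrib, add_div, ← mul_sum]
  ring

/-- Without a resolvent: the first coupling meets the first letter of the chain. -/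
theorem free_coup_chain (β : ℝ) (U : ι → ℝ) (u : ι → ℝ) (l : List (ι → ℝ)) (X : Expr ι)
    (hX : X.deg ≤ l.length + 1) :
    avg ((Expr.mul .coup (.mul (.diag U) (.mul (chain β (u :: l)) X))).free β)
      = β ^ 2 * avg U * avg fun i => u i * (Expr.mul (chain β l) X).free β i := by
  have h0 : annC β (u :: l) (X.op β vac) = 0 :=
    annC_eq_zero _ ((low_vac.op X).mono (by simp only [List.length_cons]; omega))
  have hi : ∀ i, (Expr.mul .coup (.mul (.diag U) (.mul (chain β (u :: l)) X))).free β i
      = β ^ 2 * avg U * (u i * (Expr.mul (chain β l) X).free β i) := by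
    intro i
    simp only [Expr.free, Expr.op, LinearMap.comp_apply, opJ_apply, Pi.add_apply, push_single,
      zero_add, ann_cons, topMul_cons, chain_op, chainF, LinearMap.add_apply, push_cons_cons, h0,
      add_zero, avg_mul_const]
    ring
  rw [show (Expr.mul .coup (.mul (.diag U) (.mul (chain β (u :: l)) X))).free β = _ from funext hi]
  simp only [avg, ← mul_sum]
  ring

end Vale.Agent.P150.Beta1.Stability
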