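import Vale.Agent.P150.Beta1.Rule.Fields
import Vale.Agent.P150.Beta1.Resolvent.Api

/-!
# Gradients of scalars built from traces and scalar products

`MLip K M x`: the matrix observable `M` acts boundedly at `x`, its increments along flips are bounded
in Frobenius norm, and their traces against a bounded matrix are of order one in `ℓ²` over the
flips. The class is closed under sums, products and resolvents, so normalised traces have gradient
`O(n⁻¹ᐟ²)`.
-/

namespace Vale.Agent.P150.Beta1.Stability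

open Finset Function Real Matrix
open Vale.Agent.P150.Beta1.Algebra Vale.Agent.P150.Beta1.Rule

variable {ι : Type*} [Fintype ι]

lemma frob_mul_le_frob (A B : Matrix ι ι ℝ) : frob (A * B) ≤ frob A * frob B := by
  calc frob (A * B) ≤ ∑ i, ∑ j, (∑ l, A i l ^ 2) * ∑ l, B l j ^ 2 :=
        sum_le_sum fun i _ => sum_le_sum fun j _ => sum_mul_sq_le_sq_mul_sq _ _ _
    _ = frob A * frob B := by
        simp only [frob, ← mul_sum, ← sum_mul]
        rw [sum_comm (f := fun j l => B l j ^ 2)]

lemma trace_mul_sq_le (A B : Matrix ι ι ℝ) : trace (A * B) ^ 2 ≤ frob A * frob B := by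
  have h := sum_mul_sq_le_sq_mul_sq (univ : Finset (ι × ι)) (fun p => A p.1 p.2) (fun p => B p.2 p.1)
  simp only [Fintype.sum_prod_type] at h
  rw [sum_comm (f := fun i j => B j i ^ 2)] at h
  exact h

lemma trace_eq_avg [Nonempty ι] (M : Matrix ι ι ℝ) :
    trace M / Fintype.card ι = avg fun i => M i i := rfl

variable [DecidableEq ι] {K L : ℝ}

lemma act_nonneg [Nonempty ι] {X : Matrix ι ι ℝ} (h : Act K X) : 0 ≤ K :=
  (sum_nonneg fun _ _ => sq_nonneg _).trans (h.row_le (Classical.arbitrary ι))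

lemma act_mul [Nonempty ι] {X Y : Matrix ι ι ℝ} (hX : Act K X) (hY : Act L Y) :
    Act (K * L) (X * Y) := by
  refine ⟨fun a => ?_, fun a => ?_⟩
  · rw [← Matrix.mulVec_mulVec, mul_assoc]
    exact (hX.1 _).trans (mul_le_mul_of_nonneg_left (hY.1 a) (act_nonneg hX))
  · rw [Matrix.transpose_mul, ← Matrix.mulVec_mulVec, mul_comm K, mul_assoc]
    exact (hY.2 _).trans (mul_le_mul_of_nonneg_left (hX.2 a) (act_nonneg hY))

omit [DecidableEq ι] in
lemma act_mono {X : Matrix ι ι ℝ} (h : Act K X) (hKL : K ≤ L) : Act L X :=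
  ⟨fun a => (h.1 a).trans (mul_le_mul_of_nonneg_right hKL (sum_nonneg fun _ _ => sq_nonneg _)),
    fun a => (h.2 a).trans (mul_le_mul_of_nonneg_right hKL (sum_nonneg fun _ _ => sq_nonneg _))⟩

omit [DecidableEq ι] in
lemma act_of_opLe {r : ℝ} {X : Matrix ι ι ℝ} (h : RN.OpLe r X) : Act (r ^ 2) X :=
  ⟨h.2, h.transpose.2⟩

lemma act_one : Act 1 (1 : Matrix ι ι ℝ) := by simpa using act_of_opLe (RN.OpLe.one (ι := ι))

lemma act_diagonal {e : ι → ℝ} {G : ℝ} (hG : 0 ≤ G) (he : ∀ i, |e i| ≤ G) :
    Act (G ^ 2) (diagonal e) :=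
  act_of_opLe (RN.OpLe.diag hG he)

lemma diag_sq_le {q : ℝ} {Q : Matrix ι ι ℝ} (h : Act q Q) :
    ∑ i, Q i i ^ 2 ≤ q * Fintype.card ι := by
  calc ∑ i, Q i i ^ 2 ≤ ∑ _i : ι, q := sum_le_sum fun i _ => h.entry_le i i
    _ = _ := by simp [mul_comm]

/-- The configuration with the spin at `j` flipped. -/
def flip (j : ι) (x : ι → Bool) : ι → Bool := update x j (!x j)

omit [Fintype ι] in
lemma flip_sub (j : ι) (f : (ι → Bool) → ℝ) (x : ι → Bool) :
    f (flip j x) - f x = -2 * spin (x j) * deriv2 j f x := sub_flip j f x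

/-! ### Scalars times fields -/

omit [Fintype ι] in
lemma jac_scalar_apply (s : (ι → Bool) → ℝ) (w : (ι → Bool) → ι → ℝ) (x : ι → Bool) (i j : ι) :
    jac (fun z i => s z * w z i) x i j = s x * jac w x i j
      + (deriv2 j s x * w x i - 2 * spin (x j) * deriv2 j s x * jac w x i j) := by
  have e1 := sub_flip j s x
  have e2 := sub_flip j (fun z => w z i) x
  have e3 := deriv2_eq_flip j (fun z => s z * w z i) x
  rw [eq_add_of_sub_eq e1, eq_add_of_sub_eq e2] at e3
  simp only [jac, Matrix.of_apply]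
  rw [e3]
  rcases spin_cases (x j) with h | h <;> rw [h] <;> ring

/-- The test norm of a product by a scalar. -/
lemma testSq_scalar_mul (s : (ι → Bool) → ℝ) (w : (ι → Bool) → ι → ℝ) (x : ι → Bool) :
    testSq (fun z i => s z * w z i) x
      ≤ (2 * s x ^ 2 + 20 * ∑ j, deriv2 j s x ^ 2) * testSq w x := by
  set D := ∑ j, deriv2 j s x ^ 2
  have hd : ∀ j, deriv2 j s x ^ 2 ≤ D := fun j =>
    single_le_sum (f := fun l => deriv2 l s x ^ 2) (fun _ _ => sq_nonneg _) (mem_univ j)
  have hD : 0 ≤ D := sum_nonneg fun _ _ => sq_nonneg _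
  have h : ∀ i j, jac (fun z i => s z * w z i) x i j ^ 2
      ≤ (2 * s x ^ 2 + 16 * D) * jac w x i j ^ 2 + 4 * (w x i ^ 2 * deriv2 j s x ^ 2) := by
    intro i j
    rw [jac_scalar_apply]
    set a := jac w x i j
    set d := deriv2 j s x
    have hs : spin (x j) ^ 2 = 1 := by
      rcases spin_cases (x j) with h | h <;> rw [h] <;> norm_num
    have h1 : (d * w x i - 2 * spin (x j) * d * a) ^ 2 ≤ 2 * (w x i ^ 2 * d ^ 2) + 8 * (D * a ^ 2) := by
      have := mul_le_mul_of_nonneg_right (hd j) (sq_nonneg a)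
      have e2 : (2 * spin (x j) * d * a) ^ 2 = 4 * (d ^ 2 * a ^ 2) := by
        linear_combination 4 * d ^ 2 * a ^ 2 * hs
      nlinarith [sq_nonneg (d * w x i + 2 * spin (x j) * d * a)]
    have h2 : (s x * a) ^ 2 = s x ^ 2 * a ^ 2 := mul_pow _ _ _
    have := add_sq_le (a := s x * a) (b := d * w x i - 2 * spin (x j) * d * a)
    linarith
  simp only [testSq_eq, frob, mul_pow, ← mul_sum]
  have hsum := sum_le_sum (s := (univ : Finset ι)) fun i _ =>
    sum_le_sum (s := (univ : Finset ι)) fun j _ => h i j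
  simp only [sum_add_distrib, ← mul_sum, ← sum_mul] at hsum
  have : 0 ≤ s x ^ 2 * ∑ i, w x i ^ 2 := mul_nonneg (sq_nonneg _) (sum_nonneg fun _ _ => sq_nonneg _)
  have : 0 ≤ D * ∑ i, ∑ j, jac w x i j ^ 2 :=
    mul_nonneg hD (sum_nonneg fun _ _ => sum_nonneg fun _ _ => sq_nonneg _)
  have : 0 ≤ D * ∑ i, w x i ^ 2 := mul_nonneg hD (sum_nonneg fun _ _ => sq_nonneg _)
  linarith

/-- Scalar product of two fields, per site. -/
lemma scGrad_dot [Nonempty ι] {W : ℝ} (a b : (ι → Bool) → ι → ℝ) (x : ι → Bool)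
    (ha : ∑ i, a x i ^ 2 ≤ W * Fintype.card ι) (hb : ∑ i, b x i ^ 2 ≤ W * Fintype.card ι)
    (hA : Act K (jac a x)) (hB : Act L (jac b x)) :
    scGrad (fun z => avg fun i => a z i * b z i) x ≤ 3 * (W * K + W * L + 4 * (K * L)) := by
  have hn : (0 : ℝ) < Fintype.card ι := by exact_mod_cast Fintype.card_pos
  have hK := act_nonneg hA
  have hL := act_nonneg hB
  set P := (jac a x)ᵀ *ᵥ b x
  set Q := (jac b x)ᵀ *ᵥ a x
  set R := fun j => ∑ i, jac a x i j * jac b x i j
  have e : ∀ j, deriv2 j (fun z => avg fun i => a z i * b z i) x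
      = (P j + Q j + (-2 * spin (x j)) * R j) / Fintype.card ι := by
    intro j
    simp only [P, Q, R, mulVec, dotProduct, transpose_apply, mul_sum, ← sum_add_distrib, avg,
      deriv2, ← sub_div, ← sum_sub_distrib]
    rw [div_right_comm, sum_div]
    congr 1
    refine sum_congr rfl fun i _ => ?_
    have e3 := deriv2_eq_flip j (fun z => a z i * b z i) x
    rw [eq_add_of_sub_eq (sub_flip j (fun z => a z i) x),
      eq_add_of_sub_eq (sub_flip j (fun z => b z i) x)] at e3
    simp only [jac, Matrix.of_apply]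
    rw [show (a (update x j true) i * b (update x j true) i - a (update x j false) i
      * b (update x j false) i) / 2 = deriv2 j (fun z => a z i * b z i) x from rfl, e3]
    rcases spin_cases (x j) with h | h <;> rw [h] <;> ring
  have hP := hA.2 (b x)
  have hQ := hB.2 (a x)
  have hR : ∀ j, R j ^ 2 ≤ K * L := fun j =>
    (sum_mul_sq_le_sq_mul_sq _ _ _).trans
      (mul_le_mul (hA.col_le j) (hB.col_le j) (sum_nonneg fun _ _ => sq_nonneg _) hK)
  have h3 : ∀ j, (P j + Q j + (-2 * spin (x j)) * R j) ^ 2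
      ≤ 3 * (P j ^ 2 + Q j ^ 2 + 4 * (K * L)) := fun j => by
    have hs : spin (x j) ^ 2 = 1 := by
      rcases spin_cases (x j) with h | h <;> rw [h] <;> norm_num
    have : (-2 * spin (x j) * R j) ^ 2 = 4 * R j ^ 2 := by rw [mul_pow, mul_pow, hs]; ring
    nlinarith [hR j, sq_nonneg (P j - Q j), sq_nonneg (P j - (-2 * spin (x j)) * R j),
      sq_nonneg (Q j - (-2 * spin (x j)) * R j)]
  have hsum := (sum_le_sum (s := (univ : Finset ι)) fun j _ => h3 j)
  rw [← mul_sum, sum_add_distrib, sum_add_distrib, sum_const, card_univ, nsmul_eq_mul] at hsum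
  simp only [scGrad, e, div_pow, ← sum_div]
  rw [← mul_div_assoc, div_le_iff₀ (by positivity)]
  have := mul_le_mul_of_nonneg_left hb hK
  have := mul_le_mul_of_nonneg_left ha hL
  nlinarith

/-! ### Matrix observables -/

/-- Bounded action, bounded increments, and increments of traces of order one. -/
structure MLip (K : ℝ) (M : (ι → Bool) → Matrix ι ι ℝ) (x : ι → Bool) : Prop where
  act : Act K (M x)
  lin : ∀ (Q : Matrix ι ι ℝ) (q : ℝ), Act q Q →
    ∑ j, trace (Q * (M (flip j x) - M x)) ^ 2 ≤ K * q * Fintype.card ι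
  sq : ∀ j, frob (M (flip j x) - M x) ≤ K

variable {M N : (ι → Bool) → Matrix ι ι ℝ} {x : ι → Bool}

lemma MLip.const [Nonempty ι] {A : Matrix ι ι ℝ} (h : Act K A) : MLip K (fun _ => A) x :=
  ⟨h, fun Q q hQ => by
    simpa [frob] using mul_nonneg (mul_nonneg (act_nonneg h) (act_nonneg hQ)) (Nat.cast_nonneg _),
    fun j => by simpa [frob] using act_nonneg h⟩

omit [DecidableEq ι] in
lemma sq_add_three (a b c : ℝ) : (a + b + c) ^ 2 ≤ 3 * (a ^ 2 + b ^ 2 + c ^ 2) := by
  nlinarith [sq_nonneg (a - b), sq_nonneg (a - c), sq_nonneg (b - c)]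

lemma MLip.add [Nonempty ι] (hM : MLip K M x) (hN : MLip L N x) :
    MLip (2 * (K + L)) (fun z => M z + N z) x := by
  refine ⟨hM.act.add hN.act, fun Q q hQ => ?_, fun j => ?_⟩
  · have h := add_le_add (hM.lin Q q hQ) (hN.lin Q q hQ)
    rw [← sum_add_distrib] at h
    calc ∑ j, trace (Q * (M (flip j x) + N (flip j x) - (M x + N x))) ^ 2
        ≤ ∑ j, 2 * (trace (Q * (M (flip j x) - M x)) ^ 2 + trace (Q * (N (flip j x) - N x)) ^ 2) := by
          refine sum_le_sum fun j _ => ?_
          rw [add_sub_add_comm, Matrix.mul_add, trace_add]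
          exact add_sq_le
      _ ≤ _ := by rw [← mul_sum]; linarith
  · show frob _ ≤ _
    rw [add_sub_add_comm]
    exact (Rule.frob_add_le _ _).trans (by linarith [hM.sq j, hN.sq j])

lemma MLip.mul [Nonempty ι] (hM : MLip K M x) (hN : MLip L N x) :
    MLip (10 * (K * L)) (fun z => M z * N z) x := by
  have hK := act_nonneg hM.act
  have hL := act_nonneg hN.act
  have e : ∀ j, M (flip j x) * N (flip j x) - M x * N x
      = (M (flip j x) - M x) * N x + M x * (N (flip j x) - N x)
        + (M (flip j x) - M x) * (N (flip j x) - N x) := fun j => by noncomm_ring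
  refine ⟨act_mono (act_mul hM.act hN.act) (by nlinarith), fun Q q hQ => ?_, fun j => ?_⟩
  · have hq := act_nonneg hQ
    have h1 := hM.lin (N x * Q) (L * q) (act_mul hN.act hQ)
    have h2 := hN.lin (Q * M x) (q * K) (act_mul hQ hM.act)
    have h3 : ∀ j, trace (Q * ((M (flip j x) - M x) * (N (flip j x) - N x))) ^ 2 ≤ q * K * L := by
      intro j
      rw [← Matrix.mul_assoc]
      refine (trace_mul_sq_le _ _).trans (mul_le_mul ((hQ.frob_mul_le _).trans
        (mul_le_mul_of_nonneg_left (hM.sq j) hq)) (hN.sq j) (frob_nonneg _) (mul_nonneg hq hK))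
    calc ∑ j, trace (Q * (M (flip j x) * N (flip j x) - M x * N x)) ^ 2
        ≤ ∑ j, 3 * (trace (N x * Q * (M (flip j x) - M x)) ^ 2
            + trace (Q * M x * (N (flip j x) - N x)) ^ 2
            + trace (Q * ((M (flip j x) - M x) * (N (flip j x) - N x))) ^ 2) := by
          refine sum_le_sum fun j _ => ?_
          rw [e, Matrix.mul_add, Matrix.mul_add, trace_add, trace_add]
          have t1 : trace (Q * ((M (flip j x) - M x) * N x))
              = trace (N x * Q * (M (flip j x) - M x)) := by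
            rw [← Matrix.mul_assoc, trace_mul_comm, Matrix.mul_assoc]
          rw [t1, ← Matrix.mul_assoc Q (M x)]
          exact sq_add_three _ _ _
      _ ≤ _ := by
          rw [← mul_sum, sum_add_distrib, sum_add_distrib]
          have := sum_le_sum (s := (univ : Finset ι)) fun j _ => h3 j
          rw [sum_const, card_univ, nsmul_eq_mul] at this
          have : 0 ≤ K * L * q * Fintype.card ι := by positivity
          linarith
  · show frob _ ≤ _
    rw [e]
    have f1 : frob ((M (flip j x) - M x) * N x) ≤ L * K := by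
      rw [← frob_transpose, Matrix.transpose_mul]
      have hNt : Act L (N x)ᵀ := ⟨hN.act.2, by rw [transpose_transpose]; exact hN.act.1⟩
      exact (hNt.frob_mul_le _).trans (mul_le_mul_of_nonneg_left
        (by rw [frob_transpose]; exact hM.sq j) hL)
    have f2 := (hM.act.frob_mul_le _).trans (mul_le_mul_of_nonneg_left (hN.sq j) hK)
    have f3 := (frob_mul_le_frob _ _).trans
      (mul_le_mul (hM.sq j) (hN.sq j) (frob_nonneg _) hK)
    have g1 := Rule.frob_add_le ((M (flip j x) - M x) * N x) (M x * (N (flip j x) - N x))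
    have g2 := Rule.frob_add_le
      ((M (flip j x) - M x) * N x + M x * (N (flip j x) - N x))
      ((M (flip j x) - M x) * (N (flip j x) - N x))
    nlinarith

omit [Fintype ι] in
lemma flip_diag_sub (φ : (ι → Bool) → ι → ℝ) (j : ι) (x : ι → Bool) :
    diagonal (φ (flip j x)) - diagonal (φ x)
      = diagonal fun i => -2 * spin (x j) * jac φ x i j := by
  rw [diagonal_sub]
  congr 1
  funext i
  exact flip_sub j (fun z => φ z i) x

omit [DecidableEq ι] in
lemma frob_diagonal [DecidableEq ι] (e : ι → ℝ) : frob (diagonal e) = ∑ i, e i ^ 2 := by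
  simp [frob, diagonal_apply, ite_pow]

omit [Fintype ι] [DecidableEq ι] in
lemma sq_flip_weight (x : ι → Bool) (j : ι) (t : ℝ) : (-2 * spin (x j) * t) ^ 2 = 4 * t ^ 2 := by
  rcases spin_cases (x j) with h | h <;> rw [h] <;> ring

lemma trace_diag_flip (Q : Matrix ι ι ℝ) (φ : (ι → Bool) → ι → ℝ) (j : ι) (x : ι → Bool) :
    trace (Q * (diagonal (φ (flip j x)) - diagonal (φ x)))
      = -2 * spin (x j) * ((jac φ x)ᵀ *ᵥ fun i => Q i i) j := by
  rw [flip_diag_sub]
  simp only [trace, Matrix.diag_apply, mul_diagonal, mulVec, dotProduct, transpose_apply, mul_sum]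
  exact sum_congr rfl fun i _ => by ring

lemma MLip.diag [Nonempty ι] {φ : (ι → Bool) → ι → ℝ} {G : ℝ} (hG : ∀ i, φ x i ^ 2 ≤ G)
    (hφ : Act K (jac φ x)) : MLip (G + 4 * K) (fun z => diagonal (φ z)) x := by
  have hK := act_nonneg hφ
  have hG0 : 0 ≤ G := (sq_nonneg _).trans (hG (Classical.arbitrary ι))
  refine ⟨?_, fun Q q hQ => ?_, fun j => ?_⟩
  · have hs : ∀ i, |φ x i| ≤ √G := fun i => by
      rw [← sqrt_sq_eq_abs]; exact sqrt_le_sqrt (hG i)
    refine act_mono (act_diagonal (sqrt_nonneg G) hs) ?_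
    rw [sq_sqrt hG0]
    linarith
  · simp only [trace_diag_flip, sq_flip_weight, ← mul_sum]
    have h1 := (hφ.2 fun i => Q i i).trans (mul_le_mul_of_nonneg_left (diag_sq_le hQ) hK)
    have : 0 ≤ G * q * Fintype.card ι := by
      have := act_nonneg hQ
      positivity
    linarith
  · show frob _ ≤ _
    rw [flip_diag_sub, frob_diagonal]
    simp only [sq_flip_weight, ← mul_sum]
    linarith [hφ.col_le j]

lemma MLip.scalar [Nonempty ι] {s : (ι → Bool) → ℝ} {G : ℝ} (hG : s x ^ 2 ≤ G)
    (hs : scGrad s x ≤ K) : MLip (G + 4 * K) (fun z => s z • (1 : Matrix ι ι ℝ)) x := by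
  have hK := (scGrad_nonneg s x).trans hs
  have hG0 : 0 ≤ G := (sq_nonneg _).trans hG
  have e : ∀ z, s z • (1 : Matrix ι ι ℝ) = diagonal fun _ => s z := fun z =>
    smul_one_eq_diagonal _
  have hJ : Act K (jac (fun z _ => s z) x) := act_of_frob (by rwa [← scGrad_eq_frob])
  simp only [e]
  exact MLip.diag (fun _ => hG) hJ

/-- Resolvents. -/
lemma MLip.res [Nonempty ι] {J : ι → ι → ℝ} {c κ Λ Γ : ℝ} {g : (ι → Bool) → ι → ℝ}
    (hx : Adm c κ J (g x)) (hflip : ∀ j, Adm c κ J (g (flip j x)))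
    (hJ : RN.OpLe Λ (Matrix.of J)) (hΓ : 0 ≤ Γ) (hgΓ : ∀ i, g x i ≤ Γ)
    (hgΓ' : ∀ j i, g (flip j x) i ≤ Γ) (hg : Act K (jac g x)) :
    MLip ((Γ / κ) ^ 2 + 8 * ((1 + (Λ + |c|) * (Γ / κ)) ^ 2) ^ 2 * K
        * (1 + 4 * ((Λ + |c|) ^ 2) * ((1 + (Λ + |c|) * (Γ / κ)) ^ 2) ^ 2 * K))
      (fun z => Beta1.res c J (g z)) x := by
  have hK := act_nonneg hg
  set W := (1 + (Λ + |c|) * (Γ / κ)) ^ 2 with hW
  set A := shiftMat c J
  set a := (Λ + |c|) ^ 2
  have hA : Act a A := act_of_opLe (hJ.add (RN.OpLe.smul_one le_rfl))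
  have ha : 0 ≤ a := sq_nonneg _
  have hW0 : 0 ≤ W := sq_nonneg _
  set S := fun z => Beta1.res c J (g z)
  have hY : ∀ z, Adm c κ J (g z) → (∀ i, g z i ≤ Γ) → Act W (1 + A * S z) := fun z hz hb =>
    act_of_opLe (hz.one_add_shift_res_opLe hJ hΓ hb)
  have hX : Act W (1 + S x * A) := by
    have h := hY x hx hgΓ
    have e : 1 + S x * A = (1 + A * S x)ᵀ := by
      rw [transpose_add, transpose_one, transpose_mul, hx.res_transpose,
        shiftMat_transpose hx.symm]
    rw [e]
    exact ⟨h.2, by rw [transpose_transpose]; exact h.1⟩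
  set D := fun j => diagonal (g (flip j x)) - diagonal (g x)
  have hd : ∀ j, S (flip j x) - S x = (1 + S x * A) * D j * (1 + A * S (flip j x)) := fun j => by
    show Beta1.res c J (g (flip j x)) - Beta1.res c J (g x) = _
    rw [res_sub hx (hflip j), sub_self, Matrix.mul_zero, Matrix.zero_mul, add_zero]
  have hD : ∀ j, frob (D j) ≤ 4 * K := fun j => by
    simp only [D, flip_diag_sub, frob_diagonal, sq_flip_weight, ← mul_sum]
    linarith [hg.col_le j]
  have hsq : ∀ j, frob (S (flip j x) - S x) ≤ 4 * W ^ 2 * K := fun j => by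
    rw [hd, ← frob_transpose, transpose_mul]
    have hy := hY _ (hflip j) (hgΓ' j)
    have hyt : Act W (1 + A * S (flip j x))ᵀ := ⟨hy.2, by rw [transpose_transpose]; exact hy.1⟩
    refine (hyt.frob_mul_le _).trans ?_
    rw [frob_transpose]
    have := (hX.frob_mul_le (D j)).trans (mul_le_mul_of_nonneg_left (hD j) hW0)
    have := mul_le_mul_of_nonneg_left this hW0
    linarith
  have hbase : 0 ≤ (Γ / κ) ^ 2 := sq_nonneg _
  have hextra : 0 ≤ 32 * a * (W ^ 2) ^ 2 * K ^ 2 := by positivity
  refine ⟨act_mono (act_of_opLe (hx.res_opLe hΓ hgΓ)) ?_, fun Q q hQ => ?_, fun j => ?_⟩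
  · have : 0 ≤ 8 * W ^ 2 * K := by positivity
    nlinarith
  · have hq := act_nonneg hQ
    have hT := act_mul (act_mul (hY x hx hgΓ) hQ) hX
    have h1 : ∑ j, trace ((1 + A * S x) * Q * (1 + S x * A) * D j) ^ 2
        ≤ 4 * (W * q * W) * K * Fintype.card ι := by
      simp only [D, trace_diag_flip, sq_flip_weight, ← mul_sum]
      have := (hg.2 fun i => ((1 + A * S x) * Q * (1 + S x * A)) i i).trans
        (mul_le_mul_of_nonneg_left (diag_sq_le hT) hK)
      linarith
    have h2 : ∀ j, trace (Q * (1 + S x * A) * D j * (A * (S (flip j x) - S x))) ^ 2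
        ≤ q * W * (4 * K) * (a * (4 * W ^ 2 * K)) := fun j => by
      refine (trace_mul_sq_le _ _).trans (mul_le_mul ?_ ((hA.frob_mul_le _).trans
        (mul_le_mul_of_nonneg_left (hsq j) ha)) (frob_nonneg _) (by positivity))
      exact ((act_mul hQ hX).frob_mul_le _).trans
        (mul_le_mul_of_nonneg_left (hD j) (mul_nonneg hq hW0))
    calc ∑ j, trace (Q * (S (flip j x) - S x)) ^ 2
        ≤ ∑ j, 2 * (trace ((1 + A * S x) * Q * (1 + S x * A) * D j) ^ 2
            + trace (Q * (1 + S x * A) * D j * (A * (S (flip j x) - S x))) ^ 2) := by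
          refine sum_le_sum fun j _ => ?_
          refine le_trans (le_of_eq ?_) add_sq_le
          congr 1
          have hc : trace ((1 + A * S x) * Q * (1 + S x * A) * D j)
              = trace (Q * (1 + S x * A) * D j * (1 + A * S x)) := by
            rw [Matrix.mul_assoc, Matrix.mul_assoc, trace_mul_comm]
            simp only [Matrix.mul_assoc]
          rw [hc, ← trace_add, ← Matrix.mul_add]
          conv_lhs => rw [hd]
          congr 1
          rw [show 1 + A * S x + A * (S (flip j x) - S x) = 1 + A * S (flip j x) by noncomm_ring]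
          simp only [Matrix.mul_assoc]
      _ ≤ _ := by
          have h2' := sum_le_sum (s := (univ : Finset ι)) fun j _ => h2 j
          rw [sum_const, card_univ, nsmul_eq_mul] at h2'
          rw [← mul_sum, sum_add_distrib]
          have : 0 ≤ (Γ / κ) ^ 2 * q * Fintype.card ι := by positivity
          have hq2 : q * W * (4 * K) * (a * (4 * W ^ 2 * K)) * 2 ≤
              8 * W ^ 2 * K * (4 * a * W ^ 2 * K) * q := by
            have hW1 : 1 ≤ W := by
              have h0 : 0 ≤ (Λ + |c|) * (Γ / κ) :=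
                mul_nonneg (add_nonneg hJ.1 (abs_nonneg c)) (div_nonneg hΓ hx.hκ.le)
              rw [hW]
              exact one_le_pow₀ (by linarith)
            have : 0 ≤ 32 * q * a * K ^ 2 * W ^ 3 * (W - 1) := by
              have : 0 ≤ W - 1 := by linarith
              positivity
            linarith
          have := mul_le_mul_of_nonneg_right hq2 (Nat.cast_nonneg (Fintype.card ι) : (0:ℝ) ≤ _)
          linarith
  · have : 0 ≤ 4 * W ^ 2 * K := by positivity
    nlinarith [hsq j]

/-- Normalised traces have small gradient. -/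
lemma MLip.scGrad_trace [Nonempty ι] (h : MLip K M x) :
    scGrad (fun z => avg fun i => M z i i) x ≤ K := by
  have hn : (0 : ℝ) < Fintype.card ι := by exact_mod_cast Fintype.card_pos
  have hK := act_nonneg h.act
  have e : ∀ j, deriv2 j (fun z => avg fun i => M z i i) x ^ 2
      = trace (1 * (M (flip j x) - M x)) ^ 2 / (4 * (Fintype.card ι : ℝ) ^ 2) := fun j => by
    rw [deriv2_eq_flip]
    simp only [Matrix.one_mul, trace, Matrix.diag_apply, Matrix.sub_apply, sum_sub_distrib, avg, ← sub_div,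
      flip]
    rcases spin_cases (x j) with h | h <;> rw [h] <;> ring
  simp only [scGrad, e, ← sum_div]
  rw [← mul_div_assoc, div_le_iff₀ (by positivity)]
  have := h.lin 1 1 act_one
  nlinarith [this, mul_nonneg hK (sq_nonneg (Fintype.card ι : ℝ))]

end Vale.Agent.P150.Beta1.Stability
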