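import Vale.Agent.P150.Beta1.Stein.Log
import Vale.Agent.P150.Beta1.Rule.Pairing
import Vale.Agent.P150.Beta1.Rule.Size
import Vale.Agent.P150.Beta1.Stability.Lin
import Vale.Agent.P150.Beta1.Stability.Exact

/-!
# Gradients of the coefficients of the stability argument

Every coefficient of the matrices of the increments has a bounded discrete gradient, so the
matrices are Lipschitz observables; the Stein weight against the TAP point follows the chain word.
-/

namespace Vale.Agent.P150.Beta1.Stability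

open Finset Function Real Matrix
open Vale.Agent.P150.Beta1.Algebra Vale.Agent.P150.Beta1.Rule

variable {ι : Type*} [Fintype ι] [DecidableEq ι] {β C : ℝ} {m : ℕ} {J : ι → ι → ℝ} {y : ι → ℝ}
  {x : ι → Bool}

lemma quart_scalar (s : (ι → Bool) → ℝ) (x : ι → Bool) :
    quart (jac (fun z _ => s z) x) ≤ scGrad s x ^ 2 := by
  simp only [quart, jac, Matrix.of_apply, sum_const, card_univ, nsmul_eq_mul, scGrad, mul_pow]
  rcases isEmpty_or_nonempty ι with hι | hι
  · simp
  have h1 : ∑ j, deriv2 j s x ^ 4 ≤ (∑ j, deriv2 j s x ^ 2) ^ 2 := by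
    refine le_trans (le_of_eq (sum_congr rfl fun j _ => ?_))
      (sum_sq_le_sq_sum_of_nonneg fun j _ => sq_nonneg (deriv2 j s x))
    ring
  have hn : (1 : ℝ) ≤ Fintype.card ι := by exact_mod_cast Fintype.card_pos
  exact mul_le_mul (le_self_pow₀ hn two_ne_zero) h1 (sum_nonneg fun j _ => by positivity)
    (sq_nonneg _)

lemma scGrad_affine (c p : ℝ) (s : (ι → Bool) → ℝ) (x : ι → Bool) :
    scGrad (fun z => c + p * s z) x = p ^ 2 * scGrad s x := by
  have e : ∀ j, deriv2 j (fun z => c + p * s z) x = p * deriv2 j s x := fun j => by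
    simp only [deriv2]; ring
  simp only [scGrad, e, mul_pow, ← mul_sum]
  ring

lemma scGrad_neg (s : (ι → Bool) → ℝ) (x : ι → Bool) : scGrad (fun z => -s z) x = scGrad s x := by
  simpa using scGrad_affine 0 (-1) s x

omit [Fintype ι] in
lemma jac_const (u : ι → ℝ) (x : ι → Bool) : jac (fun _ : ι → Bool => u) x = 0 := by
  ext i j
  simp [jac, deriv2]

omit [Fintype ι] in
lemma jac_sub_const (w : (ι → Bool) → ι → ℝ) (u : ι → ℝ) (x : ι → Bool) :
    jac (fun z i => w z i - u i) x = jac w x := by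
  ext i j
  simp only [jac, deriv2, Matrix.of_apply]
  ring

omit [DecidableEq ι] in
lemma act_zero {K : ℝ} (hK : 0 ≤ K) : Act K (0 : Matrix ι ι ℝ) := by
  classical exact act_mono (act_of_frob (R := 0) (le_of_eq (by simp [frob]))) hK

/-- Composites of fields with bounded gradients. -/
lemma act_comp3 (f : ℝ → ℝ → ℝ → ℝ) (u v w : (ι → Bool) → ι → ℝ) (x : ι → Bool) (a b c : ι → ℝ)
    {G L K Q : ℝ} (ha : ∀ i, |a i| ≤ L) (hb : ∀ i, |b i| ≤ L) (hc : ∀ i, |c i| ≤ L)
    (hu : Act K (jac u x)) (hv : Act K (jac v x)) (hw : Act K (jac w x))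
    (qu : quart (jac u x) ≤ Q) (qv : quart (jac v x) ≤ Q) (qw : quart (jac w x) ≤ Q)
    (hf : ∀ i z, |f (u z i) (v z i) (w z i) - f (u x i) (v x i) (w x i)
      - a i * (u z i - u x i) - b i * (v z i - v x i) - c i * (w z i - w x i)|
      ≤ G * ((u z i - u x i) ^ 2 + (v z i - v x i) ^ 2 + (w z i - w x i) ^ 2)) :
    Act (2 * (10 * L ^ 2 * K + 36 * G ^ 2 * Q)) (jac (fun z i => f (u z i) (v z i) (w z i)) x) := by
  have h := ((((hu.diag_mul ha).add (hv.diag_mul hb)).add (hw.diag_mul hc))).add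
    (act_of_frob ((jac_comp3 f u v w x a b c hf).trans
      (mul_le_mul_of_nonneg_left (add_le_add (add_le_add qu qv) qw) (by positivity))))
  rw [add_sub_cancel] at h
  refine ⟨fun e => (h.1 e).trans_eq (by ring), fun e => (h.2 e).trans_eq (by ring)⟩

/-- The squared norm per site of a bounded field. -/
lemma scGrad_qav [Nonempty ι] {K : ℝ} (a : (ι → Bool) → ι → ℝ) (x : ι → Bool)
    (ha : ∀ i, |a x i| ≤ 2) (hA : Act K (jac a x)) :
    scGrad (fun z => qav (a z)) x ≤ 3 * (4 * K + 4 * K + 4 * (K * K)) := by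
  have h : ∑ i, a x i ^ 2 ≤ 4 * Fintype.card ι :=
    (sum_le_sum fun i _ => (sq_le_sq' (abs_le.1 (ha i)).1 (abs_le.1 (ha i)).2).trans
      (le_of_eq (by norm_num : (2 : ℝ) ^ 2 = 4))).trans (le_of_eq (by simp [mul_comm]))
  simpa only [qav, sq] using scGrad_dot a a x h h hA hA

lemma exists_act_ampA (β C : ℝ) : ∀ k : ℕ, ∃ K, 0 ≤ K ∧ ∀ (ι : Type) [Fintype ι] [DecidableEq ι]
    (m : ℕ) (J : ι → ι → ℝ) (y : ι → ℝ) (x : ι → Bool), k ≤ m → GoodWords β m C J →
      Act K (jac (fun z => ampA β J y (spins z) k) x)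
  | 0 => ⟨1, zero_le_one, fun ι _ _ m J y x _ _ => by
      show Act 1 (jac (fun z => spins z) x)
      rw [jac_spins]
      exact act_one⟩
  | k + 1 => by
    obtain ⟨R, hR0, hR⟩ := exists_zgrad β C k
    refine ⟨|aAct β C k R|, abs_nonneg _, fun ι _ _ m J y x hk hG => ?_⟩
    exact act_mono ((hR ι m J y x hk hG).actA hG hk) (le_abs_self _)

lemma exists_act_ampZ (β C : ℝ) (k : ℕ) : ∃ K, 0 ≤ K ∧ ∀ (ι : Type) [Fintype ι] [DecidableEq ι]
    (m : ℕ) (J : ι → ι → ℝ) (y : ι → ℝ) (x : ι → Bool), k + 1 ≤ m → GoodWords β m C J →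
      Act K (jac (fun z => ampZ β J y (spins z) k) x) ∧
      quart (jac (fun z => ampZ β J y (spins z) k) x) ≤ K := by
  obtain ⟨R, -, hR⟩ := exists_zgrad β C k
  refine ⟨max (max (zAct β C k R) (zQuart β C k R)) 0, le_max_right _ _,
    fun ι _ _ m J y x hk hG => ⟨?_, ?_⟩⟩
  · exact act_mono ((hR ι m J y x hk hG).act hG) ((le_max_left _ _).trans (le_max_left _ _))
  · exact ((hR ι m J y x hk hG).quart_le hG hk).trans ((le_max_right _ _).trans (le_max_left _ _))

lemma exists_scGrad_qav (β C : ℝ) (k : ℕ) : ∃ K, 0 ≤ K ∧ ∀ (ι : Type) [Fintype ι] [DecidableEq ι]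
    [Nonempty ι] (m : ℕ) (J : ι → ι → ℝ) (y : ι → ℝ) (x : ι → Bool), k ≤ m → GoodWords β m C J →
      scGrad (fun z => qav (ampA β J y (spins z) k)) x ≤ K := by
  obtain ⟨A, hA0, hA⟩ := exists_act_ampA β C k
  exact ⟨3 * (4 * A + 4 * A + 4 * (A * A)), by positivity, fun ι _ _ _ m J y x hk hG =>
    scGrad_qav _ x (fun i => (abs_ampA_le β J y x k i).trans one_le_two) (hA ι m J y x hk hG)⟩

lemma exists_scGrad_ons (β C : ℝ) (k : ℕ) : ∃ K, 0 ≤ K ∧ ∀ (ι : Type) [Fintype ι] [DecidableEq ι]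
    [Nonempty ι] (m : ℕ) (J : ι → ι → ℝ) (y : ι → ℝ) (x : ι → Bool), k ≤ m → GoodWords β m C J →
      scGrad (fun z => onsager β (ampA β J y (spins z) k)) x ≤ K := by
  obtain ⟨A, hA0, hA⟩ := exists_scGrad_qav β C k
  refine ⟨(β ^ 2) ^ 2 * A, by positivity, fun ι _ _ _ m J y x hk hG => ?_⟩
  have e : (fun z => onsager β (ampA β J y (spins z) k))
      = fun z => β ^ 2 + -β ^ 2 * qav (ampA β J y (spins z) k) := by
    funext z; rw [onsager]; ring
  rw [e, scGrad_affine, neg_sq]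
  exact mul_le_mul_of_nonneg_left (hA ι m J y x hk hG) (sq_nonneg _)

lemma exists_scGrad_delta (β C : ℝ) (k : ℕ) : ∃ K, 0 ≤ K ∧ ∀ (ι : Type) [Fintype ι] [DecidableEq ι]
    [Nonempty ι] (m : ℕ) (J : ι → ι → ℝ) (y : ι → ℝ) (x : ι → Bool), k + 1 ≤ m →
      GoodWords β m C J → scGrad (fun z => ampDelta β J y (spins z) k) x ≤ K := by
  obtain ⟨A, hA0, hA⟩ := exists_scGrad_qav β C k
  obtain ⟨B, hB0, hB⟩ := exists_scGrad_qav β C (k + 1)
  refine ⟨2 * ((β ^ 2) ^ 2 * A + (β ^ 2) ^ 2 * B), by positivity, fun ι _ _ _ m J y x hk hG => ?_⟩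
  have e : (fun z => ampDelta β J y (spins z) k) = fun z => β ^ 2 * qav (ampA β J y (spins z) k)
      + -β ^ 2 * qav (ampA β J y (spins z) (k + 1)) := by
    funext z; rw [ampDelta]; ring
  rw [e]
  refine (scGrad_add_le _ _ x _ _).trans ?_
  rw [neg_sq]
  gcongr
  · exact hA ι m J y x (by omega) hG
  · exact hB ι m J y x hk hG

omit [DecidableEq ι] in
lemma abs_sech_deriv_le (t : ℝ) : |-(2 * tanh t * (1 - tanh t ^ 2))| ≤ 2 := by
  rw [abs_neg, abs_mul, abs_mul, abs_two]
  nlinarith [mul_le_mul (abs_tanh_le t) (abs_one_sub_tanh_sq t) (abs_nonneg _) zero_le_one,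
    abs_nonneg (tanh t)]

lemma exists_act_ampU (β C : ℝ) : ∀ k : ℕ, ∃ K, 0 ≤ K ∧ ∀ (ι : Type) [Fintype ι] [DecidableEq ι]
    (m : ℕ) (J : ι → ι → ℝ) (y : ι → ℝ) (x : ι → Bool), k ≤ m → GoodWords β m C J →
      Act K (jac (fun z => ampU β J y (spins z) k) x)
  | 0 => ⟨0, le_rfl, fun ι _ _ m J y x _ _ => by
      have e : (fun z => ampU β J y (spins z) 0) = fun _ => fun _ => (0 : ℝ) := by
        funext z i
        simp only [ampU, ampA, spins]
        rcases spin_cases (z i) with h | h <;> rw [h] <;> norm_num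
      rw [e, jac_const]
      exact act_zero le_rfl⟩
  | k + 1 => by
    obtain ⟨Z, hZ0, hZ⟩ := exists_act_ampZ β C k
    refine ⟨2 * (10 * 2 ^ 2 * Z + 36 * 6 ^ 2 * Z), by positivity, fun ι _ _ m J y x hk hG => ?_⟩
    obtain ⟨h1, h2⟩ := hZ ι m J y x hk hG
    set u := fun z => ampZ β J y (spins z) k
    have hd : ∀ t, HasDerivAt (fun s => 1 - tanh s ^ 2) (-(2 * tanh t * (1 - tanh t ^ 2))) t :=
      fun t => by simpa using ((hasDerivAt_tanh' t).fun_pow 2).const_sub 1
    have hlip : ∀ s t : ℝ, |(-(2 * tanh s * (1 - tanh s ^ 2))) - -(2 * tanh t * (1 - tanh t ^ 2))|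
        ≤ 6 * |s - t| := fun s t => by
      have e : -(2 * tanh s * (1 - tanh s ^ 2)) - -(2 * tanh t * (1 - tanh t ^ 2))
          = -(2 * (tanh s - tanh t) * (1 - tanh s ^ 2)
            + 2 * tanh t * ((1 - tanh s ^ 2) - (1 - tanh t ^ 2))) := by ring
      rw [e, abs_neg]
      refine (abs_add_le _ _).trans ?_
      rw [abs_mul, abs_mul, abs_mul (2 * tanh t), abs_mul, abs_two]
      have := mul_le_mul (abs_tanh_sub_le s t) (abs_one_sub_tanh_sq s) (abs_nonneg _) (abs_nonneg _)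
      have := mul_le_mul (abs_tanh_le t) (tanh_deriv_lip s t) (abs_nonneg _) zero_le_one
      linarith
    exact act_comp3 (fun a _ _ => 1 - tanh a ^ 2) u u u x
      (fun i => -(2 * tanh (u x i) * (1 - tanh (u x i) ^ 2))) (fun _ => 0) (fun _ => 0)
      (fun i => abs_sech_deriv_le _) (fun i => by simp) (fun i => by simp) h1 h1 h1 h2 h2 h2
      fun i z => by
        have := taylor_one hd hlip (by norm_num) (u x i) (u z i)
        simp only [zero_mul, sub_zero]
        nlinarith [sq_nonneg (u z i - u x i)]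

omit [DecidableEq ι] in
lemma stein_coef_le {L a b Δ : ℝ} (hΔ : |Δ| ≤ L) :
    |steinG' a b Δ| ≤ 2 * exp (L / 2) ∧ |steinGb a b Δ| ≤ 2 * exp (L / 2) ∧
      |steinGd a b Δ| ≤ 2 * exp (L / 2) := by
  have h := (steinG_le_exp a b Δ).trans (exp_le_exp.2 (by linarith : |Δ| / 2 ≤ L / 2))
  have hp := steinG_pos a b Δ
  refine ⟨(abs_steinG'_le a b Δ).trans (by linarith), (abs_steinGb_le a b Δ).trans (by linarith), ?_⟩
  rw [abs_of_nonneg (steinGd_nonneg a b Δ)]
  linarith [steinGd_le a b Δ]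

lemma exists_act_ampG (β C : ℝ) (k : ℕ) : ∃ K, 0 ≤ K ∧ ∀ (ι : Type) [Fintype ι] [DecidableEq ι]
    [Nonempty ι] (m : ℕ) (J : ι → ι → ℝ) (y : ι → ℝ) (x : ι → Bool), k + 2 ≤ m →
      GoodWords β m C J → Act K (jac (fun z => ampG β J y (spins z) k) x) := by
  obtain ⟨Z, hZ0, hZ⟩ := exists_act_ampZ β C k
  obtain ⟨Z', hZ0', hZ'⟩ := exists_act_ampZ β C (k + 1)
  obtain ⟨D, hD0, hD⟩ := exists_scGrad_delta β C k
  set L := β ^ 2
  set K := Z + Z' + D + D ^ 2
  refine ⟨2 * (10 * (2 * exp (L / 2)) ^ 2 * K + 36 * (52 * exp (L / 2)) ^ 2 * K), by positivity,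
    fun ι _ _ _ m J y x hk hG => ?_⟩
  obtain ⟨h1, h2⟩ := hZ ι m J y x (by omega) hG
  obtain ⟨h1', h2'⟩ := hZ' ι m J y x hk hG
  have h3 := hD ι m J y x (by omega) hG
  have hq := (quart_scalar (fun z => ampDelta β J y (spins z) k) x).trans
    (pow_le_pow_left₀ (scGrad_nonneg _ _) h3 2)
  have hb := abs_ampDelta_le β J y x k
  have := sq_nonneg D
  exact act_comp3 steinG _ _ (fun z _ => ampDelta β J y (spins z) k) x
    (fun i => steinG' (ampZ β J y (spins x) k i) (ampZ β J y (spins x) (k + 1) i)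
      (ampDelta β J y (spins x) k))
    (fun i => steinGb (ampZ β J y (spins x) k i) (ampZ β J y (spins x) (k + 1) i)
      (ampDelta β J y (spins x) k))
    (fun i => steinGd (ampZ β J y (spins x) k i) (ampZ β J y (spins x) (k + 1) i)
      (ampDelta β J y (spins x) k))
    (fun i => (stein_coef_le hb).1) (fun i => (stein_coef_le hb).2.1)
    (fun i => (stein_coef_le hb).2.2) (act_mono h1 (by linarith)) (act_mono h1' (by linarith))
    (act_mono (act_of_frob ((scGrad_eq_frob _ x).symm.trans_le h3)) (by linarith))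
    (h2.trans (by linarith)) (h2'.trans (by linarith)) (hq.trans (by linarith))
    fun i z => by
      have := steinG_taylor (ampZ β J y (spins x) k i) (ampZ β J y (spins x) (k + 1) i)
        (ampDelta β J y (spins x) k) (ampZ β J y (spins z) k i - ampZ β J y (spins x) k i)
        (ampZ β J y (spins z) (k + 1) i - ampZ β J y (spins x) (k + 1) i)
        (ampDelta β J y (spins z) k - ampDelta β J y (spins x) k) hb
        (by rw [add_sub_cancel]; exact abs_ampDelta_le β J y z k)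
      simpa only [add_sub_cancel] using this

/-! ### Lipschitz matrices -/

lemma MLip.mono {K L : ℝ} {M : (ι → Bool) → Matrix ι ι ℝ} (h : MLip K M x) (hKL : K ≤ L) :
    MLip L M x :=
  ⟨act_mono h.act hKL, fun Q q hQ => by
    rcases isEmpty_or_nonempty ι with hι | hι
    · simp
    exact (h.lin Q q hQ).trans (mul_le_mul_of_nonneg_right
      (mul_le_mul_of_nonneg_right hKL (act_nonneg hQ)) (Nat.cast_nonneg _)),
    fun j => (h.sq j).trans hKL⟩

lemma MLip.coupling [Nonempty ι] (hG : GoodWords β m C J) (x : ι → Bool) :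
    MLip (max C 1) (fun _ => Matrix.of J) x := by
  have h := expr_act hG Expr.coup (d := 1) (S := 1) le_rfl le_rfl
  simp only [Expr.mat, pow_one, one_pow, mul_one] at h
  exact MLip.const h

lemma MLip.ampU [Nonempty ι] {K : ℝ} (k : ℕ)
    (h : Act K (jac (fun z => ampU β J y (spins z) k) x)) :
    MLip (1 + 4 * K) (fun z => diagonal (Algebra.ampU β J y (spins z) k)) x :=
  MLip.diag (fun i => by
    have h1 := (sq_le_one_iff_abs_le_one _).2 (abs_ampA_le β J y x k i)
    have h2 : |Algebra.ampU β J y (spins x) k i| ≤ 1 := by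
      rw [abs_le]
      simp only [Algebra.ampU]
      constructor <;> nlinarith [sq_nonneg (ampA β J y (spins x) k i)]
    exact (sq_le_one_iff_abs_le_one _).2 h2) h

lemma sq_abs_le {a b : ℝ} (h : |a| ≤ b) : a ^ 2 ≤ b ^ 2 :=
  sq_le_sq' (abs_le.1 h).1 (abs_le.1 h).2

lemma neg_sq_le {a b : ℝ} (h : |a| ≤ b) : (-a) ^ 2 ≤ b ^ 2 := sq_abs_le (by rwa [abs_neg])

lemma exists_mlip_gradE (β C : ℝ) : ∀ k : ℕ, ∃ K, ∀ (ι : Type) [Fintype ι] [DecidableEq ι]
    [Nonempty ι] (m : ℕ) (J : ι → ι → ℝ) (y : ι → ℝ) (x : ι → Bool), k + 1 ≤ m →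
      GoodWords β m C J → MLip K (fun z => (gradE β J y (spins z) k).mat J) x
  | 0 => ⟨_, fun ι _ _ _ m J y x _ hG => MLip.coupling hG x⟩
  | 1 => by
    obtain ⟨U, -, hU⟩ := exists_act_ampU β C 1
    obtain ⟨B, -, hB⟩ := exists_scGrad_ons β C 1
    refine ⟨?K1, fun ι _ _ _ m J y x hk hG => ?h⟩
    case h =>
      simp only [gradE_one, sub_eq_add_neg, ← neg_smul]
      exact (((MLip.coupling hG x).mul (MLip.ampU 1 (hU ι m J y x (by omega) hG))).mul
        (MLip.coupling hG x)).add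
        (MLip.scalar (G := (β ^ 2) ^ 2) (K := B)
          (neg_sq_le (abs_onsager_le β (abs_ampA_le β J y x 1)))
          ((scGrad_neg _ x).trans_le (hB ι m J y x (by omega) hG)))
  | k + 2 => by
    obtain ⟨E1, hE1⟩ := exists_mlip_gradE β C (k + 1)
    obtain ⟨E0, hE0⟩ := exists_mlip_gradE β C k
    obtain ⟨U2, -, hU2⟩ := exists_act_ampU β C (k + 2)
    obtain ⟨U1, -, hU1⟩ := exists_act_ampU β C (k + 1)
    obtain ⟨B, -, hB⟩ := exists_scGrad_ons β C (k + 2)
    refine ⟨?K2, fun ι _ _ _ m J y x hk hG => ?h⟩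
    case h =>
      have e : ∀ (b : ℝ) (M : Matrix ι ι ℝ), -(b • M) = (-b) • (1 : Matrix ι ι ℝ) * M := fun b M => by
        rw [smul_mul_assoc, Matrix.one_mul, neg_smul]
      simp only [gradE_succ, sub_eq_add_neg, e]
      exact (((MLip.coupling hG x).mul (MLip.ampU _ (hU2 ι m J y x (by omega) hG))).mul
          (hE1 ι m J y x (by omega) hG)).add
        ((MLip.scalar (G := (β ^ 2) ^ 2) (K := B)
          (neg_sq_le (abs_onsager_le β (abs_ampA_le β J y x _)))
          ((scGrad_neg _ x).trans_le (hB ι m J y x (by omega) hG))).mul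
          ((MLip.ampU _ (hU1 ι m J y x (by omega) hG)).mul (hE0 ι m J y x (by omega) hG)))

lemma exists_mlip_ampL (β C : ℝ) : ∀ k : ℕ, ∃ K, ∀ (ι : Type) [Fintype ι] [DecidableEq ι]
    [Nonempty ι] (m : ℕ) (J : ι → ι → ℝ) (y : ι → ℝ) (x : ι → Bool), k + 1 ≤ m →
      GoodWords β m C J → MLip K (fun z => ampL β J y (spins z) k) x
  | 0 => by
    obtain ⟨U, -, hU⟩ := exists_act_ampU β C 1
    refine ⟨?K3, fun ι _ _ _ m J y x hk hG => ?h⟩
    case h =>
      exact MLip.ampU 1 (hU ι m J y x (by omega) hG)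
  | 1 => by
    obtain ⟨U, -, hU⟩ := exists_act_ampU β C 1
    obtain ⟨D, -, hD⟩ := exists_scGrad_delta β C 0
    obtain ⟨G, -, hG'⟩ := exists_act_ampG β C 0
    refine ⟨?K4, fun ι _ _ _ m J y x hk hG => ?h⟩
    case h =>
      exact ((MLip.ampU 1 (hU ι m J y x (by omega) hG)).mul ((MLip.coupling hG x).add
        (MLip.scalar (sq_abs_le (abs_ampDelta_le β J y x 0)) (hD ι m J y x (by omega) hG)))).mul
        (MLip.diag (fun i => sq_abs_le (b := 4 * exp (β ^ 2 / 2)) ((abs_steinG_le _ _ _).trans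
          (mul_le_mul_of_nonneg_left (exp_le_exp.2 (div_le_div_of_nonneg_right
            (abs_ampDelta_le β J y x 0) two_pos.le)) (by norm_num))))
          (hG' ι m J y x (by omega) hG))
  | k + 2 => by
    obtain ⟨L1, hL1⟩ := exists_mlip_ampL β C (k + 1)
    obtain ⟨L0, hL0⟩ := exists_mlip_ampL β C k
    obtain ⟨D, -, hD⟩ := exists_scGrad_delta β C (k + 1)
    obtain ⟨B, -, hB⟩ := exists_scGrad_ons β C (k + 1)
    obtain ⟨G, -, hG'⟩ := exists_act_ampG β C (k + 1)
    refine ⟨?K5, fun ι _ _ _ m J y x hk hG => ?h⟩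
    case h =>
      have e : ∀ (b : ℝ) (M : Matrix ι ι ℝ), -(b • M) = (-b) • (1 : Matrix ι ι ℝ) * M := fun b M => by
        rw [smul_mul_assoc, Matrix.one_mul, neg_smul]
      simp only [ampL, sub_eq_add_neg, e]
      exact (((hL1 ι m J y x (by omega) hG).mul ((MLip.coupling hG x).add
          (MLip.scalar (sq_abs_le (abs_ampDelta_le β J y x (k + 1)))
            (hD ι m J y x (by omega) hG)))).add
        ((MLip.scalar (G := (β ^ 2) ^ 2) (K := B)
          (neg_sq_le (abs_onsager_le β (abs_ampA_le β J y x _)))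
          ((scGrad_neg _ x).trans_le (hB ι m J y x (by omega) hG))).mul (hL0 ι m J y x (by omega) hG))).mul
        (MLip.diag (fun i => sq_abs_le (b := 4 * exp (β ^ 2 / 2)) ((abs_steinG_le _ _ _).trans
          (mul_le_mul_of_nonneg_left (exp_le_exp.2 (div_le_div_of_nonneg_right
            (abs_ampDelta_le β J y x (k + 1)) two_pos.le)) (by norm_num))))
          (hG' ι m J y x (by omega) hG))

end Vale.Agent.P150.Beta1.Stability
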