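import Vale.Agent.P150.Beta1.Stability.Grad
import Vale.Agent.P150.Beta1.Stability.Box

/-!
# The gradient data at one configuration

`Regular` collects the bounds used by the stability argument, with one constant depending on the
index, the inverse temperature and the constant of the words.
-/

namespace Vale.Agent.P150.Beta1.Stability

open Finset Function Real Matrix
open Vale.Agent.P150.Beta1.Algebra Vale.Agent.P150.Beta1.Rule

variable {ι : Type*} [Fintype ι] [DecidableEq ι]

/-- Sizes of the expressions used at index `K`. -/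
noncomputable def stabSize (β : ℝ) (K : ℕ) : ℝ :=
  4 * (1 + β ^ 2) ^ (K + 1) + lSize β (K + 1) * (1 + β ^ 2) + β ^ 2 * lSize β K + lSize β (K + 1)

/-- The gradient data at a configuration. -/
structure Regular (β : ℝ) (J : ι → ι → ℝ) (y γ : ι → ℝ) (x : ι → Bool) (K : ℕ) (R : ℝ) : Prop where
  gap : ∀ j, j ≤ K + 2 → Act R (jac (fun z => gap β J y γ (spins z) j) x)
  qav : ∀ j, j ≤ K + 2 → scGrad (fun z => qav (ampA β J y (spins z) j)) x ≤ R
  gradM : frob (jac (fun z => Stability.gap β J y γ (spins z) (K + 2)) x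
    - diagonal (ampU β J y (spins x) (K + 2)) * (gradE β J y (spins x) (K + 1)).mat J) ≤ R
  gradA : frob (jac (fun z => Stability.gap β J y γ (spins z) (K + 1)) x
    - diagonal (ampU β J y (spins x) (K + 1)) * (gradE β J y (spins x) K).mat J) ≤ R
  gradZ : frob (jac (fun z i => ampZ β J y (spins z) (K + 1) i - γ i) x
    - (gradE β J y (spins x) (K + 1)).mat J) ≤ R
  gradG : frob (jac (fun z => stabG β J y γ (spins z) K) x
    - diagonal (fun i => stabH β J y γ (spins x) K i * stabG β J y γ (spins x) K i)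
      * (gradE β J y (spins x) (K + 1)).mat J) ≤ R
  actG : Act R (jac (fun z => stabG β J y γ (spins z) K) x)
  mlipP : MLip R (fun z => (gradE β J y (spins z) (K + 1)).mat J) x
  mlipP0 : MLip R (fun z => (gradE β J y (spins z) K).mat J) x
  mlipU : MLip R (fun z => diagonal (ampU β J y (spins z) (K + 2))) x
  mlipU0 : MLip R (fun z => diagonal (ampU β J y (spins z) (K + 1))) x
  mlipA : MLip R (fun z => (stabA β J y (spins z) K).mat J) x
  mlipJ : MLip R (fun _ => Matrix.of J) x
  actA : Act R ((stabA β J y (spins x) K).mat J)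

lemma stabA_mat (β : ℝ) (J : ι → ι → ℝ) (y x : ι → ℝ) (K : ℕ) :
    (stabA β J y x K).mat J
      = ampL β J y x (K + 1)
          * (Matrix.of J + (-onsager β (ampA β J y x (K + 1))) • (1 : Matrix ι ι ℝ))
        + (-onsager β (ampA β J y x (K + 1))) • (1 : Matrix ι ι ℝ) * ampL β J y x K := by
  simp [stabA, Expr.mat, Expr.mat_const, ampL_eq]

omit [DecidableEq ι] in
lemma size_stab (β : ℝ) (J : ι → ι → ℝ) (y : ι → ℝ) (x : ι → Bool) (K : ℕ) :
    (stabA β J y (spins x) K).size ≤ stabSize β K ∧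
    (gradE β J y (spins x) (K + 1)).size ≤ stabSize β K ∧
    (gradE β J y (spins x) K).size ≤ stabSize β K := by
  have hb : (1 : ℝ) ≤ 1 + β ^ 2 := by nlinarith [sq_nonneg β]
  have h1 := lSize_nonneg β (K + 1)
  have h0 := lSize_nonneg β K
  have hp : 0 ≤ (1 + β ^ 2) ^ (K + 1) := by positivity
  have hA : 0 ≤ lSize β (K + 1) * (1 + β ^ 2) + β ^ 2 * lSize β K := by positivity
  have hc : (Expr.const (-(onsager β (ampA β J y (spins x) (K + 1)))) : Expr ι).size ≤ β ^ 2 :=
    (Expr.size_const_le _).trans (by rw [abs_neg]; exact abs_onsager_le β (abs_ampA_le β J y x _))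
  refine ⟨?_, (size_gradE β J y (spins x) (abs_spins_le x) (K + 1)).trans ?_,
    (size_gradE β J y (spins x) (abs_spins_le x) K).trans
      ((pow_le_pow_right₀ hb (Nat.le_add_right K 1)).trans ?_)⟩
  · simp only [stabA, Expr.size]
    refine (add_le_add (mul_le_mul (size_ampL β J y x (K + 1)) (add_le_add le_rfl hc)
      (add_nonneg zero_le_one (Expr.size_nonneg _)) h1)
      (mul_le_mul hc (size_ampL β J y x K) (Expr.size_nonneg _) (sq_nonneg β))).trans ?_
    simp only [stabSize]
    linarith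
  · simp only [stabSize]
    linarith
  · simp only [stabSize]
    linarith

lemma jac_gap (β : ℝ) (J : ι → ι → ℝ) (y γ : ι → ℝ) (x : ι → Bool) (k : ℕ) :
    jac (fun z => gap β J y γ (spins z) k) x = jac (fun z => ampA β J y (spins z) k) x :=
  jac_sub_const (fun z => ampA β J y (spins z) k) (fun i => tanh (γ i)) x

omit [DecidableEq ι] in
lemma abs_gap_le (β : ℝ) (J : ι → ι → ℝ) (y γ : ι → ℝ) (x : ι → Bool) (k : ℕ) (i : ι) :
    |gap β J y γ (spins x) k i| ≤ 2 :=
  (abs_sub _ _).trans (by linarith [abs_ampA_le β J y x k i, abs_tanh_le (γ i)])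

omit [DecidableEq ι] in
lemma abs_stabDt_le (β : ℝ) (J : ι → ι → ℝ) (y γ : ι → ℝ) (x : ι → Bool) (K : ℕ) :
    |stabDt β J y γ (spins x) K| ≤ 4 * β ^ 2 := by
  rw [stabDt, abs_of_nonneg (mul_nonneg (sq_nonneg β) (qav_nonneg _)), mul_comm (4 : ℝ)]
  refine mul_le_mul_of_nonneg_left (div_le_of_le_mul₀ (Nat.cast_nonneg _) (by norm_num) ?_)
    (sq_nonneg β)
  exact (sum_le_sum fun i _ => sq_abs_le (abs_gap_le β J y γ x (K + 1) i)).trans
    (le_of_eq (by simp; ring))

/-- The weight against the TAP point follows the chain word. -/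
lemma exists_gradG (β C : ℝ) (K : ℕ) : ∃ R, ∀ (ι : Type) [Fintype ι] [DecidableEq ι] [Nonempty ι]
    (m : ℕ) (J : ι → ι → ℝ) (y γ : ι → ℝ) (x : ι → Bool), K + 2 ≤ m → GoodWords β m C J →
    frob (jac (fun z => stabG β J y γ (spins z) K) x
      - diagonal (fun i => stabH β J y γ (spins x) K i * stabG β J y γ (spins x) K i)
        * (gradE β J y (spins x) (K + 1)).mat J) ≤ R ∧
    Act R (jac (fun z => stabG β J y γ (spins z) K) x) := by
  obtain ⟨R0, -, hR0⟩ := exists_zgrad β C (K + 1)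
  obtain ⟨Z, hZ0, hZ⟩ := exists_act_ampZ β C (K + 1)
  obtain ⟨A, hA0, hA⟩ := exists_act_ampA β C (K + 1)
  set D := (β ^ 2) ^ 2 * (3 * (4 * A + 4 * A + 4 * (A * A))) with hDdef
  set G := 52 * exp (4 * β ^ 2 / 2)
  set L := 2 * exp (4 * β ^ 2 / 2)
  set Q := Z + D + D ^ 2
  refine ⟨2 * (2 * (12 * G ^ 2 * (Z + 0 + D ^ 2)) + 2 * (2 * (L ^ 2 * R0 + L ^ 2 * D)))
    + 2 * (10 * L ^ 2 * Q + 36 * G ^ 2 * Q), fun ι _ _ _ m J y γ x hm hG => ?_⟩
  set u := fun z => ampZ β J y (spins z) (K + 1)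
  set s := fun z => stabDt β J y γ (spins z) K
  obtain ⟨h1, h2⟩ := hZ ι m J y x hm hG
  have hs : scGrad s x ≤ D := by
    have e : s = fun z => 0 + β ^ 2 * qav (gap β J y γ (spins z) (K + 1)) := by
      funext z; simp only [s, stabDt, zero_add]
    rw [e, scGrad_affine, hDdef]
    refine mul_le_mul_of_nonneg_left (scGrad_qav _ x (abs_gap_le β J y γ x (K + 1)) ?_) (sq_nonneg _)
    rw [jac_gap]
    exact hA ι m J y x (by omega) hG
  have hD0 : 0 ≤ D := by positivity
  have hqs : quart (jac (fun z _ => s z) x) ≤ D ^ 2 :=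
    (quart_scalar s x).trans (pow_le_pow_left₀ (scGrad_nonneg _ _) hs 2)
  have hv : jac (fun _ : (ι → Bool) => γ) x = 0 := jac_const γ x
  have hb : |s x| ≤ 4 * β ^ 2 := abs_stabDt_le β J y γ x K
  set a := fun i => steinG' (u x i) (γ i) (s x)
  set c := fun i => steinGd (u x i) (γ i) (s x)
  have hf : ∀ i z, |steinG (u z i) (γ i) (s z) - steinG (u x i) (γ i) (s x)
      - a i * (u z i - u x i) - steinGb (u x i) (γ i) (s x) * (γ i - γ i)
      - c i * (s z - s x)| ≤ G * ((u z i - u x i) ^ 2 + (γ i - γ i) ^ 2 + (s z - s x) ^ 2) := by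
    intro i z
    have := steinG_taylor (u x i) (γ i) (s x) (u z i - u x i) (γ i - γ i) (s z - s x) hb
      (by rw [add_sub_cancel]; exact abs_stabDt_le β J y γ z K)
    simpa only [add_sub_cancel] using this
  have hh := jac_comp3 steinG u (fun _ => γ) (fun z _ => s z) x a
    (fun i => steinGb (u x i) (γ i) (s x)) c hf
  have hact := act_comp3 steinG u (fun _ => γ) (fun z _ => s z) x a
    (fun i => steinGb (u x i) (γ i) (s x)) c (L := L) (K := Q) (Q := Q)
    (fun i => (stein_coef_le hb).1) (fun i => (stein_coef_le hb).2.1)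
    (fun i => (stein_coef_le hb).2.2) (act_mono h1 (by nlinarith [sq_nonneg D]))
    (hv ▸ act_zero (by positivity))
    (act_mono (act_of_frob ((scGrad_eq_frob s x).symm.trans_le hs)) (by nlinarith [sq_nonneg D]))
    (h2.trans (by nlinarith [sq_nonneg D])) (by rw [hv]; simp [quart]; positivity)
    (hqs.trans (by linarith)) hf
  have hP0 : 0 ≤ R0 := (frob_nonneg _).trans (hR0 ι m J y x hm hG)
  have hQ0 : 0 ≤ 2 * (10 * L ^ 2 * Q + 36 * G ^ 2 * Q) := by positivity
  have hmain : 0 ≤ 2 * (2 * (12 * G ^ 2 * (Z + 0 + D ^ 2)) + 2 * (2 * (L ^ 2 * R0 + L ^ 2 * D))) := by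
    positivity
  refine ⟨?_, act_mono hact (by linarith)⟩
  have ea : (fun i => stabH β J y γ (spins x) K i * stabG β J y γ (spins x) K i) = a := by
    funext i
    exact div_mul_cancel₀ _ (steinG_pos _ _ _).ne'
  rw [ea]
  rw [hv, Matrix.mul_zero, add_zero] at hh
  have q0 : quart (0 : Matrix ι ι ℝ) = 0 := by simp [quart]
  rw [q0] at hh
  have hh' := hh.trans (mul_le_mul_of_nonneg_left
    (add_le_add (add_le_add h2 le_rfl) hqs) (by positivity))
  have e : jac (fun z => stabG β J y γ (spins z) K) x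
        - diagonal a * (gradE β J y (spins x) (K + 1)).mat J
      = (jac (fun z i => steinG (u z i) (γ i) (s z)) x
          - (diagonal a * jac u x + diagonal c * jac (fun z _ => s z) x))
        + (diagonal a * (jac u x - (gradE β J y (spins x) (K + 1)).mat J)
          + diagonal c * jac (fun z _ => s z) x) := by
    rw [Matrix.mul_sub]
    show jac (fun z i => steinG (u z i) (γ i) (s z)) x - _ = _
    abel
  rw [e]
  refine (Rule.frob_add_le _ _).trans ?_
  have h3 := (Rule.frob_add_le (diagonal a * (jac u x - (gradE β J y (spins x) (K + 1)).mat J))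
      (diagonal c * jac (fun z _ => s z) x)).trans (mul_le_mul_of_nonneg_left (add_le_add
    ((frob_diag_mul_le (fun i => (stein_coef_le hb).1) _).trans
      (mul_le_mul_of_nonneg_left (hR0 ι m J y x hm hG) (sq_nonneg L)))
    ((frob_diag_mul_le (fun i => (stein_coef_le hb).2.2) _).trans
      (mul_le_mul_of_nonneg_left ((scGrad_eq_frob s x).symm.trans_le hs) (sq_nonneg L)))) zero_le_two)
  linarith

/-- One constant for all the data. -/
theorem exists_regular (β C : ℝ) (K : ℕ) : ∃ R, 1 ≤ R ∧ ∀ (ι : Type) [Fintype ι] [DecidableEq ι]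
    [Nonempty ι] (m : ℕ) (J : ι → ι → ℝ) (y γ : ι → ℝ) (x : ι → Bool), 2 * K + 6 ≤ m →
      GoodWords β m C J → Regular β J y γ x K R := by
  choose Q hQ0 hQ using fun j : ℕ => exists_scGrad_qav β C j
  choose A hAn hA using fun j : ℕ => exists_act_ampA β C j
  obtain ⟨Z1, hZ10, hZ1⟩ := exists_zgrad β C (K + 1)
  obtain ⟨Z0, hZ00, hZ0⟩ := exists_zgrad β C K
  obtain ⟨U2, -, hU2⟩ := exists_act_ampU β C (K + 2)
  obtain ⟨U1, -, hU1⟩ := exists_act_ampU β C (K + 1)
  obtain ⟨E1, hE1⟩ := exists_mlip_gradE β C (K + 1)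
  obtain ⟨E0, hE0⟩ := exists_mlip_gradE β C K
  obtain ⟨L1, hL1⟩ := exists_mlip_ampL β C (K + 1)
  obtain ⟨L0, hL0⟩ := exists_mlip_ampL β C K
  obtain ⟨B, -, hB⟩ := exists_scGrad_ons β C (K + 1)
  obtain ⟨G, hG'⟩ := exists_gradG β C K
  set MA := 2 * (10 * (L1 * (2 * (max C 1 + ((β ^ 2) ^ 2 + 4 * B))))
    + 10 * (((β ^ 2) ^ 2 + 4 * B) * L0))
  set R := ((|A K| + |A (K + 1)| + |A (K + 2)|) + ∑ j ∈ range (K + 3), (|A j| + |Q j|))
    + |288 * zQuart β C (K + 1) Z1 + 2 * Z1| + |288 * zQuart β C K Z0 + 2 * Z0| + |Z1| + |G|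
    + |E1| + |E0| + |1 + 4 * U2| + |1 + 4 * U1| + |MA| + max C 1 + 1 with hR
  have hR1 : 1 ≤ R := by
    rw [hR]
    refine le_add_of_nonneg_left ?_
    positivity
  refine ⟨R, hR1, fun ι _ _ _ m J y γ x hm hG => ?_⟩
  have hsum : ∀ j, j ≤ K + 2 → |A j| + |Q j| ≤ ∑ l ∈ range (K + 3), (|A l| + |Q l|) := fun j hj =>
    single_le_sum (f := fun l => |A l| + |Q l|) (fun l _ => by positivity)
      (mem_range.2 (by omega))
  obtain ⟨g1, g2⟩ := hG' ι m J y γ x (by omega) hG
  have n1 := abs_nonneg (A K)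
  have n2 := abs_nonneg (A (K + 1))
  have n3 := abs_nonneg (A (K + 2))
  have n4 : 0 ≤ ∑ l ∈ range (K + 3), (|A l| + |Q l|) := by positivity
  have n5 := abs_nonneg (288 * zQuart β C (K + 1) Z1 + 2 * Z1)
  have n6 := abs_nonneg (288 * zQuart β C K Z0 + 2 * Z0)
  have n7 := abs_nonneg Z1
  have n8 := abs_nonneg G
  have n9 := abs_nonneg E1
  have n10 := abs_nonneg E0
  have n11 := abs_nonneg (1 + 4 * U2)
  have n12 := abs_nonneg (1 + 4 * U1)
  have n13 := abs_nonneg MA
  have n14 : (1 : ℝ) ≤ max C 1 := le_max_right _ _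
  have hMA : MLip MA (fun z => (stabA β J y (spins z) K).mat J) x := by
    have hs : MLip ((β ^ 2) ^ 2 + 4 * B)
        (fun z => (-onsager β (ampA β J y (spins z) (K + 1))) • (1 : Matrix ι ι ℝ)) x :=
      MLip.scalar (neg_sq_le (abs_onsager_le β (abs_ampA_le β J y x _)))
        ((scGrad_neg _ x).trans_le (hB ι m J y x (by omega) hG))
    simp only [stabA_mat]
    exact ((hL1 ι m J y x (by omega) hG).mul ((MLip.coupling hG x).add hs)).add
      (hs.mul (hL0 ι m J y x (by omega) hG))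
  constructor
  · intro j hj
    rw [jac_gap]
    refine act_mono (hA j ι m J y x (by omega) hG) ?_
    linarith [hsum j hj, abs_nonneg (Q j), le_abs_self (A j)]
  · intro j hj
    refine (hQ j ι m J y x (by omega) hG).trans ?_
    linarith [hsum j hj, abs_nonneg (A j), le_abs_self (Q j)]
  · rw [jac_gap]
    refine ((hZ1 ι m J y x (by omega) hG).gradA hG (by omega)).trans ?_
    linarith [le_abs_self (288 * zQuart β C (K + 1) Z1 + 2 * Z1)]
  · rw [jac_gap]
    refine ((hZ0 ι m J y x (by omega) hG).gradA hG (by omega)).trans ?_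
    linarith [le_abs_self (288 * zQuart β C K Z0 + 2 * Z0)]
  · rw [jac_sub_const]
    refine le_trans (hZ1 ι m J y x (by omega) hG) ?_
    linarith [le_abs_self Z1]
  · exact g1.trans (by linarith [le_abs_self G])
  · exact act_mono g2 (by linarith [le_abs_self G])
  · exact (hE1 ι m J y x (by omega) hG).mono (by linarith [le_abs_self E1])
  · exact (hE0 ι m J y x (by omega) hG).mono (by linarith [le_abs_self E0])
  · exact (MLip.ampU _ (hU2 ι m J y x (by omega) hG)).mono
      (by linarith [le_abs_self (1 + 4 * U2)])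
  · exact (MLip.ampU _ (hU1 ι m J y x (by omega) hG)).mono
      (by linarith [le_abs_self (1 + 4 * U1)])
  · exact hMA.mono (by linarith [le_abs_self MA])
  · exact (MLip.coupling hG x).mono (by linarith)
  · exact act_mono hMA.act (by linarith [le_abs_self MA])

end Vale.Agent.P150.Beta1.Stability
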