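import Vale.Agent.P150.Beta1.Stability.TestSet

/-!
# The relations at one configuration

The five scalars tested by the rule, the three tested against `δ`, and what they give pointwise
where the cutoff does not vanish.
-/

namespace Vale.Agent.P150.Beta1.Stability

open Finset Function Real Matrix
open Vale.Agent.P150.Beta1.Algebra Vale.Agent.P150.Beta1.Rule

variable {n : ℕ} (β : ℝ) (J : Fin n → Fin n → ℝ) (y γ : Fin n → ℝ) (K : ℕ)

/-- The increment before the last. -/
noncomputable def fInc0 : (Fin n → Bool) → Fin n → ℝ := fun z => ampD β J y (spins z) K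

/-- The overlap of the TAP point with `δ`. -/
noncomputable def sXi : (Fin n → Bool) → ℝ := dotObs (fTap γ) (fGap β J y γ K)

/-- The TAP point against the last increment. -/
noncomputable def sR1 : (Fin n → Bool) → ℝ := dotObs (fTap γ) (fInc β J y K)

/-- `δ` against the last increment. -/
noncomputable def sR2 : (Fin n → Bool) → ℝ := dotObs (fGap β J y γ K) (fInc β J y K)

/-- `δ` against the increment before. -/
noncomputable def sR3 : (Fin n → Bool) → ℝ := dotObs (fGap β J y γ K) (fInc0 β J y K)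

/-- The drop of the squared norms. -/
noncomputable def sDrop : (Fin n → Bool) → ℝ := fun z =>
  qav (ampA β J y (spins z) (K + 1)) - qav (ampA β J y (spins z) (K + 2))

/-- `J δ` against the last increment, less its prediction. -/
noncomputable def sR4 : (Fin n → Bool) → ℝ := fun z =>
  dotObs (fJGap β J y γ K) (fInc β J y K) z
    - onsager β (ampA β J y (spins z) (K + 2)) * sDrop β J y K z

/-- The defect of the top scalar. -/
noncomputable def sR5 : (Fin n → Bool) → ℝ := fun z =>
  ampT β J y (spins z) (K + 1) - sDrop β J y K z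

/-- The main part of the residual of a test field. -/
noncomputable def sTest (v : (Fin n → Bool) → Fin n → ℝ) (X : (Fin n → Bool) → Expr (Fin n)) :
    (Fin n → Bool) → ℝ :=
  fun z => dotObs v (fGap β J y γ K) z - traceObs β J y γ K X z

variable {β J y γ K} {C κ θ Λ R r : ℝ} {m : ℕ} {F : (Fin n → Bool) → ℝ}

lemma qav_split [Nonempty (Fin n)] (x : Fin n → ℝ) (k : ℕ) : qav (ampA β J y x k)
    = qav (gap β J y γ x k) + 2 * (avg fun i => tanh (γ i) * gap β J y γ x k i) + qav (tanhv γ) := by
  simp only [qav, avg, gap, tanhv, ← mul_div_assoc, mul_sum, ← add_div, ← sum_add_distrib]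
  exact congrArg (· / _) (sum_congr rfl fun i _ => by ring)

lemma actSub {K' L : ℝ} {X Y : Matrix (Fin n) (Fin n) ℝ} (hX : Act K' X) (hY : Act L Y) :
    Act (2 * (K' + L)) (X - Y) := by
  rw [sub_eq_add_neg]
  refine hX.add ⟨fun a => ?_, fun a => ?_⟩
  · simpa [Matrix.neg_mulVec] using hY.1 a
  · simpa [Matrix.neg_mulVec] using hY.2 a

/-- All multipliers are slow. -/
theorem exists_slow (C Λ R κ : ℝ) (β : ℝ) (K : ℕ) : ∃ A, 0 ≤ A ∧ ∀ (θ r : ℝ) (m n : ℕ)
    (J : Fin n → Fin n → ℝ) (y γ : Fin n → ℝ) (F : (Fin n → Bool) → ℝ)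
    (_ : Setting β C κ θ Λ R r m K J y γ F) (x : Fin n → Bool), Inner β J y γ K (4 * r) x →
    ∀ e ∈ [sXi β J y γ K, sR1 β J y γ K, sR2 β J y γ K, sR3 β J y γ K, sR4 β J y γ K,
      sTest β J y γ K (fGap β J y γ K) (xGap β J y K),
      sTest β J y γ K (fInc β J y K) (xInc β J y K),
      sTest β J y γ K (fField β J y γ K) (xField β J y K)],
      |e x| ≤ A ∧ scGrad e x ≤ A := by
  obtain ⟨W, hW1, hW⟩ := exists_fields C Λ R β K
  obtain ⟨T, hT⟩ := exists_trace_bound κ Λ R W
  set V := W + 4 * |R| + 4 with hV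
  set A := 18 * V ^ 2 + V + 2 * (1 * (18 * V ^ 2) + 1 * |T|) + |T|
    + 2 * (1 * (18 * V ^ 2) + 1 * (2 * 4 * |R| + 2 * 1 * (2 * (1 * |R| + 1 * |R|)))) + 2 with hA
  refine ⟨A, by positivity, fun θ r m n J y γ F H x hx e he => ?_⟩
  have := H.nonempty
  obtain ⟨fT, fG, fJ, fI, fF⟩ := hW κ θ r m n J y γ F H x
  have fF := fF hx
  have hr := H.reg x
  have hR0 : 0 ≤ R := act_nonneg hr.actG
  have eR : |R| = R := abs_of_nonneg hR0
  have hV0 : 0 ≤ V := by positivity
  have hn : (0 : ℝ) < n := by exact_mod_cast H.npos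
  have hWV : W ≤ V := by rw [hV, eR]; linarith
  have hq : ∀ {v : (Fin n → Bool) → Fin n → ℝ} {X : (Fin n → Bool) → Expr (Fin n)},
      FieldOK J K W v X x → qav (v x) ≤ V := fun {v X} h => by
    refine le_trans ?_ hWV
    rw [qav, avg, Fintype.card_fin, div_le_iff₀ hn]
    exact h.norm
  have hI0a : qav (fInc0 β J y K x) ≤ V := by
    refine le_trans ?_ (show (4 : ℝ) ≤ V by rw [hV, eR]; linarith)
    rw [qav, avg, Fintype.card_fin, div_le_iff₀ hn]
    refine (sum_le_sum fun i _ => sq_abs_le (b := 2) ((abs_sub _ _).trans ?_)).trans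
      (le_of_eq (by simp; ring))
    linarith [abs_ampA_le β J y x K i, abs_ampA_le β J y x (K + 1) i]
  have hI0b : Act V (jac (fInc0 β J y K) x) := by
    have e : fInc0 β J y K = fun z i => (fun z => gap β J y γ (spins z) K) z i
        - (fun z => gap β J y γ (spins z) (K + 1)) z i := by
      funext z i; simp only [fInc0, gap, ampD]; ring
    rw [e, jac_sub_fields]
    exact act_mono (actSub (hr.gap K (by omega)) (hr.gap (K + 1) (by omega)))
      (by rw [hV, eR]; linarith)
  have hdot : ∀ {a b : (Fin n → Bool) → Fin n → ℝ}, qav (a x) ≤ V → qav (b x) ≤ V →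
      Act V (jac a x) → Act V (jac b x) →
      |dotObs a b x| ≤ V ∧ scGrad (dotObs a b) x ≤ 18 * V ^ 2 :=
    fun ha hb hA hB => dotObs_bounds _ _ x hV0 ha hb hA hB
  have htest : ∀ {v : (Fin n → Bool) → Fin n → ℝ} {X : (Fin n → Bool) → Expr (Fin n)},
      FieldOK J K W v X x → |sTest β J y γ K v X x| ≤ V + |T| ∧
        scGrad (sTest β J y γ K v X) x ≤ 2 * (1 * (18 * V ^ 2) + 1 * |T|) := by
    intro v X h
    obtain ⟨t1, t2⟩ := hT β C θ r m K n J y γ F H X x hx h.mlip
    obtain ⟨d1, d2⟩ := hdot (hq h) (hq fG) (act_mono h.act hWV) (act_mono fG.act hWV)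
    refine ⟨(abs_sub _ _).trans (add_le_add d1 (t1.trans (le_abs_self T))), ?_⟩
    have e : sTest β J y γ K v X = fun z => 1 * dotObs v (fGap β J y γ K) z
        + -1 * traceObs β J y γ K X z := by
      funext z; simp only [sTest]; ring
    rw [e]
    refine (scGrad_add_le _ _ x _ _).trans ?_
    rw [neg_sq, one_pow]
    gcongr
    exact t2.trans (le_abs_self T)
  have n1 : 0 ≤ 18 * V ^ 2 := by positivity
  have n2 := abs_nonneg T
  simp only [List.mem_cons, List.not_mem_nil, or_false] at he
  have fin : ∀ {a b : ℝ}, |e x| ≤ a → scGrad e x ≤ b →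
      a ≤ V + |T| + 2 → b ≤ 18 * V ^ 2 + 2 * (1 * (18 * V ^ 2) + 1 * |T|)
        + 2 * (1 * (18 * V ^ 2) + 1 * (2 * 4 * |R| + 2 * 1 * (2 * (1 * |R| + 1 * |R|)))) →
      |e x| ≤ A ∧ scGrad e x ≤ A := fun {a b} ha hb ha' hb' =>
    ⟨ha.trans (ha'.trans (by rw [hA]; linarith [abs_nonneg R])),
      hb.trans (hb'.trans (by rw [hA]; linarith))⟩
  rcases he with rfl | rfl | rfl | rfl | rfl | rfl | rfl | rfl
  · obtain ⟨a, b⟩ := hdot (hq fT) (hq fG) (act_mono fT.act hWV) (act_mono fG.act hWV)
    exact fin a b (by linarith) (by linarith [abs_nonneg R])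
  · obtain ⟨a, b⟩ := hdot (hq fT) (hq fI) (act_mono fT.act hWV) (act_mono fI.act hWV)
    exact fin a b (by linarith) (by linarith [abs_nonneg R])
  · obtain ⟨a, b⟩ := hdot (hq fG) (hq fI) (act_mono fG.act hWV) (act_mono fI.act hWV)
    exact fin a b (by linarith) (by linarith [abs_nonneg R])
  · obtain ⟨a, b⟩ := hdot (hq fG) hI0a (act_mono fG.act hWV) hI0b
    exact fin a b (by linarith) (by linarith [abs_nonneg R])
  · obtain ⟨a, b⟩ := hdot (hq fJ) (hq fI) (act_mono fJ.act hWV) (act_mono fI.act hWV)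
    have hB : ∀ z, |onsager β (ampA β J y (spins z) (K + 2))| ≤ 1 := fun z =>
      (abs_onsager_le β (abs_ampA_le β J y z _)).trans H.hβ
    have hD : ∀ z, |sDrop β J y K z| ≤ 2 := fun z => by
      obtain ⟨a0, a1⟩ := qav_mem (abs_ampA_le β J y z (K + 1))
      obtain ⟨b0, b1⟩ := qav_mem (abs_ampA_le β J y z (K + 2))
      rw [sDrop, abs_le]
      constructor <;> linarith
    refine fin (a := V + 2) ?_ (b := 2 * (1 * (18 * V ^ 2)
      + 1 * (2 * 4 * |R| + 2 * 1 * (2 * (1 * |R| + 1 * |R|))))) ?_ (by linarith) (by linarith)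
    · refine (abs_sub _ _).trans (add_le_add a ?_)
      rw [abs_mul]
      exact (mul_le_of_le_one_left (abs_nonneg _) (hB x)).trans (hD x)
    · have e : sR4 β J y γ K = fun z => 1 * dotObs (fJGap β J y γ K) (fInc β J y K) z
          + -1 * (onsager β (ampA β J y (spins z) (K + 2)) * sDrop β J y K z) := by
        funext z; simp only [sR4]; ring
      rw [e]
      refine (scGrad_add_le _ _ x _ _).trans ?_
      rw [neg_sq, one_pow, eR]
      gcongr
      refine (scGrad_mul _ _ x hB hD).trans ?_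
      have e1 : scGrad (fun z => onsager β (ampA β J y (spins z) (K + 2))) x ≤ R := by
        rw [show (fun z => onsager β (ampA β J y (spins z) (K + 2)))
          = fun z => β ^ 2 + -β ^ 2 * qav (ampA β J y (spins z) (K + 2)) by
            funext z; rw [onsager]; ring, scGrad_affine, neg_sq]
        exact (mul_le_of_le_one_left (scGrad_nonneg _ _) (pow_le_one₀ (sq_nonneg β) H.hβ)).trans
          (hr.qav _ le_rfl)
      have e2 : scGrad (fun z => sDrop β J y K z) x ≤ 2 * (1 * R + 1 * R) := by
        rw [show (fun z => sDrop β J y K z) = fun z => 1 * qav (ampA β J y (spins z) (K + 1))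
          + -1 * qav (ampA β J y (spins z) (K + 2)) by funext z; simp only [sDrop]; ring]
        refine (scGrad_add_le _ _ x _ _).trans ?_
        rw [neg_sq, one_pow]
        gcongr
        · exact hr.qav _ (by omega)
        · exact hr.qav _ le_rfl
      linarith
  all_goals first
    | (obtain ⟨a, b⟩ := htest fG; exact fin a b (by linarith) (by linarith [abs_nonneg R]))
    | (obtain ⟨a, b⟩ := htest fI; exact fin a b (by linarith) (by linarith [abs_nonneg R]))
    | (obtain ⟨a, b⟩ := htest fF; exact fin a b (by linarith) (by linarith [abs_nonneg R]))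

/-- A trace against its free value. -/
lemma trace_free (H : Setting β C κ θ Λ R r m K J y γ F) {x : Fin n → Bool}
    (hB : Boxed β J y γ (spins x) K κ θ) {W : ℝ} (X : (Fin n → Bool) → Expr (Fin n))
    (hd : (X x).deg ≤ K + 4) (hs : (X x).size ≤ W) :
    |traceObs β J y γ K X x
        - avg (resFree β (stabFree β J y γ (spins x) K)
            (.mul (X x) (stabA β J y (spins x) K)))| ≤ √(C * (W * stabSize β K) ^ 2) / √n := by
  obtain ⟨sA, -, -⟩ := size_stab β J y x K
  have := H.deg
  have := deg_stabA β J y (spins x) K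
  have hd := resolvent_diag_le β J H.resolvent hB.shift (fun l => (hB.gpos l).le) hB.gκ hB.edge
    hB.adm.op (goodWords_nonneg H.words) (Expr.mul (X x) (stabA β J y (spins x) K))
    (by simp only [Expr.deg]; omega)
  have hn : (0 : ℝ) < n := by exact_mod_cast H.npos
  have hsz : (Expr.mul (X x) (stabA β J y (spins x) K)).size ≤ W * stabSize β K :=
    mul_le_mul hs sA (Expr.size_nonneg _) ((Expr.size_nonneg _).trans hs)
  have h := abs_sum_le_sqrt (u := fun _ : Fin n => (1 : ℝ)) (hd.trans (mul_le_mul_of_nonneg_left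
    (pow_le_pow_left₀ (Expr.size_nonneg _) hsz 2) (goodWords_nonneg H.words)))
  simp only [one_mul, one_pow, sum_const, card_univ, Fintype.card_fin, nsmul_one, Expr.mat,
    sum_sub_distrib] at h
  simp only [traceObs, avg, Fintype.card_fin, stabFree, stabS, ← sub_div]
  rw [abs_div, abs_of_pos hn, div_le_div_iff₀ hn (Real.sqrt_pos.2 hn)]
  refine (mul_le_mul_of_nonneg_right h (Real.sqrt_nonneg _)).trans (le_of_eq ?_)
  rw [mul_assoc, Real.mul_self_sqrt hn.le]

/-- The pointwise facts where the cutoff is supported. -/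
theorem relations (H : Setting β C κ θ Λ R r m K J y γ F) {W : ℝ} (x : Fin n → Bool)
    (hc : Close β J y γ (spins x) K (2 * r))
    (hG : (xGap β J y K x).deg ≤ K + 4 ∧ (xGap β J y K x).size ≤ W)
    (hI : (xInc β J y K x).deg ≤ K + 4 ∧ (xInc β J y K x).size ≤ W)
    (hF : (xField β J y K x).deg ≤ K + 4 ∧ (xField β J y K x).size ≤ W) :
    let E := stabE β J y γ (spins x) K ^ 2 + stabEta β J y γ (spins x) K ^ 2
    let Sg := sTest β J y γ K (fGap β J y γ K) (xGap β J y K) x ^ 2
      + sTest β J y γ K (fInc β J y K) (xInc β J y K) x ^ 2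
      + sTest β J y γ K (fField β J y γ K) (xField β J y K) x ^ 2
      + sR1 β J y γ K x ^ 2 + sR2 β J y γ K x ^ 2 + sR3 β J y γ K x ^ 2 + sR4 β J y γ K x ^ 2
      + sR5 β J y K x ^ 2 + (√(C * (W * stabSize β K) ^ 2) / √n) ^ 2
    θ ^ 2 * E ≤ 70000 * Sg + 512 * r * sXi β J y γ K x ^ 2 := by
  intro E Sg
  have := H.nonempty
  have hB := H.box x fun j h1 h2 => (hc j h1 h2).trans (by linarith [H.rpos])
  obtain ⟨f1, f2, f3⟩ := free_values β J y γ K x
  set G := stabFree β J y γ (spins x) K
  set c := stabScalar β J y γ (spins x) K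
  set b := β ^ 2 * avg fun i => ampU β J y (spins x) (K + 2) i * G i
  set ν := √(C * (W * stabSize β K) ^ 2) / √n with hνdef
  set qd := qav (gap β J y γ (spins x) (K + 2))
  set qp := qav (gap β J y γ (spins x) (K + 1))
  set ξ := sXi β J y γ K x
  have hr0 := H.rpos
  have hρ2 : √r ^ 2 = r := Real.sq_sqrt hr0.le
  have hT1 := trace_free H hB (xGap β J y K) hG.1 hG.2
  have hT2 := trace_free H hB (xInc β J y K) hI.1 hI.2
  have hT3 := trace_free H hB (xField β J y K) hF.1 hF.2
  rw [f1, ← hνdef] at hT1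
  rw [f2, ← hνdef] at hT2
  rw [f3, ← hνdef] at hT3
  have hξ' : stabXi β J y γ (spins x) K = ξ + sR1 β J y γ K x := by
    simp only [stabXi, ξ, sXi, sR1, dotObs, fTap, fGap, fInc, avg, ← add_div, ← sum_add_distrib]
    exact congrArg (· / _) (sum_congr rfl fun i _ => by simp only [gap, ampD, tanhv]; ring)
  have hdrop : sDrop β J y K x = qp - qd + 2 * sR1 β J y γ K x := by
    rw [sDrop, qav_split (γ := γ) _ (K + 1), qav_split (γ := γ) _ (K + 2)]
    have : (avg fun i => tanh (γ i) * gap β J y γ (spins x) (K + 1) i) = ξ + sR1 β J y γ K x := hξ'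
    have e : (avg fun i => tanh (γ i) * gap β J y γ (spins x) (K + 2) i) = ξ := rfl
    rw [this, e]
    ring
  have hBk : onsager β (ampA β J y (spins x) (K + 2)) = onsager β (tanhv γ) - β ^ 2 * (qd + 2 * ξ) := by
    have h := onsager_gap β J y γ (spins x) (K + 2)
    have e : (avg fun i => tanh (γ i) * gap β J y γ (spins x) (K + 2) i) = ξ := rfl
    rw [e] at h
    linarith
  have hξ : |ξ| ≤ 2 * √r := by
    refine abs_le_of_sq_le_sq ?_ (by positivity)
    rw [mul_pow, hρ2]
    refine (avg_mul_sq_le _ _).trans ((mul_le_mul (qav_tanhv_le γ) (hc (K + 2) (by omega) le_rfl)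
      (qav_nonneg _) zero_le_one).trans ?_)
    linarith
  have hM : (avg fun i => ampA β J y (spins x) (K + 2) i * gap β J y γ (spins x) (K + 2) i)
      = qd + ξ := by
    simp only [qd, ξ, sXi, dotObs, fTap, fGap, qav, avg, ← add_div, ← sum_add_distrib]
    exact congrArg (· / _) (sum_congr rfl fun i _ => by simp only [gap, tanhv]; ring)
  have hz : dotObs (fField β J y γ K) (fGap β J y γ K) x
      = -(onsager β (tanhv γ) * qd)
        + (sR4 β J y γ K x + onsager β (ampA β J y (spins x) (K + 2))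
          * (ampT β J y (spins x) (K + 1) - sR5 β J y K x))
        - onsager β (ampA β J y (spins x) (K + 1)) * (sR2 β J y γ K x + sR3 β J y γ K x)
        + β ^ 2 * (qp + 2 * (ξ + sR1 β J y γ K x)) * (qd + ξ) := by
    have e1 : ∀ i, fField β J y γ K x i * fGap β J y γ K x i
        = -onsager β (tanhv γ) * (gap β J y γ (spins x) (K + 2) i ^ 2)
          + act J (ampD β J y (spins x) (K + 1)) i * gap β J y γ (spins x) (K + 2) i
          + -onsager β (ampA β J y (spins x) (K + 1))
            * (fGap β J y γ K x i * fInc β J y K x i + fGap β J y γ K x i * fInc0 β J y K x i)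
          + (2 * β ^ 2 * stabXi β J y γ (spins x) K + stabDt β J y γ (spins x) K)
            * (ampA β J y (spins x) (K + 2) i * gap β J y γ (spins x) (K + 2) i) := by
      intro i
      have h := field_eq β J y γ (spins x) K H.tap i
      have hA : tanh (ampZ β J y (spins x) (K + 1) i) = ampA β J y (spins x) (K + 2) i := rfl
      rw [hA, theta] at h
      simp only [fField, fJGap, fGap, fInc, fInc0]
      linear_combination gap β J y γ (spins x) (K + 2) i * h
    have e2 : (avg fun i => act J (ampD β J y (spins x) (K + 1)) i * gap β J y γ (spins x) (K + 2) i)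
        = dotObs (fJGap β J y γ K) (fInc β J y K) x := by
      simp only [dotObs, fJGap, fInc, fGap, avg]
      refine congrArg (· / _) ?_
      simp only [mul_comm _ (gap β J y γ (spins x) (K + 2) _), mul_comm (act J (gap _ _ _ _ _ _) _)]
      exact sum_mul_act_comm H.words.1 _ _
    have e3 : dotObs (fField β J y γ K) (fGap β J y γ K) x
        = -onsager β (tanhv γ) * qd
          + dotObs (fJGap β J y γ K) (fInc β J y K) x
          + -onsager β (ampA β J y (spins x) (K + 1)) * (sR2 β J y γ K x + sR3 β J y γ K x)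
          + (2 * β ^ 2 * stabXi β J y γ (spins x) K + stabDt β J y γ (spins x) K) * (qd + ξ) := by
      rw [← e2, ← hM]
      simp only [sR2, sR3, dotObs, qd, qav, avg, ← mul_div_assoc, mul_sum, mul_add, ← add_div,
        ← sum_add_distrib]
      exact congrArg (· / _) (sum_congr rfl fun i _ => by rw [e1 i]; ring)
    rw [e3, hξ', stabDt, sR4, sR5]
    ring
  have hBs : |onsager β (tanhv γ)| ≤ 1 := by
    obtain ⟨b0, b1⟩ := onsager_tanhv_mem β γ
    rw [abs_of_nonneg b0]; exact b1.trans H.hβ
  have hcl := closing (τ := β ^ 2) (b := b) (c := c) (Y := stabY β G J y (spins x) K)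
    (T := ampT β J y (spins x) (K + 1)) (σ := β ^ 2 * avg G) (Bs := onsager β (tanhv γ))
    (Bk := onsager β (ampA β J y (spins x) (K + 2)))
    (Bp := onsager β (ampA β J y (spins x) (K + 1))) (ξ := ξ) (qd := qd) (qp := qp)
    (r1 := sR1 β J y γ K x) (r2 := sR2 β J y γ K x) (r3 := sR3 β J y γ K x)
    (r4 := sR4 β J y γ K x) (r5 := sR5 β J y K x)
    (eδ := sTest β J y γ K (fGap β J y γ K) (xGap β J y K) x)
    (ed := sTest β J y γ K (fInc β J y K) (xInc β J y K) x)
    (ev := sTest β J y γ K (fField β J y γ K) (xField β J y K) x)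
    (z := dotObs (fField β J y γ K) (fGap β J y γ K) x) (ν := ν) (ρ := √r)
    (sq_nonneg β) H.hβ H.hθ hB.slope_nonneg hB.slope_le hBs
    ((abs_onsager_le β (abs_ampA_le β J y x _)).trans H.hβ)
    ((abs_onsager_le β (abs_ampA_le β J y x _)).trans H.hβ) (Real.sqrt_nonneg r)
    (Real.sqrt_le_one.2 (by linarith [H.rle])) (by positivity) (qav_nonneg _)
    (by rw [hρ2]; exact (hc _ (by omega) le_rfl).trans (by linarith))
    (qav_nonneg _) (by rw [hρ2]; exact (hc _ (by omega) (by omega)).trans (by linarith))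
    hξ rfl hBk (by rw [sR5, hdrop]) hz ?_ ?_ ?_
  · obtain ⟨h1, h2⟩ := hcl
    set S := |sTest β J y γ K (fGap β J y γ K) (xGap β J y K) x|
      + |sTest β J y γ K (fInc β J y K) (xInc β J y K) x|
      + |sTest β J y γ K (fField β J y γ K) (xField β J y K) x| + |sR1 β J y γ K x|
      + |sR2 β J y γ K x| + |sR3 β J y γ K x| + |sR4 β J y γ K x| + |sR5 β J y K x| + ν
    have hν0 : 0 ≤ ν := by positivity
    have hS0 : 0 ≤ S := by positivity
    have hS : S ^ 2 ≤ 9 * Sg := by
      have h := sq_sum_le_card_mul_sum_sq (s := (univ : Finset (Fin 9)))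
        (f := ![|sTest β J y γ K (fGap β J y γ K) (xGap β J y K) x|,
          |sTest β J y γ K (fInc β J y K) (xInc β J y K) x|,
          |sTest β J y γ K (fField β J y γ K) (xField β J y K) x|, |sR1 β J y γ K x|,
          |sR2 β J y γ K x|, |sR3 β J y γ K x|, |sR4 β J y γ K x|, |sR5 β J y K x|, ν])
      simp only [Fin.sum_univ_succ, Fin.sum_univ_zero, Matrix.cons_val_zero, Matrix.cons_val_succ,
        sq_abs, card_univ, Fintype.card_fin, add_zero, ← add_assoc] at h
      simpa only [Nat.cast_ofNat, S, Sg] using h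
    have hE2 : stabE β J y γ (spins x) K ^ 2 ≤ 4 * S ^ 2 := by
      rw [← sq_abs, show 4 * S ^ 2 = (2 * S) ^ 2 by ring]
      exact pow_le_pow_left₀ (abs_nonneg _) h1 2
    have hθ1 : θ ≤ 1 := by linarith [hB.slope_le, hB.slope_nonneg]
    have hEta : θ ^ 2 * stabEta β J y γ (spins x) K ^ 2 ≤ 7200 * S ^ 2 + 512 * r * ξ ^ 2 := by
      have h3 := pow_le_pow_left₀ (mul_nonneg H.hθ.le (abs_nonneg _)) h2 2
      rw [mul_pow, sq_abs] at h3
      refine h3.trans ?_
      refine add_sq_le.trans (le_of_eq ?_)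
      rw [mul_pow, mul_pow (16 * √r), mul_pow 16, sq_abs, hρ2]
      ring
    have hθ2 : θ ^ 2 * stabE β J y γ (spins x) K ^ 2 ≤ 4 * S ^ 2 :=
      (mul_le_of_le_one_left (sq_nonneg _) (pow_le_one₀ H.hθ.le hθ1)).trans hE2
    have hSg : 0 ≤ Sg := by positivity
    simp only [E]
    linarith
  · rw [abs_sub_comm] at hT1
    simp only [sTest]
    rw [show dotObs (fGap β J y γ K) (fGap β J y γ K) x = qd by
      simp only [dotObs, qd, qav, fGap, sq]]
    rwa [show qd - traceObs β J y γ K (xGap β J y K) x - (qd - c * b)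
      = c * b - traceObs β J y γ K (xGap β J y K) x by ring]
  · rw [abs_sub_comm] at hT2
    simp only [sTest]
    rw [show dotObs (fInc β J y K) (fGap β J y γ K) x = sR2 β J y γ K x by
      simp only [dotObs, sR2, mul_comm]]
    rwa [show ∀ a s t : ℝ, a - s - (a - t) = t - s from fun a s t => by ring]
  · rw [abs_sub_comm] at hT3
    simp only [sTest]
    rwa [show ∀ a s t : ℝ, a - s - (a - t) = t - s from fun a s t => by ring]

end Vale.Agent.P150.Beta1.Stability
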