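import Vale.Agent.P150.Beta1.Statements
import Vale.Agent.P150.Beta1.Stability.Residual

/-!
# The rule applied to a test field

Under the rule, a test field supported near the TAP point pairs with `δ = ampA (K+2) - tanh γ` as
the trace against `A' S` and the main term predict, up to the Dirichlet energy of the tilt.
-/

namespace Vale.Agent.P150.Beta1.Stability

open Finset Function Real Matrix
open Vale.Agent.P150.Beta1.Algebra Vale.Agent.P150.Beta1.Rule

variable {ι : Type*} [Fintype ι] [DecidableEq ι]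

lemma tdir_nonneg {J : ι → ι → ℝ} {y : ι → ℝ} {F : (ι → Bool) → ℝ} (hsymm : ∀ i j, J i j = J j i)
    (hdiag : ∀ i, J i i = 0) (hF : ∀ x, 0 < F x) : 0 ≤ tdir (gibbs J y) F := by
  refine div_nonneg ?_ (meanF_pos (fun x => gibbs_pos x) hF).le
  rw [dirichlet_eq hsymm hdiag]
  exact sum_nonneg fun i _ => sum_nonneg fun x _ => mul_nonneg (gibbs_pos x).le (sq_nonneg _)

/-- Pointwise: the traces of the rule against the prediction, and the sizes of the test fields. -/
lemma exists_point (β C κ : ℝ) (hκ : 0 < κ) (hβ : β ^ 2 ≤ 1) (K : ℕ) : ∃ C1, 0 ≤ C1 ∧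
    ∀ (ι : Type) [Fintype ι] [DecidableEq ι] [Nonempty ι] (m : ℕ) (J : ι → ι → ℝ) (y γ : ι → ℝ)
      (θ : ℝ) (x : ι → Bool) (w : (ι → Bool) → ι → ℝ), 2 * K + 6 ≤ m → GoodWords β m C J →
      GoodResolvent β κ m C J → Boxed β J y γ (spins x) K κ θ →
      (∀ j, Boxed β J y γ (spins (flip j x)) K κ θ) →
      testSq (psiOne β J y γ K w) x ≤ C1 * testSq w x ∧
      testSq (psiZero β J y γ K w) x ≤ C1 * testSq w x ∧
      |tracePair (ampL β J y (spins x) (K + 1)) (psiOne β J y γ K w) x
        + tracePair (ampL β J y (spins x) K) (psiZero β J y γ K w) x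
        - (tracePair ((stabA β J y (spins x) K).mat J * stabS β J y γ (spins x) K) w x
          + ∑ i, stabH β J y γ (spins x) K i * resP β J y γ (spins x) K (w x) i
              * (β ^ 2 * stabScalar β J y γ (spins x) K * stabFree β J y γ (spins x) K i))|
        ≤ C1 * √(testSq w x) := by
  obtain ⟨R, hR1, hR⟩ := exists_regular β C K
  obtain ⟨B, hB0, hBg⟩ := exists_scGrad_ons β C (K + 1)
  set W := (1 + (√(max C 1) + 1) * (2 / κ)) ^ 2 with hW
  set Cq := 2 * ((2 / κ) ^ 2 + W ^ 2 * R) with hCq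
  set S := stabSize β K
  set E := 2 * √(C * S ^ 4) * √W + √(R * W * R) * √W
    + 2 * √(2 * (4 * ((2 * C + C ^ 2) * S ^ 4 + R * (2 / κ) ^ 2 * (C * S ^ 2))) + 2 * (R * W * R))
      * √(2 * 1 + 2 * (max C 1 + 1) * 2 * Cq) with hE
  set KL := max C 1 ^ (K + 2) * (lSize β (K + 1) + lSize β K) ^ 2 with hKL
  set T := 2 * (max C 1 * Cq + (2 + 20 * B) * Cq) with hT
  refine ⟨max (max T ((2 + 20 * B) * Cq)) (E + 2 * (3 * √(B * KL * Cq))),
    le_max_of_le_left (le_max_of_le_left (by positivity)),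
    fun ι _ _ _ m J y γ θ x w hm hG hGR hBx hBf => ?_⟩
  have hn : (1 : ℝ) ≤ Fintype.card ι := by exact_mod_cast Fintype.card_pos
  have hr := hR ι m J y γ x hm hG
  have hq := (q_bounds w hG hβ hr hBx hBf).1
  rw [← hW, ← hCq] at hq
  set q := qObs β J y γ K w
  set s := fun z => -onsager β (ampA β J y (spins z) (K + 1))
  have hs1 : s x ^ 2 ≤ 1 :=
    (neg_sq_le (abs_onsager_le β (abs_ampA_le β J y x _))).trans (pow_le_one₀ (sq_nonneg β) hβ)
  have hsg : scGrad s x ≤ B := (scGrad_neg _ x).trans_le (hBg ι m J y x (by omega) hG)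
  have hsd : ∑ j, deriv2 j s x ^ 2 ≤ B :=
    (le_mul_of_one_le_left (sum_nonneg fun _ _ => sq_nonneg _) hn).trans hsg
  have hsq : testSq (fun z i => s z * q z i) x ≤ (2 + 20 * B) * (Cq * testSq w x) :=
    (testSq_scalar_mul s q x).trans (mul_le_mul (by linarith) hq (testSq_nonneg _ _) (by positivity))
  have hJq : testSq (fun z i => act J (q z) i) x ≤ max C 1 * (Cq * testSq w x) := by
    have h := expr_act hG (Expr.coup) (d := 1) (S := 1) le_rfl le_rfl
    simp only [Expr.mat, pow_one, one_pow, mul_one] at h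
    exact (testSq_act_le h q x).trans
      (mul_le_mul_of_nonneg_left hq (zero_le_one.trans (le_max_right C 1)))
  have hT1 : testSq (psiOne β J y γ K w) x ≤ T * testSq w x := by
    refine (testSq_add_le (fun z i => act J (q z) i) (fun z i => s z * q z i) x).trans ?_
    rw [hT]
    linarith
  refine ⟨hT1.trans (mul_le_mul_of_nonneg_right ((le_max_left _ _).trans (le_max_left _ _))
      (testSq_nonneg _ _)),
    hsq.trans ((le_of_eq (by ring)).trans (mul_le_mul_of_nonneg_right
      ((le_max_right _ _).trans (le_max_left _ _)) (testSq_nonneg _ _))), ?_⟩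
  have hS0 : 0 ≤ lSize β (K + 1) + lSize β K := add_nonneg (lSize_nonneg _ _) (lSize_nonneg _ _)
  have hL : ∀ k, k = K ∨ k = K + 1 → Act KL (ampL β J y (spins x) k) := fun k hk => by
    rw [ampL_eq]
    refine act_mono (expr_act hG _ ((Coef.deg_L _ k).trans (by omega : k ≤ K + 2))
      (S := lSize β (K + 1) + lSize β K) ?_) le_rfl
    refine (size_ampL β J y x k).trans ?_
    have := lSize_nonneg β K
    have := lSize_nonneg β (K + 1)
    rcases hk with rfl | rfl <;> linarith
  have hsc : ∀ k, k = K ∨ k = K + 1 →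
      |tracePair (ampL β J y (spins x) k) (fun z i => s z * q z i) x
        - s x * tracePair (ampL β J y (spins x) k) q x| ≤ 3 * √(B * KL * Cq) * √(testSq w x) := by
    intro k hk
    refine (tracePair_scalar (hL k hk) s q x).trans ?_
    rw [mul_assoc (3 : ℝ), ← Real.sqrt_mul (by positivity)]
    refine mul_le_mul_of_nonneg_left (Real.sqrt_le_sqrt ?_) (by norm_num)
    have hK0 : 0 ≤ KL := act_nonneg (hL k hk)
    refine (div_le_self (mul_nonneg (mul_nonneg (scGrad_nonneg _ _) hK0) (testSq_nonneg _ _))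
      hn).trans ?_
    calc scGrad s x * KL * testSq q x ≤ B * KL * (Cq * testSq w x) :=
          mul_le_mul (mul_le_mul_of_nonneg_right hsg hK0) hq (testSq_nonneg _ _)
            (mul_nonneg hB0 hK0)
      _ = B * KL * Cq * testSq w x := by ring
  have e : tracePair (ampL β J y (spins x) (K + 1)) (psiOne β J y γ K w) x
      + tracePair (ampL β J y (spins x) K) (psiZero β J y γ K w) x
      = tracePair ((stabA β J y (spins x) K).mat J) q x
        + (tracePair (ampL β J y (spins x) (K + 1)) (fun z i => s z * q z i) x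
            - s x * tracePair (ampL β J y (spins x) (K + 1)) q x)
        + (tracePair (ampL β J y (spins x) K) (fun z i => s z * q z i) x
            - s x * tracePair (ampL β J y (spins x) K) q x) := by
    have e1 : tracePair (ampL β J y (spins x) (K + 1)) (psiOne β J y γ K w) x
        = tracePair (ampL β J y (spins x) (K + 1) * Matrix.of J) q x
          + tracePair (ampL β J y (spins x) (K + 1)) (fun z i => s z * q z i) x := by
      rw [← tracePair_act]
      exact tracePair_add_right _ (fun z i => act J (q z) i) (fun z i => s z * q z i) x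
    rw [e1, show psiZero β J y γ K w = fun z i => s z * q z i from rfl, stabA_mat, Matrix.mul_add,
      mul_smul_comm, Matrix.mul_one, smul_mul_assoc, Matrix.one_mul, tracePair_add, tracePair_add,
      tracePair_smul, tracePair_smul]
    simp only [s]
    ring
  rw [e]
  have hmain := trace_q_bound w hG hGR hm hβ hr hBx hBf (S := S) le_rfl hW hCq
  rw [← hE] at hmain
  have h1 := hsc (K + 1) (Or.inr rfl)
  have h0 := hsc K (Or.inl rfl)
  have hmax : (E + 2 * (3 * √(B * KL * Cq))) * √(testSq w x)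
      ≤ max (max T ((2 + 20 * B) * Cq)) (E + 2 * (3 * √(B * KL * Cq))) * √(testSq w x) :=
    mul_le_mul_of_nonneg_right (le_max_right _ _) (Real.sqrt_nonneg _)
  refine le_trans ?_ hmax
  rw [abs_le] at hmain h1 h0 ⊢
  constructor <;> linarith

omit [Fintype ι] in
lemma testSq_zero [Fintype ι] {Ψ : (ι → Bool) → ι → ℝ} {x : ι → Bool} (h0 : Ψ x = 0)
    (hj : ∀ j, Ψ (flip j x) = 0) : testSq Ψ x = 0 ∧ ∀ L, tracePair L Ψ x = 0 := by
  have hd : ∀ i j, deriv2 j (fun z => Ψ z i) x = 0 := fun i j => by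
    rw [deriv2_flip]
    simp [h0, hj j]
  constructor
  · simp [testSq, hd, h0]
  · intro L
    simp [tracePair, hd]

/-- The rule for a test field supported near the TAP point. -/
theorem exists_residual {β : ℝ} (hrule : RuleStatement β) (hβ : β ^ 2 ≤ 1) (K : ℕ) :
    ∃ m : ℕ, 2 * K + 6 ≤ m ∧ ∀ C κ, 0 < κ → ∃ C1, 0 ≤ C1 ∧ ∀ (n : ℕ) (J : Fin n → Fin n → ℝ)
      (y γ : Fin n → ℝ) (F : (Fin n → Bool) → ℝ) (θ r : ℝ) (w : (Fin n → Bool) → Fin n → ℝ),
      0 < n → GoodWords β m C J → GoodResolvent β κ m C J → (∀ x, 0 < F x) →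
      (∀ i, γ i + onsager β (tanhv γ) * tanh (γ i) = y i + act J (tanhv γ) i) →
      (∀ x, Close β J y γ (spins x) K r → Boxed β J y γ (spins x) K κ θ) →
      (∀ x, ¬Inner β J y γ K r x → w x = 0 ∧ ∀ j, w (flip j x) = 0) →
        |tmean (gibbs J y) F (fun x => ∑ i, w x i * gap β J y γ (spins x) (K + 2) i
            - tracePair ((stabA β J y (spins x) K).mat J * stabS β J y γ (spins x) K) w x
            - mainTerm β J y γ (spins x) K (w x))|
          ≤ C1 * √(tdir (gibbs J y) F + 1) * √(tmean (gibbs J y) F (testSq w) + 1) := by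
  obtain ⟨m1, hm1⟩ := hrule (K + 1)
  obtain ⟨m0, hm0⟩ := hrule K
  refine ⟨max (max m1 m0) (2 * K + 6), le_max_right _ _, fun C κ hκ => ?_⟩
  obtain ⟨A1, hA1⟩ := hm1 C
  obtain ⟨A0, hA0⟩ := hm0 C
  obtain ⟨P, hP0, hP⟩ := exists_point β C κ hκ hβ K
  refine ⟨(|A1| + |A0|) * √(P + 1) + P, by positivity,
    fun n J y γ F θ r w hn hG hGR hF hT hbox hsupp => ?_⟩
  have : Nonempty (Fin n) := Fin.pos_iff_nonempty.1 hn
  have hρ : ∀ x, 0 < gibbs J y x := fun x => gibbs_pos x
  have hG1 : GoodWords β m1 C J := ⟨hG.1, hG.2.1, hG.2.2.1, fun d l hl => hG.2.2.2 d l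
    (hl.trans ((le_max_left _ _).trans (le_max_left _ _)))⟩
  have hG0 : GoodWords β m0 C J := ⟨hG.1, hG.2.1, hG.2.2.1, fun d l hl => hG.2.2.2 d l
    (hl.trans ((le_max_right _ _).trans (le_max_left _ _)))⟩
  set ν := tmean (gibbs J y) F
  set Ψ1 := psiOne β J y γ K w
  set Ψ0 := psiZero β J y γ K w
  set t1 := fun x => ∑ i, ampD β J y (spins x) (K + 1) i * Ψ1 x i
  set t0 := fun x => ∑ i, ampD β J y (spins x) K i * Ψ0 x i
  set p1 := fun x => tracePair (ampL β J y (spins x) (K + 1)) Ψ1 x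
  set p0 := fun x => tracePair (ampL β J y (spins x) K) Ψ0 x
  set e := fun x => p1 x + p0 x
    - (tracePair ((stabA β J y (spins x) K).mat J * stabS β J y γ (spins x) K) w x
      + ∑ i, stabH β J y γ (spins x) K i * resP β J y γ (spins x) K (w x) i
          * (β ^ 2 * stabScalar β J y γ (spins x) K * stabFree β J y γ (spins x) K i))
  have hzero : ∀ x, ¬Inner β J y γ K r x → (qObs β J y γ K w x = 0 ∧ Ψ1 x = 0 ∧ Ψ0 x = 0)
      ∧ ∀ j, Ψ1 (flip j x) = 0 ∧ Ψ0 (flip j x) = 0 := by
    intro x hx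
    have key : ∀ z, w z = 0 → qObs β J y γ K w z = 0 ∧ Ψ1 z = 0 ∧ Ψ0 z = 0 := fun z hz => by
      have hq : qObs β J y γ K w z = 0 := by simp [qObs, resQ, hz]
      refine ⟨hq, ?_, ?_⟩ <;> funext i <;> simp [Ψ1, Ψ0, psiOne, psiZero, hq, act]
    exact ⟨key x (hsupp x hx).1, fun j => (key _ ((hsupp x hx).2 j)).2⟩
  have hpt : ∀ x, testSq Ψ1 x ≤ P * testSq w x ∧ testSq Ψ0 x ≤ P * testSq w x
      ∧ |e x| ≤ P * √(testSq w x) := by
    intro x
    by_cases hx : Inner β J y γ K r x
    · exact hP (Fin n) _ J y γ θ x w (le_max_right _ _) hG hGR (hbox x hx.1)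
        fun j => hbox _ (hx.2 j)
    · obtain ⟨⟨hq, h1, h0⟩, hj⟩ := hzero x hx
      obtain ⟨z1, l1⟩ := testSq_zero h1 fun j => (hj j).1
      obtain ⟨z0, l0⟩ := testSq_zero h0 fun j => (hj j).2
      obtain ⟨zw, lw⟩ := testSq_zero (hsupp x hx).1 (hsupp x hx).2
      refine ⟨by rw [z1]; exact mul_nonneg hP0 (testSq_nonneg _ _),
        by rw [z0]; exact mul_nonneg hP0 (testSq_nonneg _ _), ?_⟩
      simp [e, p1, p0, l1, l0, lw, zw, (hsupp x hx).1, resP, resQ]
  have hid : ∀ x, ∑ i, w x i * gap β J y γ (spins x) (K + 2) i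
      - tracePair ((stabA β J y (spins x) K).mat J * stabS β J y γ (spins x) K) w x
      - mainTerm β J y γ (spins x) K (w x) = (t1 x - p1 x) + (t0 x - p0 x) + e x := by
    intro x
    by_cases hx : Inner β J y γ K r x
    · have u1 : ∑ i, ampD β J y (spins x) (K + 1) i * (act J (resQ β J y γ (spins x) K (w x)) i
          - onsager β (ampA β J y (spins x) (K + 1)) * resQ β J y γ (spins x) K (w x) i) = t1 x :=
        sum_congr rfl fun i _ => by simp only [Ψ1, psiOne, qObs]; ring
      have u0 : ∑ i, ampD β J y (spins x) K i * (-onsager β (ampA β J y (spins x) (K + 1))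
          * resQ β J y γ (spins x) K (w x) i) = t0 x := rfl
      have u2 : mainTerm β J y γ (spins x) K (w x)
          = ∑ i, stabH β J y γ (spins x) K i * resP β J y γ (spins x) K (w x) i
              * (β ^ 2 * stabScalar β J y γ (spins x) K * stabFree β J y γ (spins x) K i)
            - stabDt β J y γ (spins x) K * (∑ i, stabH β J y γ (spins x) K i
              * resP β J y γ (spins x) K (w x) i * stabG β J y γ (spins x) K i)
            + 2 * β ^ 2 * stabXi β J y γ (spins x) K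
              * ∑ i, resQ β J y γ (spins x) K (w x) i * ampA β J y (spins x) (K + 2) i := by
        rw [mainTerm, mul_sum (a := stabDt β J y γ (spins x) K), ← sum_sub_distrib]
        congr 1
        exact sum_congr rfl fun i _ => by ring
      rw [pairing_eq (hbox x hx.1).adm hT (w x), u1, u0, u2]
      simp only [e]
      ring
    · obtain ⟨⟨hq, h1, h0⟩, hj⟩ := hzero x hx
      obtain ⟨z1, l1⟩ := testSq_zero h1 fun j => (hj j).1
      obtain ⟨z0, l0⟩ := testSq_zero h0 fun j => (hj j).2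
      obtain ⟨zw, lw⟩ := testSq_zero (hsupp x hx).1 (hsupp x hx).2
      simp [t1, t0, e, p1, p0, l1, l0, lw, h1, h0, (hsupp x hx).1, mainTerm, resP, resQ]
  set Ew := ν (testSq w)
  have hEw0 : 0 ≤ Ew := tmean_nonneg hρ hF fun x => testSq_nonneg _ _
  set sD := √(tdir (gibbs J y) F + 1)
  have hsD : 1 ≤ sD := Real.one_le_sqrt.2 (by linarith [tdir_nonneg (y := y) hG.1 hG.2.1 hF])
  have hrt : ∀ Ψ, (∀ x, testSq Ψ x ≤ P * testSq w x) →
      √(ν (testSq Ψ) + 1) ≤ √(P + 1) * √(Ew + 1) := by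
    intro Ψ hΨ
    rw [← Real.sqrt_mul (by linarith)]
    refine Real.sqrt_le_sqrt ?_
    have h := tmean_mono hρ hF hΨ
    rw [tmean_const_mul] at h
    change ν (testSq Ψ) ≤ P * Ew at h
    linarith
  have r1 : |ν (fun x => t1 x - p1 x)| ≤ |A1| * sD * (√(P + 1) * √(Ew + 1)) := by
    refine (le_of_eq (congrArg abs (tmean_sub t1 p1))).trans ((hA1 n J y F Ψ1 hG1 hF).trans ?_)
    exact mul_le_mul (mul_le_mul_of_nonneg_right (le_abs_self _) (Real.sqrt_nonneg _))
      (hrt Ψ1 fun x => (hpt x).1) (Real.sqrt_nonneg _) (by positivity)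
  have r0 : |ν (fun x => t0 x - p0 x)| ≤ |A0| * sD * (√(P + 1) * √(Ew + 1)) := by
    refine (le_of_eq (congrArg abs (tmean_sub t0 p0))).trans ((hA0 n J y F Ψ0 hG0 hF).trans ?_)
    exact mul_le_mul (mul_le_mul_of_nonneg_right (le_abs_self _) (Real.sqrt_nonneg _))
      (hrt Ψ0 fun x => (hpt x).2.1) (Real.sqrt_nonneg _) (by positivity)
  have re : |ν e| ≤ P * √(Ew + 1) :=
    abs_tmean_le_sqrt hρ hF (fun x => testSq_nonneg w x) (fun x => (hpt x).2.2) hP0
  simp only [hid]
  show |ν (fun x => (t1 x - p1 x) + (t0 x - p0 x) + e x)| ≤ _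
  simp only [ν, tmean_add]
  refine (abs_add_three _ _ _).trans ((add_le_add (add_le_add r1 r0) re).trans ?_)
  have : P * √(Ew + 1) ≤ P * sD * √(Ew + 1) :=
    mul_le_mul_of_nonneg_right (le_mul_of_one_le_right hP0 hsD) (Real.sqrt_nonneg _)
  linarith

end Vale.Agent.P150.Beta1.Stability
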