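import Vale.Agent.P150.Beta1.Stability.Rules

/-!
# Tests with a scalar multiplier

A test field whose gradient is an expression up to a bounded error, times a slow scalar: the
residual and the rule become scalar relations at the rate `√((D + 1) / n)`.
-/

namespace Vale.Agent.P150.Beta1.Stability

open Finset Function Real Matrix
open Vale.Agent.P150.Beta1.Algebra Vale.Agent.P150.Beta1.Rule

/-- The rate of the relations. -/
noncomputable def rate (D : ℝ) (n : ℕ) : ℝ := √((D + 1) / n)

lemma rate_scale {D C q a : ℝ} {n : ℕ} (hn : 0 < n) (hD : 0 ≤ D) (hC : 0 ≤ C)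
    (h : |a| ≤ C * √(D + 1) * (√n * q + 1)) : |a / n| ≤ C * (rate D n * (q + rate D n)) := by
  have hn0 : (0 : ℝ) < n := by exact_mod_cast hn
  have h1 : √(D + 1) * √n / n = rate D n := by
    rw [rate, Real.sqrt_div' _ hn0.le, div_eq_div_iff hn0.ne' (Real.sqrt_pos.2 hn0).ne', mul_assoc,
      Real.mul_self_sqrt hn0.le]
  have h2 : √(D + 1) / n ≤ rate D n * rate D n := by
    rw [rate, Real.mul_self_sqrt (by positivity)]
    refine div_le_div_of_nonneg_right ?_ hn0.le
    rw [Real.sqrt_le_left (by linarith)]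
    exact le_self_pow₀ (by linarith) two_ne_zero
  rw [abs_div, abs_of_pos hn0, div_le_iff₀ hn0]
  refine h.trans ?_
  have e : C * √(D + 1) * (√n * q + 1) = C * ((√(D + 1) * √n / n * q + √(D + 1) / n) * n) := by
    field_simp
  rw [e, h1, mul_assoc C]
  refine mul_le_mul_of_nonneg_left (mul_le_mul_of_nonneg_right ?_ hn0.le) hC
  linarith

variable {ι : Type*} [Fintype ι] [DecidableEq ι] {β : ℝ} {J : ι → ι → ℝ} {y γ : ι → ℝ} {K : ℕ}

lemma resQ_smul (x : ι → ℝ) (c : ℝ) (v : ι → ℝ) :
    resQ β J y γ x K (fun i => c * v i) = fun i => c * resQ β J y γ x K v i := by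
  rw [resQ, show (fun i => c * v i) = c • v from rfl, mulVec_smul]
  rfl

lemma mainTerm_smul (x : ι → ℝ) (c : ℝ) (v : ι → ℝ) :
    mainTerm β J y γ x K (fun i => c * v i) = c * mainTerm β J y γ x K v := by
  have hp : ∀ i, resP β J y γ x K (fun i => c * v i) i = c * resP β J y γ x K v i := fun i => by
    simp only [resP, Pi.add_apply, resQ_smul]
    rw [show (fun i => c * resQ β J y γ x K v i) = c • resQ β J y γ x K v from rfl, mulVec_smul,
      Pi.smul_apply, smul_eq_mul, mul_add]
  simp only [mainTerm, hp, resQ_smul, mul_add, mul_sum]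
  congr 1 <;> exact sum_congr rfl fun i _ => by ring

/-- Sizes of a test field with an expression as gradient. -/
lemma field_sizes [Nonempty ι] {C W : ℝ} {m d : ℕ} (hG : GoodWords β m C J)
    {v : (ι → Bool) → ι → ℝ} {X : Expr ι} {x : ι → Bool}
    (hv : ∑ i, v x i ^ 2 ≤ W * Fintype.card ι) (hX : frob (jac v x - X.mat J) ≤ W)
    (hd : X.deg ≤ d) (hs : X.size ≤ W) :
    testSq v x ≤ (W + 2 * (max C 1 ^ d * W ^ 2 + W)) * Fintype.card ι := by
  have h := (expr_act hG X hd hs).add (act_of_frob hX)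
  rw [add_sub_cancel] at h
  rw [testSq_eq, add_mul]
  exact add_le_add hv h.frob_le

lemma sqrt_testSq_le {a T W q : ℝ} {n : ℝ} (hT : 0 ≤ T) (hn : 0 ≤ n) (hW : 0 ≤ W) (hq : 0 ≤ q)
    (h : a ≤ T * (2 * (n * q ^ 2) + 20 * W)) :
    √(a + 1) ≤ (√(2 * T) + √(20 * T * W + 1)) * (√n * q + 1) := by
  have h1 : √(a + 1) ≤ √(2 * T * (n * q ^ 2)) + √(20 * T * W + 1) := by
    refine le_trans (Real.sqrt_le_sqrt (show a + 1 ≤ 2 * T * (n * q ^ 2) + (20 * T * W + 1) by linarith))
      ?_
    refine Real.sqrt_le_iff.2 ⟨by positivity, ?_⟩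
    have e1 := Real.sq_sqrt (show 0 ≤ 2 * T * (n * q ^ 2) by positivity)
    have e2 := Real.sq_sqrt (show 0 ≤ 20 * T * W + 1 by positivity)
    nlinarith [mul_nonneg (Real.sqrt_nonneg (2 * T * (n * q ^ 2))) (Real.sqrt_nonneg (20 * T * W + 1))]
  rw [Real.sqrt_mul (by positivity : (0:ℝ) ≤ 2 * T), Real.sqrt_mul hn, Real.sqrt_sq hq] at h1
  refine h1.trans ?_
  have := mul_nonneg (Real.sqrt_nonneg (20 * T * W + 1)) (mul_nonneg (Real.sqrt_nonneg n) hq)
  nlinarith [Real.sqrt_nonneg (2 * T)]

/-- A test against the distance to the TAP point. -/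
theorem exists_resolvent_test {β : ℝ} (hrule : RuleStatement β) (hβ : β ^ 2 ≤ 1) (K : ℕ) :
    ∃ m : ℕ, 2 * K + 6 ≤ m ∧ ∀ C κ, 0 < κ → ∀ W, 0 ≤ W → ∃ C1, 0 ≤ C1 ∧
      ∀ (n : ℕ) (J : Fin n → Fin n → ℝ) (y γ : Fin n → ℝ) (F : (Fin n → Bool) → ℝ) (θ r : ℝ)
        (s : (Fin n → Bool) → ℝ) (v : (Fin n → Bool) → Fin n → ℝ)
        (X : (Fin n → Bool) → Expr (Fin n)),
      0 < n → GoodWords β m C J → GoodResolvent β κ m C J → (∀ x, 0 < F x) →
      (∀ i, γ i + onsager β (tanhv γ) * tanh (γ i) = y i + act J (tanhv γ) i) →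
      (∀ x, Close β J y γ (spins x) K r → Boxed β J y γ (spins x) K κ θ) →
      (∀ x, ¬Inner β J y γ K r x → s x = 0 ∧ ∀ j, s (flip j x) = 0) →
      (∀ x, scGrad s x ≤ W) →
      (∀ x, Inner β J y γ K r x → ∑ i, v x i ^ 2 ≤ W * n ∧
        frob (jac v x - (X x).mat J) ≤ W ∧ (X x).deg ≤ K + 4 ∧ (X x).size ≤ W) →
        |tmean (gibbs J y) F (fun x => s x *
            ((avg fun i => v x i * gap β J y γ (spins x) (K + 2) i)
              - (avg fun i => ((X x).mat J * (stabA β J y (spins x) K).mat J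
                  * stabS β J y γ (spins x) K) i i)
              - mainTerm β J y γ (spins x) K (v x) / n))|
          ≤ C1 * (rate (tdir (gibbs J y) F) n
            * (√(tmean (gibbs J y) F fun x => s x ^ 2) + rate (tdir (gibbs J y) F) n)) := by
  obtain ⟨m, hm6, hm⟩ := exists_residual hrule hβ K
  refine ⟨m, hm6, fun C κ hκ W hW => ?_⟩
  obtain ⟨A, hA0, hA⟩ := hm C κ hκ
  obtain ⟨R, hR1, hR⟩ := exists_regular β C K
  set KA := R * (2 / κ) ^ 2 with hKA
  set T := W + 2 * (max C 1 ^ (K + 4) * W ^ 2 + W) with hT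
  refine ⟨A * (√(2 * T) + √(20 * T * W + 1)) + 3 * √(W * KA * T) + √(KA * W), by positivity,
    fun n J y γ F θ r s v X hn hG hGR hF hTAP hbox hsupp hsg hfld => ?_⟩
  have : Nonempty (Fin n) := Fin.pos_iff_nonempty.1 hn
  have hρ : ∀ x, 0 < gibbs J y x := fun x => gibbs_pos x
  have hn0 : (0 : ℝ) < n := by exact_mod_cast hn
  have hT0 : 0 ≤ T := by rw [hT]; positivity
  set w := fun x i => s x * v x i with hw
  set Z := fun x => ∑ i, w x i * gap β J y γ (spins x) (K + 2) i
      - tracePair ((stabA β J y (spins x) K).mat J * stabS β J y γ (spins x) K) w x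
      - mainTerm β J y γ (spins x) K (w x)
  set U := fun x => s x * ((avg fun i => v x i * gap β J y γ (spins x) (K + 2) i)
      - (avg fun i => ((X x).mat J * (stabA β J y (spins x) K).mat J
          * stabS β J y γ (spins x) K) i i)
      - mainTerm β J y γ (spins x) K (v x) / n)
  have hw0 : ∀ x, ¬Inner β J y γ K r x → w x = 0 ∧ ∀ j, w (flip j x) = 0 := fun x hx =>
    ⟨funext fun i => by simp [hw, (hsupp x hx).1],
      fun j => funext fun i => by simp [hw, (hsupp x hx).2 j]⟩
  have htest : ∀ x, testSq w x ≤ T * (2 * (n * s x ^ 2) + 20 * W) := by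
    intro x
    by_cases hx : Inner β J y γ K r x
    · obtain ⟨h1, h2, h3, h4⟩ := hfld x hx
      have hv := field_sizes hG (v := v) (by simpa using h1) h2 h3 h4
      rw [Fintype.card_fin, ← hT] at hv
      have hd : (n : ℝ) * ∑ j, deriv2 j s x ^ 2 ≤ W := by
        simpa [scGrad] using hsg x
      calc testSq w x ≤ (2 * s x ^ 2 + 20 * ∑ j, deriv2 j s x ^ 2) * testSq v x :=
            testSq_scalar_mul s v x
        _ ≤ (2 * s x ^ 2 + 20 * ∑ j, deriv2 j s x ^ 2) * (T * n) :=
            mul_le_mul_of_nonneg_left hv (by positivity)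
        _ = T * (2 * (n * s x ^ 2) + 20 * (n * ∑ j, deriv2 j s x ^ 2)) := by ring
        _ ≤ _ := mul_le_mul_of_nonneg_left (by linarith) hT0
    · obtain ⟨h1, h2⟩ := hw0 x hx
      rw [(testSq_zero h1 h2).1]
      positivity
  have hdiff : ∀ x, |(n : ℝ) * U x - Z x| ≤ 3 * √(W * KA * T) + √(KA * W) * √n * |s x| := by
    intro x
    by_cases hx : Inner β J y γ K r x
    · obtain ⟨h1, h2, h3, h4⟩ := hfld x hx
      have hB := hbox x hx.1
      have hr := hR (Fin n) m J y γ x hm6 hG
      have hL : Act KA ((stabA β J y (spins x) K).mat J * stabS β J y γ (spins x) K) :=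
        act_mul hr.actA hB.res_act
      set L := (stabA β J y (spins x) K).mat J * stabS β J y γ (spins x) K
      have hv := field_sizes hG (v := v) (by simpa using h1) h2 h3 h4
      rw [Fintype.card_fin, ← hT] at hv
      have e1 : |tracePair L w x - s x * tracePair L v x| ≤ 3 * √(W * KA * T) := by
        refine (tracePair_scalar hL s v x).trans (mul_le_mul_of_nonneg_left
          (Real.sqrt_le_sqrt ?_) (by norm_num))
        rw [Fintype.card_fin, div_le_iff₀ hn0]
        calc scGrad s x * KA * testSq v x ≤ W * KA * (T * n) :=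
              mul_le_mul (mul_le_mul_of_nonneg_right (hsg x) (act_nonneg hL)) hv (testSq_nonneg _ _)
                (mul_nonneg hW (act_nonneg hL))
          _ = W * KA * T * n := by ring
      have e2 : |tracePair L v x - ∑ i, ((X x).mat J * L) i i| ≤ √(KA * W) * √n := by
        rw [tracePair_eq_trace, ← sum_sub_distrib]
        have h := abs_sum_le_sqrt (u := fun _ : Fin n => (1 : ℝ))
          ((diag_mul_sq_le hL (jac v x - (X x).mat J)).trans
            (mul_le_mul_of_nonneg_left h2 (act_nonneg hL)))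
        simp only [one_mul, one_pow, sum_const, card_univ, Fintype.card_fin, nsmul_one,
          Matrix.sub_mul, Matrix.sub_apply] at h
        exact h
      have e3 : (n : ℝ) * U x - Z x = (tracePair L w x - s x * tracePair L v x)
          + s x * (tracePair L v x - ∑ i, ((X x).mat J * L) i i) := by
        have e4 : ∑ i, w x i * gap β J y γ (spins x) (K + 2) i
            = s x * ∑ i, v x i * gap β J y γ (spins x) (K + 2) i := by
          rw [mul_sum]; exact sum_congr rfl fun i _ => by simp only [w]; ring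
        have e5 : mainTerm β J y γ (spins x) K (w x) = s x * mainTerm β J y γ (spins x) K (v x) :=
          mainTerm_smul (spins x) (s x) (v x)
        have e6 : ∑ i, ((X x).mat J * L) i i = ∑ i, ((X x).mat J * (stabA β J y (spins x) K).mat J
            * stabS β J y γ (spins x) K) i i := by
          simp only [L, Matrix.mul_assoc]
        rw [e6]
        simp only [U, Z, e4, e5, avg, Fintype.card_fin, L]
        field_simp
        ring
      rw [e3]
      refine (abs_add_le _ _).trans (add_le_add e1 ?_)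
      rw [abs_mul, mul_comm]
      exact mul_le_mul_of_nonneg_right e2 (abs_nonneg _)
    · obtain ⟨h1, h2⟩ := hw0 x hx
      have h3 := (hsupp x hx).1
      simp only [U, Z, h1, (testSq_zero h1 h2).2, h3, mainTerm, resP, resQ, Pi.zero_apply,
        zero_mul, sum_const_zero, mulVec_zero, add_zero, mul_zero, sub_self, abs_zero]
      positivity
  set D := tdir (gibbs J y) F
  have hD : 0 ≤ D := tdir_nonneg hG.1 hG.2.1 hF
  set q := √(tmean (gibbs J y) F fun x => s x ^ 2) with hq
  have hs0 : 0 ≤ tmean (gibbs J y) F fun x => s x ^ 2 := tmean_nonneg hρ hF fun x => sq_nonneg _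
  have hq0 : 0 ≤ q := Real.sqrt_nonneg _
  have hEw : √(tmean (gibbs J y) F (testSq w) + 1)
      ≤ (√(2 * T) + √(20 * T * W + 1)) * (√n * q + 1) := by
    refine sqrt_testSq_le hT0 hn0.le hW hq0 ?_
    refine (tmean_mono hρ hF htest).trans (le_of_eq ?_)
    rw [hq, Real.sq_sqrt hs0]
    simp only [mul_add, ← mul_assoc, tmean_add, tmean_const_mul, tmean_const hρ hF]
  have hres := (hA n J y γ F θ r w hn hG hGR hF hTAP hbox hw0).trans
    (mul_le_mul_of_nonneg_left hEw (by positivity))
  have hs1 : tmean (gibbs J y) F (fun x => |s x|) ≤ q := by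
    have h := tmean_sqrt_le hρ hF fun x => sq_nonneg (s x)
    simp only [Real.sqrt_sq_eq_abs] at h
    exact h
  have hd : |tmean (gibbs J y) F (fun x => (n : ℝ) * U x - Z x)|
      ≤ 3 * √(W * KA * T) + √(KA * W) * √n * q := by
    refine (abs_tmean_le hρ hF _).trans ((tmean_mono hρ hF hdiff).trans ?_)
    rw [tmean_add, tmean_const hρ hF, tmean_const_mul]
    exact add_le_add le_rfl (mul_le_mul_of_nonneg_left hs1 (by positivity))
  rw [tmean_sub, tmean_const_mul] at hd
  show |tmean (gibbs J y) F U| ≤ _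
  rw [show tmean (gibbs J y) F U = ((n : ℝ) * tmean (gibbs J y) F U) / n by field_simp]
  refine rate_scale hn hD (by positivity) ?_
  have hsD : 1 ≤ √(D + 1) := Real.one_le_sqrt.2 (by linarith)
  have hX : 0 ≤ √n * q := by positivity
  have h1 : 3 * √(W * KA * T) + √(KA * W) * √n * q
      ≤ (3 * √(W * KA * T) + √(KA * W)) * √(D + 1) * (√n * q + 1) := by
    have h4 := mul_le_mul_of_nonneg_right (le_mul_of_one_le_right
      (show 0 ≤ 3 * √(W * KA * T) + √(KA * W) by positivity) hsD) (show 0 ≤ √n * q + 1 by positivity)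
    have := mul_nonneg (show 0 ≤ 3 * √(W * KA * T) by positivity) hX
    have : 0 ≤ √(KA * W) := Real.sqrt_nonneg _
    linarith
  rw [abs_le] at hres hd
  rw [abs_le]
  constructor <;> linarith

/-- A test against one increment. -/
theorem exists_rule_test {β : ℝ} (hrule : RuleStatement β) (K j : ℕ) (hj : j ≤ K + 1) :
    ∃ m : ℕ, 2 * K + 6 ≤ m ∧ ∀ C W, 0 ≤ W → ∃ C1, 0 ≤ C1 ∧
      ∀ (n : ℕ) (J : Fin n → Fin n → ℝ) (y : Fin n → ℝ) (F : (Fin n → Bool) → ℝ)
        (s : (Fin n → Bool) → ℝ) (v : (Fin n → Bool) → Fin n → ℝ)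
        (X : (Fin n → Bool) → Expr (Fin n)),
      0 < n → GoodWords β m C J → (∀ x, 0 < F x) → (∀ x, scGrad s x ≤ W) →
      (∀ x, ∑ i, v x i ^ 2 ≤ W * n ∧ frob (jac v x - (X x).mat J) ≤ W
        ∧ (X x).deg ≤ K + 4 ∧ (X x).size ≤ W) →
        |tmean (gibbs J y) F (fun x => s x *
            ((avg fun i => v x i * ampD β J y (spins x) j i)
              - avg ((Expr.mul (X x) ((ampCoef β J y (spins x)).L j)).free β)))|
          ≤ C1 * (rate (tdir (gibbs J y) F) n
            * (√(tmean (gibbs J y) F fun x => s x ^ 2) + rate (tdir (gibbs J y) F) n)) := by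
  obtain ⟨m0, hm⟩ := hrule j
  refine ⟨max m0 (2 * K + 6), le_max_right _ _, fun C W hW => ?_⟩
  obtain ⟨A, hA⟩ := hm C
  set S := lSize β j
  set KL := max C 1 ^ j * S ^ 2 with hKL
  set T := W + 2 * (max C 1 ^ (K + 4) * W ^ 2 + W) with hT
  set E := √(KL * W) + √(C * (W * S) ^ 2)
  refine ⟨|A| * (√(2 * T) + √(20 * T * W + 1)) + 3 * √(W * KL * T) + E, by positivity,
    fun n J y F s v X hn hG hF hsg hfld => ?_⟩
  have : Nonempty (Fin n) := Fin.pos_iff_nonempty.1 hn
  have hρ : ∀ x, 0 < gibbs J y x := fun x => gibbs_pos x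
  have hn0 : (0 : ℝ) < n := by exact_mod_cast hn
  have hT0 : 0 ≤ T := by rw [hT]; positivity
  have hG0 : GoodWords β m0 C J := ⟨hG.1, hG.2.1, hG.2.2.1,
    fun d l hl => hG.2.2.2 d l (hl.trans (le_max_left _ _))⟩
  set w := fun x i => s x * v x i with hw
  set Z := fun x => ∑ i, ampD β J y (spins x) j i * w x i
    - tracePair (ampL β J y (spins x) j) w x
  set U := fun x => s x * ((avg fun i => v x i * ampD β J y (spins x) j i)
      - avg ((Expr.mul (X x) ((ampCoef β J y (spins x)).L j)).free β))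
  have hv : ∀ x, testSq v x ≤ T * n := fun x => by
    obtain ⟨h1, h2, h3, h4⟩ := hfld x
    have h := field_sizes hG (v := v) (by simpa using h1) h2 h3 h4
    rwa [Fintype.card_fin, ← hT] at h
  have htest : ∀ x, testSq w x ≤ T * (2 * (n * s x ^ 2) + 20 * W) := by
    intro x
    have hd : (n : ℝ) * ∑ j, deriv2 j s x ^ 2 ≤ W := by simpa [scGrad] using hsg x
    calc testSq w x ≤ (2 * s x ^ 2 + 20 * ∑ j, deriv2 j s x ^ 2) * testSq v x :=
          testSq_scalar_mul s v x
      _ ≤ (2 * s x ^ 2 + 20 * ∑ j, deriv2 j s x ^ 2) * (T * n) :=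
          mul_le_mul_of_nonneg_left (hv x) (by positivity)
      _ = T * (2 * (n * s x ^ 2) + 20 * (n * ∑ j, deriv2 j s x ^ 2)) := by ring
      _ ≤ _ := mul_le_mul_of_nonneg_left (by linarith) hT0
  have hdiff : ∀ x, |(n : ℝ) * U x - Z x| ≤ 3 * √(W * KL * T) + E * √n * |s x| := by
    intro x
    obtain ⟨h1, h2, h3, h4⟩ := hfld x
    set L := (ampCoef β J y (spins x)).L j
    have hL : Act KL (ampL β J y (spins x) j) := by
      rw [ampL_eq, hKL]
      exact expr_act hG L (Coef.deg_L _ j) (size_ampL β J y x j)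
    have e1 : |tracePair (ampL β J y (spins x) j) w x - s x * tracePair (ampL β J y (spins x) j) v x|
        ≤ 3 * √(W * KL * T) := by
      refine (tracePair_scalar hL s v x).trans (mul_le_mul_of_nonneg_left
        (Real.sqrt_le_sqrt ?_) (by norm_num))
      rw [Fintype.card_fin, div_le_iff₀ hn0]
      calc scGrad s x * KL * testSq v x ≤ W * KL * (T * n) :=
            mul_le_mul (mul_le_mul_of_nonneg_right (hsg x) (act_nonneg hL)) (hv x)
              (testSq_nonneg _ _) (mul_nonneg hW (act_nonneg hL))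
        _ = W * KL * T * n := by ring
    have e2 : |tracePair (ampL β J y (spins x) j) v x - ∑ i, (Expr.mul (X x) L).free β i|
        ≤ E * √n := by
      have h := abs_sum_le_sqrt (u := fun _ : Fin n => (1 : ℝ))
        ((diag_mul_sq_le hL (jac v x - (X x).mat J)).trans
          (mul_le_mul_of_nonneg_left h2 (act_nonneg hL)))
      have h' := abs_weighted_diag_le hG (Expr.mul (X x) L) (S := W * S) (by
        have := Coef.deg_L (ampCoef β J y (spins x)) j
        have hm2 : 2 * K + 6 ≤ max m0 (2 * K + 6) := le_max_right _ _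
        simp only [Expr.deg, L]
        omega) (mul_le_mul h4 (size_ampL β J y x j) (Expr.size_nonneg _) hW) (fun _ => 1)
      simp only [one_mul, one_pow, sum_const, card_univ, Fintype.card_fin, nsmul_one,
        Matrix.sub_mul, Matrix.sub_apply, sum_sub_distrib] at h h'
      rw [tracePair_eq_trace]
      have e : ∑ i, (Expr.mul (X x) L).mat J i i = ∑ i, ((X x).mat J * ampL β J y (spins x) j) i i := by
        simp only [Expr.mat, ampL_eq, L]
      rw [e] at h'
      rw [abs_le] at h h' ⊢
      simp only [E, add_mul]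
      constructor <;> linarith
    have e3 : (n : ℝ) * U x - Z x
        = (tracePair (ampL β J y (spins x) j) w x - s x * tracePair (ampL β J y (spins x) j) v x)
          + s x * (tracePair (ampL β J y (spins x) j) v x - ∑ i, (Expr.mul (X x) L).free β i) := by
      have e4 : ∑ i, ampD β J y (spins x) j i * w x i
          = s x * ∑ i, v x i * ampD β J y (spins x) j i := by
        rw [mul_sum]; exact sum_congr rfl fun i _ => by simp only [w]; ring
      simp only [U, Z, e4, avg, Fintype.card_fin, L]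
      field_simp
      ring
    rw [e3]
    refine (abs_add_le _ _).trans (add_le_add e1 ?_)
    rw [abs_mul, mul_comm]
    exact mul_le_mul_of_nonneg_right e2 (abs_nonneg _)
  set D := tdir (gibbs J y) F
  have hD : 0 ≤ D := tdir_nonneg hG.1 hG.2.1 hF
  set q := √(tmean (gibbs J y) F fun x => s x ^ 2) with hq
  have hs0 : 0 ≤ tmean (gibbs J y) F fun x => s x ^ 2 := tmean_nonneg hρ hF fun x => sq_nonneg _
  have hq0 : 0 ≤ q := Real.sqrt_nonneg _
  have hEw : √(tmean (gibbs J y) F (testSq w) + 1)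
      ≤ (√(2 * T) + √(20 * T * W + 1)) * (√n * q + 1) := by
    refine sqrt_testSq_le hT0 hn0.le hW hq0 ?_
    refine (tmean_mono hρ hF htest).trans (le_of_eq ?_)
    rw [hq, Real.sq_sqrt hs0]
    simp only [mul_add, ← mul_assoc, tmean_add, tmean_const_mul, tmean_const hρ hF]
  have hres : |tmean (gibbs J y) F Z|
      ≤ |A| * √(D + 1) * ((√(2 * T) + √(20 * T * W + 1)) * (√n * q + 1)) := by
    refine (le_of_eq (congrArg abs (tmean_sub _ _))).trans ((hA n J y F w hG0 hF).trans ?_)
    exact mul_le_mul (mul_le_mul_of_nonneg_right (le_abs_self A) (Real.sqrt_nonneg _)) hEw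
      (Real.sqrt_nonneg _) (by positivity)
  have hs1 : tmean (gibbs J y) F (fun x => |s x|) ≤ q := by
    have h := tmean_sqrt_le hρ hF fun x => sq_nonneg (s x)
    simp only [Real.sqrt_sq_eq_abs] at h
    exact h
  have hd : |tmean (gibbs J y) F (fun x => (n : ℝ) * U x - Z x)|
      ≤ 3 * √(W * KL * T) + E * √n * q := by
    refine (abs_tmean_le hρ hF _).trans ((tmean_mono hρ hF hdiff).trans ?_)
    rw [tmean_add, tmean_const hρ hF, tmean_const_mul]
    exact add_le_add le_rfl (mul_le_mul_of_nonneg_left hs1 (by positivity))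
  rw [tmean_sub, tmean_const_mul] at hd
  show |tmean (gibbs J y) F U| ≤ _
  rw [show tmean (gibbs J y) F U = ((n : ℝ) * tmean (gibbs J y) F U) / n by field_simp]
  refine rate_scale hn hD (by positivity) ?_
  have hsD : 1 ≤ √(D + 1) := Real.one_le_sqrt.2 (by linarith)
  have hX : 0 ≤ √n * q := by positivity
  have hE0 : 0 ≤ E := by positivity
  have h1 : 3 * √(W * KL * T) + E * √n * q
      ≤ (3 * √(W * KL * T) + E) * √(D + 1) * (√n * q + 1) := by
    have h4 := mul_le_mul_of_nonneg_right (le_mul_of_one_le_right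
      (show 0 ≤ 3 * √(W * KL * T) + E by positivity) hsD) (show 0 ≤ √n * q + 1 by positivity)
    have := mul_nonneg (show 0 ≤ 3 * √(W * KL * T) by positivity) hX
    linarith
  rw [abs_le] at hres hd
  rw [abs_le]
  constructor <;> linarith

end Vale.Agent.P150.Beta1.Stability
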