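import Vale.Agent.P150.Beta1.Stability.Cutoff
import Vale.Agent.P150.Beta1.Stability.Closing
import Vale.Agent.P150.Beta1.Stability.TestField

/-!
# The scalar observables of the bootstrap

The multipliers are scalar products and traces of true matrices, so their gradients are of order
`n⁻¹ᐟ²`; the cutoff confines them to the configurations near the TAP point.
-/

namespace Vale.Agent.P150.Beta1.Stability

open Finset Function Real Matrix
open Vale.Agent.P150.Beta1.Algebra Vale.Agent.P150.Beta1.Rule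

/-- The standing hypotheses at one field, with one constant `R` for the gradient data. -/
structure Setting (β C κ θ Λ R r : ℝ) (m K : ℕ) {n : ℕ} (J : Fin n → Fin n → ℝ)
    (y γ : Fin n → ℝ) (F : (Fin n → Bool) → ℝ) : Prop where
  npos : 0 < n
  deg : 2 * K + 6 ≤ m
  hβ : β ^ 2 ≤ 1
  hθ : 0 < θ
  hΛ : 0 ≤ Λ
  words : GoodWords β m C J
  resolvent : GoodResolvent β κ m C J
  op : ∀ a : Fin n → ℝ, ∑ i, act J a i ^ 2 ≤ Λ * ∑ i, a i ^ 2
  Fpos : ∀ x, 0 < F x
  tap : ∀ i, γ i + onsager β (tanhv γ) * tanh (γ i) = y i + act J (tanhv γ) i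
  box : ∀ x, Close β J y γ (spins x) K (4 * r) → Boxed β J y γ (spins x) K κ θ
  reg : ∀ x, Regular β J y γ x K R
  rpos : 0 < r
  rle : 4 * r ≤ 1 / 4
  large : 4 * (3 * (4 * R + 4 * R + 4 * (R * R))) ≤ r ^ 2 * n

variable {β C κ θ Λ R r : ℝ} {m K n : ℕ} {J : Fin n → Fin n → ℝ} {y γ : Fin n → ℝ}
  {F : (Fin n → Bool) → ℝ}

lemma Setting.nonempty (S : Setting β C κ θ Λ R r m K J y γ F) : Nonempty (Fin n) :=
  Fin.pos_iff_nonempty.1 S.npos

lemma Setting.support (S : Setting β C κ θ Λ R r m K J y γ F) (x : Fin n → Bool)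
    (hx : ¬Inner β J y γ K (4 * r) x) :
    cutoff β J y γ K r x = 0 ∧ ∀ j, cutoff β J y γ K r (flip j x) = 0 := by
  have := S.nonempty
  exact cutoff_support S.rpos S.reg (by rw [Fintype.card_fin]; exact S.large) x hx

/-- The multiplier built on an observable. -/
noncomputable def cut (β : ℝ) (J : Fin n → Fin n → ℝ) (y γ : Fin n → ℝ) (K : ℕ) (r : ℝ)
    (e : (Fin n → Bool) → ℝ) : (Fin n → Bool) → ℝ :=
  fun z => cutoff β J y γ K r z * cutoff β J y γ K r z * e z

lemma Setting.cut_support (S : Setting β C κ θ Λ R r m K J y γ F) (e : (Fin n → Bool) → ℝ)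
    (x : Fin n → Bool) (hx : ¬Inner β J y γ K (4 * r) x) :
    cut β J y γ K r e x = 0 ∧ ∀ j, cut β J y γ K r e (flip j x) = 0 :=
  ⟨by simp [cut, (S.support x hx).1], fun j => by simp [cut, (S.support x hx).2 j]⟩

/-- The slope of the cutoff. -/
noncomputable def cutG (R r : ℝ) : ℝ :=
  40 * ((1 / r) ^ 2 * (3 * (4 * R + 4 * R + 4 * (R * R))))

lemma Setting.scGrad_cut (S : Setting β C κ θ Λ R r m K J y γ F) (e : (Fin n → Bool) → ℝ) {A : ℝ}
    (hA : 0 ≤ A) (he : ∀ x, Inner β J y γ K (4 * r) x → |e x| ≤ A ∧ scGrad e x ≤ A)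
    (x : Fin n → Bool) : scGrad (cut β J y γ K r e) x ≤ 2 * (A ^ 2 * cutG R r) + 2 * A := by
  have := S.nonempty
  set χ := cutoff β J y γ K r
  set u := fun z => χ z * χ z
  have hu1 : ∀ z, |χ z| ≤ 1 := fun z =>
    abs_le.2 ⟨by linarith [(cutoff_mem (β := β) (J := J) (y := y) (γ := γ) (K := K) (r := r) z).1],
      (cutoff_mem z).2⟩
  have hu : scGrad u x ≤ cutG R r := by
    refine (scGrad_mul χ χ x hu1 hu1).trans ?_
    have := scGrad_cutoff (r := r) (S.reg x)
    rw [cutG]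
    linarith
  have hG : 0 ≤ cutG R r := (scGrad_nonneg _ _).trans hu
  by_cases hx : Inner β J y γ K (4 * r) x
  · obtain ⟨h1, h2⟩ := he x hx
    have hd : ∀ j, deriv2 j (cut β J y γ K r e) x ^ 2
        ≤ 2 * (A ^ 2 * deriv2 j u x ^ 2) + 2 * deriv2 j e x ^ 2 := fun j => by
      show deriv2 j (fun z => u z * e z) x ^ 2 ≤ _
      rw [deriv2_mul_flip]
      have h3 : |u (update x j (!x j))| ≤ 1 := by
        rw [abs_mul]; exact mul_le_one₀ (hu1 _) (abs_nonneg _) (hu1 _)
      have := mul_le_mul_of_nonneg_left (sq_abs_le h1) (sq_nonneg (deriv2 j u x))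
      have := mul_le_mul_of_nonneg_right (sq_abs_le h3) (sq_nonneg (deriv2 j e x))
      refine add_sq_le.trans ?_
      rw [mul_pow, mul_pow]
      linarith
    have := mul_le_mul_of_nonneg_left (sum_le_sum (s := univ) fun j _ => hd j)
      (Nat.cast_nonneg (α := ℝ) (Fintype.card (Fin n)))
    rw [sum_add_distrib, ← mul_sum, ← mul_sum, ← mul_sum] at this
    have hA2 := mul_le_mul_of_nonneg_left hu (sq_nonneg A)
    simp only [scGrad] at hA2 h2 ⊢
    linarith
  · obtain ⟨h1, h2⟩ := S.cut_support e x hx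
    have hd : ∀ j, deriv2 j (cut β J y γ K r e) x = 0 := fun j => by
      rw [deriv2_flip, h1, h2 j]; ring
    simp only [scGrad, hd, zero_pow two_ne_zero, sum_const_zero, mul_zero]
    positivity

/-- A scalar product, per site. -/
noncomputable def dotObs (a b : (Fin n → Bool) → Fin n → ℝ) : (Fin n → Bool) → ℝ :=
  fun z => avg fun i => a z i * b z i

/-- A trace against `A' S`, per site. -/
noncomputable def traceObs (β : ℝ) (J : Fin n → Fin n → ℝ) (y γ : Fin n → ℝ) (K : ℕ)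
    (X : (Fin n → Bool) → Expr (Fin n)) : (Fin n → Bool) → ℝ :=
  fun z => avg fun i =>
    ((X z).mat J * (stabA β J y (spins z) K).mat J * stabS β J y γ (spins z) K) i i

lemma dotObs_bounds [Nonempty (Fin n)] {W : ℝ} (a b : (Fin n → Bool) → Fin n → ℝ)
    (x : Fin n → Bool) (hW : 0 ≤ W)
    (ha : qav (a x) ≤ W) (hb : qav (b x) ≤ W) (hA : Act W (jac a x)) (hB : Act W (jac b x)) :
    |dotObs a b x| ≤ W ∧ scGrad (dotObs a b) x ≤ 18 * W ^ 2 := by
  refine ⟨abs_le_of_sq_le_sq ((avg_mul_sq_le _ _).trans ?_) hW, ?_⟩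
  · rw [sq]
    exact mul_le_mul ha hb (qav_nonneg _) hW
  · refine (scGrad_dot a b x (W := W) (K := W) (L := W) (sum_sq_le_of_qav ha)
      (sum_sq_le_of_qav hb) hA hB).trans (le_of_eq ?_)
    ring

/-- Traces against `A' S` are slow. -/
lemma exists_trace_bound (κ Λ R W : ℝ) : ∃ A, ∀ (β C θ r : ℝ) (m K n : ℕ)
    (J : Fin n → Fin n → ℝ) (y γ : Fin n → ℝ) (F : (Fin n → Bool) → ℝ)
    (_ : Setting β C κ θ Λ R r m K J y γ F) (X : (Fin n → Bool) → Expr (Fin n))
    (x : Fin n → Bool), Inner β J y γ K (4 * r) x → MLip W (fun z => (X z).mat J) x →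
      |traceObs β J y γ K X x| ≤ A ∧ scGrad (traceObs β J y γ K X) x ≤ A := by
  set L := (2 / κ) ^ 2 + 8 * ((1 + (√Λ + 1) * (2 / κ)) ^ 2) ^ 2 * R
    * (1 + 4 * ((√Λ + 1) ^ 2) * ((1 + (√Λ + 1) * (2 / κ)) ^ 2) ^ 2 * R) with hL
  refine ⟨|10 * (10 * (W * R) * L)| + 1, fun β C θ r m K n J y γ F S X x hx hX => ?h⟩
  case h =>
    have := S.nonempty
    have hB := S.box x hx.1
    obtain ⟨b0, b1⟩ := onsager_tanhv_mem β γ
    have hJ : RN.OpLe √Λ (Matrix.of J) := opLe_of_act S.hΛ S.op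
    have hc : |-onsager β (tanhv γ)| ≤ 1 := by
      rw [abs_neg, abs_of_nonneg b0]; exact b1.trans S.hβ
    set a := (√Λ + |-onsager β (tanhv γ)|) with ha
    have hres := MLip.res (g := fun z => stabG β J y γ (spins z) K) hB.adm
      (fun j => (S.box _ (hx.2 j)).adm) hJ zero_le_two hB.gle
      (fun j i => (S.box _ (hx.2 j)).gle i) (S.reg x).actG
    have hR0 : 0 ≤ R := act_nonneg (S.reg x).actG
    have hκ := hB.adm.hκ
    have hres' := hres.mono (L := L) (by
      rw [hL]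
      have h0 : 0 ≤ a := by positivity
      have h1 : a ≤ √Λ + 1 := by rw [ha]; linarith
      rw [← ha]
      gcongr)
    have h : MLip _ (fun z => (X z).mat J * (stabA β J y (spins z) K).mat J
        * stabS β J y γ (spins z) K) x := (hX.mul (S.reg x).mlipA).mul hres'
    set Q : ℝ := 10 * (10 * (W * R) * L)
    have hQ : MLip Q (fun z => (X z).mat J * (stabA β J y (spins z) K).mat J
        * stabS β J y γ (spins z) K) x := h
    refine ⟨?_, (hQ.scGrad_trace.trans (le_abs_self _)).trans (le_add_of_nonneg_right zero_le_one)⟩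
    refine (abs_avg_le_forall (b := |Q| + 1) (fun i => ?_) (by positivity)).trans le_rfl
    refine abs_le_of_sq_le_sq ((hQ.act.entry_le i i).trans ?_) (by positivity)
    nlinarith [le_abs_self Q, sq_nonneg |Q|, abs_nonneg Q]

end Vale.Agent.P150.Beta1.Stability
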