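import Vale.Agent.P150.Beta1.Stability.Scalars

/-!
# The five test fields

The TAP point, `δ = ampA (K+2) - tanh γ`, `J δ`, the increment `ampD (K+1)` and
`ampZ (K+1) - γ - J δ`, with the expressions of their gradients and the free values they meet.
-/

namespace Vale.Agent.P150.Beta1.Stability

open Finset Function Real Matrix
open Vale.Agent.P150.Beta1.Algebra Vale.Agent.P150.Beta1.Rule

variable {n : ℕ}

/-- A test field with its expression, at one configuration. -/
structure FieldOK (J : Fin n → Fin n → ℝ) (K : ℕ) (W : ℝ) (v : (Fin n → Bool) → Fin n → ℝ)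
    (X : (Fin n → Bool) → Expr (Fin n)) (x : Fin n → Bool) : Prop where
  norm : ∑ i, v x i ^ 2 ≤ W * n
  grad : frob (jac v x - (X x).mat J) ≤ W
  deg : (X x).deg ≤ K + 4
  size : (X x).size ≤ W
  act : Act W (jac v x)
  mlip : MLip W (fun z => (X z).mat J) x

variable (β : ℝ) (J : Fin n → Fin n → ℝ) (y γ : Fin n → ℝ) (K : ℕ)

/-- The TAP point. -/
noncomputable def fTap : (Fin n → Bool) → Fin n → ℝ := fun _ => tanhv γ

/-- The distance to the TAP point. -/
noncomputable def fGap : (Fin n → Bool) → Fin n → ℝ :=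
  fun z => gap β J y γ (spins z) (K + 2)

/-- Its image under the coupling. -/
noncomputable def fJGap : (Fin n → Bool) → Fin n → ℝ := fun z i => act J (fGap β J y γ K z) i

/-- The last increment. -/
noncomputable def fInc : (Fin n → Bool) → Fin n → ℝ := fun z => ampD β J y (spins z) (K + 1)

/-- The field minus the part `J δ`. -/
noncomputable def fField : (Fin n → Bool) → Fin n → ℝ :=
  fun z i => ampZ β J y (spins z) (K + 1) i - γ i - fJGap β J y γ K z i

/-- The zero expression. -/
def xTap : (Fin n → Bool) → Expr (Fin n) := fun _ => Expr.const 0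

/-- The gradient of `δ`. -/
noncomputable def xGap : (Fin n → Bool) → Expr (Fin n) := fun z =>
  .mul (.diag (ampU β J y (spins z) (K + 2))) (gradE β J y (spins z) (K + 1))

/-- The gradient of `J δ`. -/
noncomputable def xJGap : (Fin n → Bool) → Expr (Fin n) := fun z => .mul .coup (xGap β J y K z)

/-- The gradient of the increment. -/
noncomputable def xInc : (Fin n → Bool) → Expr (Fin n) := fun z =>
  .add (.mul (.diag (ampU β J y (spins z) (K + 1))) (gradE β J y (spins z) K))
    (.mul (.const (-1)) (xGap β J y K z))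

/-- The gradient of the field minus `J δ`. -/
noncomputable def xField : (Fin n → Bool) → Expr (Fin n) := fun z =>
  .add (gradE β J y (spins z) (K + 1)) (.mul (.const (-1)) (xJGap β J y K z))

variable {β J y γ K}

lemma jac_sub_fields (u v : (Fin n → Bool) → Fin n → ℝ) (x : Fin n → Bool) :
    jac (fun z i => u z i - v z i) x = jac u x - jac v x := by
  ext i j
  simp only [jac, Matrix.sub_apply, Matrix.of_apply, deriv2]
  ring

lemma mat_neg_mul (X : Expr (Fin n)) : (Expr.mul (.const (-1)) X).mat J = -X.mat J := by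
  simp [Expr.mat, Expr.mat_const]

lemma fieldOK_of [Nonempty (Fin n)] {C W R' S : ℝ} {m : ℕ} (hG : GoodWords β m C J)
    {v : (Fin n → Bool) → Fin n → ℝ} {X : (Fin n → Bool) → Expr (Fin n)} {x : Fin n → Bool}
    {K : ℕ} (hW : 2 * (max C 1 ^ (K + 4) * S ^ 2 + R') ≤ W)
    (h1 : ∑ i, v x i ^ 2 ≤ W * n) (h2 : frob (jac v x - (X x).mat J) ≤ R')
    (h3 : (X x).deg ≤ K + 4) (h4 : (X x).size ≤ S) (hSW : S ≤ W) {L : ℝ}
    (h5 : MLip L (fun z => (X z).mat J) x) (hLW : L ≤ W) : FieldOK J K W v X x := by
  have h := (expr_act hG (X x) h3 h4).add (act_of_frob h2)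
  rw [add_sub_cancel] at h
  refine ⟨h1, h2.trans ?_, h3, h4.trans hSW, act_mono h hW, h5.mono hLW⟩
  have h6 : 0 ≤ max C 1 ^ (K + 4) * S ^ 2 := by positivity
  have h7 : 0 ≤ R' := (frob_nonneg _).trans h2
  linarith

/-- One constant for all test fields. -/
theorem exists_fields (C Λ R : ℝ) (β : ℝ) (K : ℕ) : ∃ W, 1 ≤ W ∧ ∀ (κ θ r : ℝ) (m n : ℕ)
    (J : Fin n → Fin n → ℝ) (y γ : Fin n → ℝ) (F : (Fin n → Bool) → ℝ)
    (_ : Setting β C κ θ Λ R r m K J y γ F) (x : Fin n → Bool),
    FieldOK J K W (fTap γ) xTap x ∧ FieldOK J K W (fGap β J y γ K) (xGap β J y K) x ∧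
      FieldOK J K W (fJGap β J y γ K) (xJGap β J y K) x ∧
      FieldOK J K W (fInc β J y K) (xInc β J y K) x ∧
      (Inner β J y γ K (4 * r) x → FieldOK J K W (fField β J y γ K) (xField β J y K) x) := by
  set S := 2 * |stabSize β K| with hS
  set R' := 2 * (|R| + max C 1 * |R|) + 4 * |R| with hR'
  set L := 2 * (|R| + 10 * ((1 + 4 * 0) * (10 * (|R| * (10 * (|R| * |R|))))))
    + 2 * (10 * (|R| * |R|) + 10 * ((1 + 4 * 0) * (10 * (|R| * |R|))))
    + 10 * (|R| * (10 * (|R| * |R|))) + 10 * (|R| * |R|) + (1 + 4 * 0) with hL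
  set W := 1 + (20 * |Λ| + 70) + S + R' + L + 2 * (max C 1 ^ (K + 4) * S ^ 2 + R') with hW
  have hL0 : 0 ≤ L := by positivity
  have hR'0 : 0 ≤ R' := by positivity
  have hS0 : 0 ≤ S := by positivity
  have hp : 0 ≤ 2 * (max C 1 ^ (K + 4) * S ^ 2 + R') := by positivity
  refine ⟨W, by linarith [abs_nonneg Λ], fun κ θ r m n J y γ F H x => ?_⟩
  have := H.nonempty
  have hr := H.reg x
  have hR0 : 0 ≤ R := act_nonneg hr.actG
  have eR : |R| = R := abs_of_nonneg hR0
  have eΛ : |Λ| = Λ := abs_of_nonneg H.hΛ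
  have hm := H.deg
  obtain ⟨-, s1, s0⟩ := size_stab β J y x K
  have eS : |stabSize β K| = stabSize β K := abs_of_nonneg ((Expr.size_nonneg _).trans s1)
  have hU : ∀ a, ‖ampU β J y (spins x) a‖ ≤ 1 :=
    norm_ampU_le β J y (spins x) (abs_spins_le x)
  have hc : (Expr.const (-1) : Expr (Fin n)).size ≤ 1 :=
    (Expr.size_const_le _).trans (by norm_num)
  have hgapsize : (xGap β J y K x).size ≤ stabSize β K := by
    simp only [xGap, Expr.size]
    exact (mul_le_of_le_one_left (Expr.size_nonneg _) (hU _)).trans s1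
  have hjsize : (xJGap β J y K x).size ≤ stabSize β K := by
    simp only [xJGap, Expr.size, one_mul]
    exact hgapsize
  have hsS : stabSize β K ≤ S := by rw [hS, eS]; linarith [(Expr.size_nonneg _).trans s1]
  have d1 : (gradE β J y (spins x) (K + 1)).deg ≤ K + 2 := deg_gradE β J y (spins x) (K + 1)
  have d0 : (gradE β J y (spins x) K).deg ≤ K + 1 := deg_gradE β J y (spins x) K
  have hn0 : (0 : ℝ) ≤ n := Nat.cast_nonneg _
  have hgap2 : ∑ i, fGap β J y γ K x i ^ 2 ≤ 4 * n :=
    (sum_le_sum fun i _ => sq_abs_le (abs_gap_le β J y γ x (K + 2) i)).trans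
      (le_of_eq (by simp; ring))
  have hJgap : ∑ i, fJGap β J y γ K x i ^ 2 ≤ Λ * (4 * n) :=
    (H.op _).trans (mul_le_mul_of_nonneg_left hgap2 H.hΛ)
  have hneg : MLip (1 + 4 * 0) (fun _ => (Expr.const (-1) : Expr (Fin n)).mat J) x := by
    simp only [Expr.mat_const]
    exact MLip.scalar (s := fun _ => (-1 : ℝ)) (G := 1) (K := 0) (by norm_num)
      (le_of_eq (by simp [scGrad, deriv2]))
  have lGap : MLip (10 * (R * R)) (fun z => (xGap β J y K z).mat J) x := hr.mlipU.mul hr.mlipP
  have lJGap : MLip (10 * (R * (10 * (R * R)))) (fun z => (xJGap β J y K z).mat J) x :=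
    hr.mlipJ.mul lGap
  have gGap : frob (jac (fGap β J y γ K) x - (xGap β J y K x).mat J) ≤ R := hr.gradM
  have gJGap : frob (jac (fJGap β J y γ K) x - (xJGap β J y K x).mat J) ≤ max C 1 * R := by
    have e : jac (fJGap β J y γ K) x - (xJGap β J y K x).mat J
        = Matrix.of J * (jac (fGap β J y γ K) x - (xGap β J y K x).mat J) := by
      show jac (fun z i => act J (fGap β J y γ K z) i) x - _ = _
      rw [jac_act, Matrix.mul_sub]
      rfl
    rw [e]
    have h := expr_act H.words (Expr.coup) (d := 1) (S := 1) le_rfl le_rfl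
    simp only [Expr.mat, pow_one, one_pow, mul_one] at h
    exact (h.frob_mul_le _).trans
      (mul_le_mul_of_nonneg_left gGap (zero_le_one.trans (le_max_right C 1)))
  have hK : 2 * (max C 1 ^ (K + 4) * S ^ 2 + R') ≤ W := by linarith [abs_nonneg Λ]
  have hSW : S ≤ W := by linarith [abs_nonneg Λ]
  have hLW : L ≤ W := by linarith [abs_nonneg Λ]
  have hWn : ∀ {a : ℝ}, a ≤ 20 * Λ + 70 → a * n ≤ W * n := fun {a} ha =>
    mul_le_mul_of_nonneg_right (by rw [hW, eΛ]; linarith) hn0
  have hmC : 0 ≤ max C 1 * R := mul_nonneg (zero_le_one.trans (le_max_right C 1)) hR0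
  have l1 : 0 ≤ R * R := mul_nonneg hR0 hR0
  have l2 : 0 ≤ R * (R * R) := mul_nonneg hR0 l1
  refine ⟨fieldOK_of (R' := R') (S := S) H.words hK ?_ ?_ ?_ ?_ hSW (L := 1 + 4 * 0) ?_ ?_,
    fieldOK_of (R' := R') (S := S) H.words hK ?_ ?_ ?_ ?_ hSW lGap ?_,
    fieldOK_of (R' := R') (S := S) H.words hK ?_ ?_ ?_ ?_ hSW lJGap ?_,
    fieldOK_of (R' := R') (S := S) H.words hK ?_ ?_ ?_ ?_ hSW
      (((hr.mlipU0.mul hr.mlipP0)).add (hneg.mul lGap)) ?_,
    fun hx => fieldOK_of (R' := R') (S := S) H.words hK ?_ ?_ ?_ ?_ hSW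
      (hr.mlipP.add (hneg.mul lJGap)) ?_⟩
  -- the TAP point
  · refine le_trans ?_ (hWn (a := 1) (by linarith [H.hΛ]))
    exact (sum_le_sum fun i _ => (sq_le_one_iff_abs_le_one _).2 (abs_tanh_le (γ i))).trans
      (le_of_eq (by simp))
  · rw [show fTap γ = fun _ : (Fin n → Bool) => tanhv γ from rfl, jac_const]
    simpa [xTap, Expr.mat_const, frob] using hR'0
  · simp [xTap, Expr.const, Expr.deg]
  · exact (Expr.size_const_le _).trans (by simpa using hS0)
  · simp only [xTap, Expr.mat_const]
    exact (MLip.scalar (s := fun _ => (0 : ℝ)) (G := 1) (K := 0) (by norm_num)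
      (le_of_eq (by simp [scGrad, deriv2])))
  · rw [hW, hL, eR, eΛ]; linarith [H.hΛ]
  -- the gap
  · exact hgap2.trans (hWn (by linarith [H.hΛ]))
  · rw [hR', eR]; linarith
  · simp only [xGap, Expr.deg]; omega
  · exact hgapsize.trans hsS
  · rw [hW, hL, eR, eΛ]; linarith [H.hΛ]
  -- its image
  · exact hJgap.trans (by rw [← mul_assoc]; exact hWn (by linarith [H.hΛ]))
  · rw [hR', eR]; linarith
  · simp only [xJGap, xGap, Expr.deg]; omega
  · exact hjsize.trans hsS
  · rw [hW, hL, eR, eΛ]; linarith [H.hΛ]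
  -- the increment
  · refine le_trans ?_ (hWn (a := 4) (by linarith [H.hΛ]))
    refine (sum_le_sum fun i _ => sq_abs_le (b := 2) ((abs_sub _ _).trans ?_)).trans
      (le_of_eq (by simp; ring))
    linarith [abs_ampA_le β J y x (K + 1) i, abs_ampA_le β J y x (K + 1 + 1) i]
  · have e : fInc β J y K = fun z i => gap β J y γ (spins z) (K + 1) i - fGap β J y γ K z i := by
      funext z i; simp only [fInc, fGap, gap, ampD]; ring
    simp only [e, jac_sub_fields, xInc]
    rw [show (Expr.add _ (Expr.mul (.const (-1)) (xGap β J y K x))).mat J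
      = (Expr.mul (.diag (ampU β J y (spins x) (K + 1))) (gradE β J y (spins x) K)).mat J
        + -(xGap β J y K x).mat J from congrArg (_ + ·) (mat_neg_mul _)]
    rw [← sub_eq_add_neg, sub_sub_sub_comm]
    refine (Rule.frob_sub_le _ _).trans ?_
    rw [hR', eR]
    exact le_trans (mul_le_mul_of_nonneg_left (add_le_add hr.gradA gGap) zero_le_two) (by linarith)
  · simp only [xInc, xGap, Expr.deg, Expr.const]; omega
  · have h := (mul_le_mul hc hgapsize (Expr.size_nonneg _) zero_le_one)
    have h0 := (mul_le_of_le_one_left (Expr.size_nonneg _) (hU (K + 1))).trans s0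
    simp only [xInc, Expr.size] at h h0 ⊢
    rw [hS, eS]
    linarith
  · rw [hW, hL, eR, eΛ]; linarith [H.hΛ]
  -- the field
  · have hz := field_sub_sq H.hβ H.op H.hΛ H.tap hx.1 (by linarith [H.rle])
    rw [Fintype.card_fin] at hz
    have hpt : ∀ i, fField β J y γ K x i ^ 2
        ≤ 2 * (ampZ β J y (spins x) (K + 1) i - γ i) ^ 2 + 2 * fJGap β J y γ K x i ^ 2 := fun i => by
      have := sq_nonneg (ampZ β J y (spins x) (K + 1) i - γ i + fJGap β J y γ K x i)
      simp only [fField]
      linarith
    refine (sum_le_sum fun i _ => hpt i).trans (le_trans ?_ (hWn (a := 20 * Λ + 70) le_rfl))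
    rw [sum_add_distrib, ← mul_sum, ← mul_sum]
    have h4 : 3 * (Λ + 11) * (4 * r) * n ≤ 3 * (Λ + 11) * 1 * n :=
      mul_le_mul_of_nonneg_right (mul_le_mul_of_nonneg_left (by linarith [H.rle])
        (by linarith [H.hΛ])) hn0
    nlinarith [mul_nonneg H.hΛ hn0]
  · have e : fField β J y γ K
        = fun z i => (fun z i => ampZ β J y (spins z) (K + 1) i - γ i) z i
          - fJGap β J y γ K z i := rfl
    rw [e, jac_sub_fields, xField]
    rw [show (Expr.add _ (Expr.mul (.const (-1)) (xJGap β J y K x))).mat J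
      = (gradE β J y (spins x) (K + 1)).mat J + -(xJGap β J y K x).mat J
        from congrArg (_ + ·) (mat_neg_mul _)]
    rw [← sub_eq_add_neg, sub_sub_sub_comm]
    refine (Rule.frob_sub_le _ _).trans ?_
    rw [hR', eR]
    exact le_trans (mul_le_mul_of_nonneg_left (add_le_add hr.gradZ gJGap) zero_le_two) (by linarith)
  · simp only [xField, xJGap, xGap, Expr.deg, Expr.const]; omega
  · have h := (mul_le_mul hc hjsize (Expr.size_nonneg _) zero_le_one)
    simp only [xField, Expr.size] at h ⊢
    rw [hS, eS]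
    linarith
  · rw [hW, hL, eR, eΛ]; linarith [H.hΛ]

/-! ### Free values -/

lemma resFree_neg_mul (G : Fin n → ℝ) (X A : Expr (Fin n)) (i : Fin n) :
    resFree β G (.mul (.mul (.const (-1)) X) A) i = -resFree β G (.mul X A) i := by
  simp only [resFree, Expr.op, Expr.const, LinearMap.comp_apply, topMul_cons]
  ring

lemma resFree_add_mul (G : Fin n → ℝ) (X Y A : Expr (Fin n)) (i : Fin n) :
    resFree β G (.mul (.add X Y) A) i = resFree β G (.mul X A) i + resFree β G (.mul Y A) i := rfl

lemma avg_add_neg (u v : Fin n → ℝ) : avg (fun i => u i + -v i) = avg u - avg v := by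
  simp only [avg, sum_add_distrib, sum_neg_distrib]
  ring

variable (β J y γ K) in
/-- What the traces meet. -/
theorem free_values [Nonempty (Fin n)] (x : Fin n → Bool) :
    (avg (resFree β (stabFree β J y γ (spins x) K)
        (.mul (xGap β J y K x) (stabA β J y (spins x) K))))
      = stabScalar β J y γ (spins x) K
        * (β ^ 2 * avg fun i => ampU β J y (spins x) (K + 2) i * stabFree β J y γ (spins x) K i) ∧
    (avg (resFree β (stabFree β J y γ (spins x) K)
        (.mul (xInc β J y K x) (stabA β J y (spins x) K))))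
      = stabY β (stabFree β J y γ (spins x) K) J y (spins x) K - stabScalar β J y γ (spins x) K
        * (β ^ 2 * avg fun i => ampU β J y (spins x) (K + 2) i * stabFree β J y γ (spins x) K i) ∧
    (avg (resFree β (stabFree β J y γ (spins x) K)
        (.mul (xField β J y K x) (stabA β J y (spins x) K))))
      = stabScalar β J y γ (spins x) K * (β ^ 2 * avg (stabFree β J y γ (spins x) K))
        - onsager β (ampA β J y (spins x) (K + 2))
          * stabY β (stabFree β J y γ (spins x) K) J y (spins x) K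
        - β ^ 2 * avg (stabFree β J y γ (spins x) K) * (stabScalar β J y γ (spins x) K
        * (β ^ 2 * avg fun i => ampU β J y (spins x) (K + 2) i * stabFree β J y γ (spins x) K i)) := by
  set G := stabFree β J y γ (spins x) K
  have h1 := avg_resFree_slope β G J y (spins x) K (ampU β J y (spins x) (K + 2))
  have h2 := avg_resFree_coup β G J y (spins x) K
  have e1 : resFree β G (.mul (xGap β J y K x) (stabA β J y (spins x) K))
      = fun i => ampU β J y (spins x) (K + 2) i
          * resFree β G (.mul (gradE β J y (spins x) (K + 1)) (stabA β J y (spins x) K)) i := rfl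
  refine ⟨?_, ?_, ?_⟩
  · rw [e1, h1]; rfl
  · rw [show resFree β G (.mul (xInc β J y K x) (stabA β J y (spins x) K)) = fun i =>
        ampU β J y (spins x) (K + 1) i
          * resFree β G (.mul (gradE β J y (spins x) K) (stabA β J y (spins x) K)) i
        + -resFree β G (.mul (xGap β J y K x) (stabA β J y (spins x) K)) i from funext fun i => by
      rw [xInc, resFree_add_mul, resFree_neg_mul]; rfl]
    rw [avg_add_neg, show (avg fun i => resFree β G (.mul (xGap β J y K x)
      (stabA β J y (spins x) K)) i) = avg (resFree β G (.mul (xGap β J y K x)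
      (stabA β J y (spins x) K))) from rfl, e1, h1]
    rfl
  · rw [show resFree β G (.mul (xField β J y K x) (stabA β J y (spins x) K)) = fun i =>
        β ^ 2 * stabC β G J y (spins x) K * G i
        + -resFree β G (.mul .coup (.mul (.diag (ampU β J y (spins x) (K + 2)))
            (.mul (gradE β J y (spins x) (K + 1)) (stabA β J y (spins x) K)))) i
        from funext fun i => by
          rw [xField, resFree_add_mul, resFree_neg_mul, resFree_grad_stabA]; rfl]
    rw [avg_add_neg, show (avg fun i => resFree β G (.mul .coup (.mul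
      (.diag (ampU β J y (spins x) (K + 2))) (.mul (gradE β J y (spins x) (K + 1))
      (stabA β J y (spins x) K)))) i) = avg (resFree β G (.mul .coup (.mul
      (.diag (ampU β J y (spins x) (K + 2))) (.mul (gradE β J y (spins x) (K + 1))
      (stabA β J y (spins x) K))))) from rfl, h2]
    have e : (avg fun i => β ^ 2 * stabC β G J y (spins x) K * G i)
        = β ^ 2 * stabC β G J y (spins x) K * avg G := by
      simp only [avg, ← mul_sum, mul_div_assoc]
    rw [e, stabScalar]
    ring

end Vale.Agent.P150.Beta1.Stability
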